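import Mathlib.Algebra.Group.Action.Defs
import Mathlib.Algebra.BigOperators.Field
import Mathlib.Algebra.BigOperators.Ring.Finset
import Mathlib.Algebra.Order.BigOperators.Ring.Finset
import Mathlib.Data.Nat.Choose.Sum
import Mathlib.Analysis.SpecialFunctions.Log.Basic
import Mathlib.Analysis.SpecialFunctions.Log.Monotone
import Mathlib.Analysis.SpecialFunctions.Pow.Real
import Mathlib.Analysis.Complex.ExponentialBounds

/-!
# Sparse sets under a finite group action

`X F G` is the probability that a uniformly random group element maps `F` into `G`.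
-/

open Finset Real

namespace Vale.Agent.P064

variable {Γ Ω : Type*} [Group Γ] [Fintype Γ] [DecidableEq Ω] [MulAction Γ Ω]

/-- Image of a finite set under a group element. -/
def img (g : Γ) (F : Finset Ω) : Finset Ω := F.image (g • ·)

omit [Fintype Γ] in
lemma img_mul (a b : Γ) (F : Finset Ω) : img (a * b) F = img a (img b F) := by
  simp [img, image_image, Function.comp_def, mul_smul]

omit [Fintype Γ] in
lemma img_union (a : Γ) (F G : Finset Ω) : img a (F ∪ G) = img a F ∪ img a G := image_union _ _

omit [Fintype Γ] in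
lemma card_img (a : Γ) (F : Finset Ω) : (img a F).card = F.card :=
  card_image_of_injective _ (MulAction.injective a)

omit [Fintype Γ] in
lemma img_one (F : Finset Ω) : img (1 : Γ) F = F := by simp [img]

omit [Fintype Γ] in
lemma img_subset_img (a : Γ) {F G : Finset Ω} : img a F ⊆ img a G ↔ F ⊆ G :=
  image_subset_image_iff (MulAction.injective a)

omit [Fintype Γ] in
lemma img_inv_subset (a : Γ) {F G : Finset Ω} : img a⁻¹ F ⊆ G ↔ F ⊆ img a G := by
  rw [← img_subset_img a, ← img_mul, mul_inv_cancel, img_one]

variable (Γ) in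
/-- Probability that a random group element maps `F` into `G`. -/
noncomputable def X (F G : Finset Ω) : ℝ :=
  ((univ.filter fun g : Γ => img g F ⊆ G).card : ℝ) / Fintype.card Γ

lemma card_pos' : (0 : ℝ) < Fintype.card Γ := Nat.cast_pos.2 Fintype.card_pos

lemma X_nonneg (F G : Finset Ω) : 0 ≤ X Γ F G := by unfold X; positivity

lemma exists_of_X_pos {F G : Finset Ω} (h : 0 < X Γ F G) : ∃ g : Γ, img g F ⊆ G := by
  by_contra hc
  simp only [not_exists] at hc
  rw [X, filter_false_of_mem fun g _ => hc g] at h
  simp at h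

lemma card_le_of_X_pos {F G : Finset Ω} (h : 0 < X Γ F G) : F.card ≤ G.card := by
  obtain ⟨g, hg⟩ := exists_of_X_pos h
  simpa [card_img] using card_le_card hg

lemma X_img_left (a : Γ) (F G : Finset Ω) : X Γ (img a F) G = X Γ F G := by
  unfold X
  congr 2
  refine card_bij' (fun g _ => g * a) (fun g _ => g * a⁻¹) ?_ ?_ ?_ ?_ <;>
    intro g hg <;> simp [mem_filter, img_mul] at hg ⊢ <;> try exact hg
  rwa [← img_mul a⁻¹, inv_mul_cancel, img_one]

lemma X_img_right (a : Γ) (F G : Finset Ω) : X Γ F (img a G) = X Γ F G := by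
  unfold X
  congr 2
  refine card_bij' (fun g _ => a⁻¹ * g) (fun g _ => a * g) ?_ ?_ ?_ ?_ <;>
    intro g hg <;> simp [mem_filter, img_mul] at hg ⊢
  · rwa [img_inv_subset]
  · rwa [img_subset_img]

lemma X_empty (G : Finset Ω) : X Γ (∅ : Finset Ω) G = 1 := by
  simp [X, img, (card_pos' (Γ := Γ)).ne']

lemma X_le_one (F G : Finset Ω) : X Γ F G ≤ 1 := by
  rw [X, div_le_one card_pos']
  exact_mod_cast card_le_univ _

variable (Γ) in
/-- `H` is `q`-sparse: every subset is fixed with probability at most `2 q ^ size`. -/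
def Sparse (H : Finset Ω) (q : ℝ) : Prop := ∀ F ⊆ H, X Γ F F ≤ 2 * q ^ F.card

omit [Fintype Γ] in
lemma eq_of_img_subset {a : Γ} {F : Finset Ω} (h : img a F ⊆ F) : img a F = F :=
  eq_of_subset_of_card_le h (card_img a F).ge

variable {H : Finset Ω} {q : ℝ}

lemma Sparse.fix_le (hs : Sparse Γ H q) {F G : Finset Ω} (hG : G ⊆ H) (hF : 0 < X Γ F G) :
    X Γ F F ≤ 2 * q ^ F.card := by
  obtain ⟨g, hg⟩ := exists_of_X_pos hF
  have h1 : X Γ F F = X Γ (img g F) (img g F) := by rw [X_img_left, X_img_right]
  rw [h1, ← card_img g F]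
  exact hs _ (hg.trans hG)

/-- The trivial counting bound: the number of possible images is at most a binomial coefficient. -/
lemma Sparse.X_le_choose (hs : Sparse Γ H q) (hq : 0 ≤ q) {S G : Finset Ω} (hG : G ⊆ H) :
    X Γ S G ≤ 2 * (G.card.choose S.card) * q ^ S.card := by
  classical
  set s := S.card with hsdef
  have key : ∀ T ∈ G.powersetCard s,
      ((univ.filter fun g : Γ => img g S = T).card : ℝ) ≤ 2 * q ^ s * Fintype.card Γ := by
    intro T hT
    rcases (univ.filter fun g : Γ => img g S = T).eq_empty_or_nonempty with h | ⟨g0, h0⟩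
    · rw [h]; simp; positivity
    · simp only [mem_filter, mem_univ, true_and] at h0
      obtain ⟨hTG, hTc⟩ := mem_powersetCard.1 hT
      have hsub : (univ.filter fun g : Γ => img g S = T).card
          ≤ (univ.filter fun g : Γ => img g T ⊆ T).card := by
        refine card_le_card_of_injOn (fun g => g * g0⁻¹) ?_ (fun a _ b _ h => mul_right_cancel h)
        intro g hg
        simp only [coe_filter, mem_univ, true_and, Set.mem_ofPred_eq] at hg ⊢
        rw [img_mul]
        conv_lhs => rw [← h0, ← img_mul g0⁻¹, inv_mul_cancel, img_one, hg]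
      have := hs T (hTG.trans hG)
      rw [X, div_le_iff₀ card_pos', hTc] at this
      exact le_trans (by exact_mod_cast hsub) this
  have hcount : (univ.filter fun g : Γ => img g S ⊆ G).card
      ≤ ∑ T ∈ G.powersetCard s, (univ.filter fun g : Γ => img g S = T).card := by
    rw [← card_biUnion]
    · refine card_le_card fun g hg => ?_
      simp only [mem_filter, mem_univ, true_and] at hg
      simp only [mem_biUnion, mem_filter, mem_univ, true_and]
      exact ⟨_, mem_powersetCard.2 ⟨hg, card_img g S⟩, rfl⟩
    · intro T _ T' _ hne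
      simp only [Function.onFun, disjoint_left, mem_filter, mem_univ, true_and]
      intro g h1 h2
      exact hne (h1.symm.trans h2)
  rw [X, div_le_iff₀ card_pos']
  calc ((univ.filter fun g : Γ => img g S ⊆ G).card : ℝ)
      ≤ ∑ T ∈ G.powersetCard s, ((univ.filter fun g : Γ => img g S = T).card : ℝ) := by
        exact_mod_cast hcount
    _ ≤ ∑ _T ∈ G.powersetCard s, 2 * q ^ s * (Fintype.card Γ : ℝ) := sum_le_sum key
    _ = _ := by simp [card_powersetCard]; ring

end Vale.Agent.P064
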