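import Vale.Agent.P064.Neighbour
import Mathlib.Combinatorics.Hall.Basic

/-!
# Tokens

In a sparse graph every edge can hand `K` tokens to its two ends so that no vertex gets more than
`cap`. An edge's child is an end holding at least half of them.
-/

open Finset Real
open scoped Classical

namespace Vale.Agent.P064

variable {n : ℕ}

/-- A distribution of tokens on the edges of `H`. -/
structure Tokens (H : Finset (Sym2 (Fin n))) where
  K : ℕ
  cap : ℕ
  u : Sym2 (Fin n) → Fin n → ℕ
  K_pos : 0 < K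
  split : ∀ a b, a ≠ b → s(a, b) ∈ H → u s(a, b) a + u s(a, b) b = K
  load : ∀ v, ∑ y ∈ H.filter (v ∈ ·), u y v ≤ cap

/-- Tokens exist when no vertex set spans too many edges. -/
theorem exists_tokens {H : Finset (Sym2 (Fin n))} {K cap : ℕ} (hK : 0 < K)
    (hH : ∀ T ⊆ H, ∀ W : Finset (Fin n), (∀ y ∈ T, ∀ w ∈ y, w ∈ W) → K * T.card ≤ cap * W.card) :
    ∃ τ : Tokens H, τ.K = K ∧ τ.cap = cap := by
  let t : {y // y ∈ H} × Fin K → Finset (Fin n × Fin cap) :=
    fun i => univ.filter fun p => p.1 ∈ i.1.1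
  obtain ⟨f, hf, hft⟩ := (all_card_le_biUnion_card_iff_exists_injective t).1 fun s => by
    set T := s.image fun i => i.1.1 with hT
    set W : Finset (Fin n) := univ.filter fun w => ∃ y ∈ T, w ∈ y with hW
    have h1 : s.card ≤ K * T.card := by
      refine (card_le_card (t := (univ.filter fun y : {y // y ∈ H} => y.1 ∈ T) ×ˢ univ)
        fun i hi => mem_product.2 ⟨mem_filter.2 ⟨mem_univ _, mem_image_of_mem _ hi⟩,
          mem_univ _⟩).trans ?_
      rw [card_product, card_univ, Fintype.card_fin, mul_comm]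
      refine Nat.mul_le_mul_left _ (card_le_card_of_injOn Subtype.val (fun y hy => ?_)
        (Subtype.val_injective.injOn))
      exact (mem_filter.1 hy).2
    have h2 : s.biUnion t = W ×ˢ univ := by
      ext ⟨w, c⟩
      simp only [mem_biUnion, t, mem_filter, mem_univ, true_and, mem_product, and_true, hW, hT,
        mem_image]
      constructor
      · rintro ⟨i, hi, hw⟩
        exact ⟨_, ⟨i, hi, rfl⟩, hw⟩
      · rintro ⟨_, ⟨i, hi, rfl⟩, hw⟩
        exact ⟨i, hi, hw⟩
    rw [h2, card_product, card_univ, Fintype.card_fin, mul_comm]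
    refine h1.trans (hH T ?_ W fun y hy w hw => mem_filter.2 ⟨mem_univ _, y, hy, hw⟩)
    intro y hy
    obtain ⟨i, -, rfl⟩ := mem_image.1 hy
    exact i.1.2
  refine ⟨⟨K, cap, fun y v =>
    if hy : y ∈ H then (univ.filter fun i : Fin K => (f (⟨y, hy⟩, i)).1 = v).card else 0,
    hK, ?_, ?_⟩, rfl, rfl⟩
  · intro a b hab hy
    simp only [dif_pos hy]
    rw [← card_union_of_disjoint (disjoint_filter.2 fun i _ h1 h2 => hab (h1.symm.trans h2))]
    have : (univ.filter fun i : Fin K => (f (⟨s(a, b), hy⟩, i)).1 = a)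
        ∪ (univ.filter fun i : Fin K => (f (⟨s(a, b), hy⟩, i)).1 = b) = univ := by
      refine eq_univ_of_forall fun i => ?_
      have := (mem_filter.1 (hft (⟨s(a, b), hy⟩, i))).2
      simpa using this
    rw [this, card_univ, Fintype.card_fin]
  · intro v
    set S := (univ : Finset ({y // y ∈ H} × Fin K)).filter fun i => (f i).1 = v with hS
    have h1 : ∑ y ∈ H.filter (v ∈ ·),
        (if hy : y ∈ H then (univ.filter fun i : Fin K => (f (⟨y, hy⟩, i)).1 = v).card else 0)
          ≤ S.card := by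
      rw [hS, card_filter, Fintype.sum_prod_type, univ_eq_attach]
      refine le_trans (sum_le_sum_of_subset (filter_subset _ _)) ?_
      rw [← sum_attach H]
      exact le_of_eq (sum_congr rfl fun y _ => by rw [dif_pos y.2, card_filter])
    refine h1.trans ?_
    calc S.card ≤ (univ : Finset (Fin cap)).card :=
          card_le_card_of_injOn (fun i => (f i).2) (fun _ _ => mem_univ _) fun i hi j hj e => by
            refine hf (Prod.ext ?_ e)
            rw [(mem_filter.1 hi).2, (mem_filter.1 hj).2]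
      _ = cap := by rw [card_univ, Fintype.card_fin]

namespace Tokens

variable {H : Finset (Sym2 (Fin n))} (τ : Tokens H)

/-- The edges at `v` giving it at least `θ` tokens. -/
noncomputable def rich (θ : ℕ) (v : Fin n) : Finset (Sym2 (Fin n)) :=
  H.filter fun y => v ∈ y ∧ θ ≤ τ.u y v

lemma card_rich (θ : ℕ) (v : Fin n) : (τ.rich θ v).card * θ ≤ τ.cap := by
  rw [← smul_eq_mul]
  refine le_trans (card_nsmul_le_sum _ (fun y => τ.u y v) θ fun y hy => (mem_filter.1 hy).2.2)
    (le_trans (sum_le_sum_of_subset fun y hy => ?_) (τ.load v))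
  exact mem_filter.2 ⟨(mem_filter.1 hy).1, (mem_filter.1 hy).2.1⟩

/-- The position of an edge among those rich at `v`. -/
noncomputable def pos (θ : ℕ) (v : Fin n) (y : Sym2 (Fin n)) : ℕ :=
  (τ.rich θ v).toList.idxOf y

lemma pos_lt {θ : ℕ} {v : Fin n} {y : Sym2 (Fin n)} (hy : y ∈ τ.rich θ v) :
    τ.pos θ v y < (τ.rich θ v).card := by
  rw [← length_toList]
  exact List.idxOf_lt_length_iff.2 (mem_toList.2 hy)

lemma pos_inj {θ : ℕ} {v : Fin n} {y y' : Sym2 (Fin n)} (hy : y ∈ τ.rich θ v)
    (he : τ.pos θ v y = τ.pos θ v y') : y = y' :=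
  (List.idxOf_inj (mem_toList.2 hy)).1 he

/-- A set of vertices cannot hold more tokens than its capacity. -/
lemma sum_le (X : Finset (Fin n)) (E : Fin n → Finset (Sym2 (Fin n)))
    (hE : ∀ x ∈ X, ∀ y ∈ E x, y ∈ H ∧ x ∈ y) :
    ∑ x ∈ X, ∑ y ∈ E x, τ.u y x ≤ X.card * τ.cap := by
  rw [← smul_eq_mul]
  refine sum_le_card_nsmul _ _ _ fun x hx => le_trans (sum_le_sum_of_subset fun y hy => ?_)
    (τ.load x)
  exact mem_filter.2 (hE x hx y hy)

end Tokens

end Vale.Agent.P064
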