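import Vale.Agent.P064.Kraft
import Vale.Agent.P064.Tokens

/-!
# Marked ends

In a sparse graph the ends of edges can be marked so that each edge has a marked end, a vertex has
few marks, and a piece with no mark at its attachments has balance bounded below.
-/

open Finset Real
open scoped Classical

namespace Vale.Agent.P064

variable {n : ℕ}

/-- Marked ends of the edges of `H`. -/
structure Marks (H : Finset (Sym2 (Fin n))) (lam : ℝ) where
  rich : Sym2 (Fin n) → Fin n → Prop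
  rich_mem : ∀ y x, rich y x → x ∈ y
  rich_exists : ∀ y ∈ H, ∃ x, rich y x
  rich_card : ∀ x, ((H.filter fun y => rich y x).card : ℝ) ≤ log (n : ℝ) + 2
  pot_ge : ∀ p : Piece n, p.2 ⊆ H → (∀ y ∈ p.2, ∃ v ∈ p.1, v ∈ y) →
    (∀ y ∈ p.2, ∀ x ∈ y, x ∉ p.1 → ¬ rich y x) →
      -(2 * (p.1.card : ℝ) + 3 * p.2.card) ≤ pot lam p

/-- The edges of a piece cannot take more tokens than its vertices and their outer ends offer. -/
lemma tokens_piece {H : Finset (Sym2 (Fin n))} (hH : H ⊆ allEdges n) (τ : Tokens H) (p : Piece n)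
    (hp : p.2 ⊆ H) (hin : ∀ y ∈ p.2, ∃ v ∈ p.1, v ∈ y) {t : ℝ} (ht : 0 ≤ t)
    (hout : ∀ y ∈ p.2, ∀ x ∈ y, x ∉ p.1 → (τ.u y x : ℝ) ≤ t) :
    (τ.K : ℝ) * p.2.card ≤ (τ.cap : ℝ) * p.1.card + t * p.2.card := by
  have h1 : ∀ y ∈ p.2,
      (τ.K : ℝ) ≤ (∑ v ∈ p.1.filter (· ∈ y), (τ.u y v : ℝ)) + t := by
    intro y hy
    have hyH := hp hy
    obtain ⟨v, hv, hvy⟩ := hin y hy
    obtain ⟨w, rfl⟩ := Sym2.mem_iff_exists.1 hvy
    have hne : v ≠ w := fun h => mem_allEdges.1 (hH hyH) (by rw [h]; exact Sym2.mk_isDiag_iff.2 rfl)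
    have hK : (τ.K : ℝ) = τ.u s(v, w) v + τ.u s(v, w) w := by exact_mod_cast (τ.split v w hne hyH).symm
    by_cases hw : w ∈ p.1
    · have : ∑ x ∈ ({v, w} : Finset (Fin n)), (τ.u s(v, w) x : ℝ)
          ≤ ∑ x ∈ p.1.filter (· ∈ s(v, w)), (τ.u s(v, w) x : ℝ) := by
        refine sum_le_sum_of_subset_of_nonneg (fun x hx => ?_) fun x _ _ => Nat.cast_nonneg _
        simp only [mem_insert, mem_singleton] at hx
        rcases hx with rfl | rfl <;> simp [hv, hw]
      rw [sum_pair hne] at this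
      linarith
    · have : (τ.u s(v, w) v : ℝ) ≤ ∑ x ∈ p.1.filter (· ∈ s(v, w)), (τ.u s(v, w) x : ℝ) :=
        single_le_sum (f := fun x => (τ.u s(v, w) x : ℝ)) (fun x _ => Nat.cast_nonneg _)
          (mem_filter.2 ⟨hv, Sym2.mem_mk_left v w⟩)
      have := hout _ hy w (Sym2.mem_mk_right v w) hw
      linarith
  calc (τ.K : ℝ) * p.2.card = ∑ _y ∈ p.2, (τ.K : ℝ) := by rw [sum_const, nsmul_eq_mul]; ring
    _ ≤ ∑ y ∈ p.2, ((∑ v ∈ p.1.filter (· ∈ y), (τ.u y v : ℝ)) + t) := sum_le_sum h1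
    _ = (∑ v ∈ p.1, ∑ y ∈ p.2.filter (v ∈ ·), (τ.u y v : ℝ)) + t * p.2.card := by
        rw [sum_add_distrib, sum_const, nsmul_eq_mul, mul_comm t]
        congr 1
        simp only [sum_filter]
        exact sum_comm
    _ ≤ _ := by
        refine add_le_add ?_ le_rfl
        rw [mul_comm, ← nsmul_eq_mul]
        refine sum_le_card_nsmul _ _ _ fun v _ => ?_
        refine le_trans (sum_le_sum_of_subset_of_nonneg (filter_subset_filter _ hp)
          fun y _ _ => Nat.cast_nonneg _) ?_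
        exact_mod_cast τ.load v

/-- A sparse graph with small density has marks. -/
theorem exists_marks {H : Finset (Sym2 (Fin n))} {q : ℝ} (_hn : 2 ≤ n) (hH : H ⊆ allEdges n)
    (hq : 0 < q) (hs : Sparse (Equiv.Perm (Fin n)) H q) (hlam : 8 ≤ log (1 / q)) :
    Nonempty (Marks H (log (1 / q))) := by
  set lam := log (1 / q) with hlam'
  set L := log (n : ℝ)
  have hlam0 : 0 < lam := by linarith
  have hL : 0 ≤ L := log_natCast_nonneg n
  have hl2 : 0 ≤ log (2 : ℝ) := log_nonneg one_le_two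
  have hl2' : log (2 : ℝ) ≤ 1 := by linarith [log_two_lt_d9]
  obtain ⟨K, hK1, hK8⟩ : ∃ K : ℕ, lam ≤ K ∧ 8 ≤ K :=
    ⟨⌈lam⌉₊ + 8, (Nat.le_ceil _).trans (by exact_mod_cast Nat.le_add_right _ _), by omega⟩
  have hK0 : (0 : ℝ) < K := by exact_mod_cast (show 0 < K by omega)
  set cap := ⌈(K : ℝ) * (L + log 2) / lam⌉₊ with hcap
  have hcap1 : (cap : ℝ) * lam ≤ K * (L + 2) := by
    have h := (Nat.ceil_lt_add_one (show 0 ≤ (K : ℝ) * (L + log 2) / lam by positivity)).le
    rw [← hcap, ← mul_le_mul_iff_left₀ hlam0] at h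
    rw [add_mul, div_mul_cancel₀ _ hlam0.ne', one_mul] at h
    nlinarith [mul_le_mul_of_nonneg_left hl2' hK0.le]
  have hhall : ∀ T ⊆ H, ∀ W : Finset (Fin n),
      (∀ y ∈ T, ∀ w ∈ y, w ∈ W) → K * T.card ≤ cap * W.card := by
    intro T hT W hW
    rcases T.eq_empty_or_nonempty with h0 | ⟨y, hy⟩
    · simp [h0]
    have hW1 : (1 : ℝ) ≤ W.card := by
      exact_mod_cast card_pos.2 ⟨(Quot.out y).1, hW y hy _ (Sym2.out_fst_mem y)⟩
    have h1 := spanned_le hq hs hT hW
    rw [← hlam'] at h1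
    have h2 : (T.card : ℝ) * lam ≤ W.card * (L + log 2) := by nlinarith
    have h3 : (K : ℝ) * (L + log 2) / lam ≤ cap := Nat.le_ceil _
    rw [div_le_iff₀ hlam0] at h3
    suffices h : ((K : ℝ) * T.card) ≤ cap * W.card by exact_mod_cast h
    refine le_of_mul_le_mul_right ?_ hlam0
    calc (K : ℝ) * T.card * lam = K * (T.card * lam) := by ring
      _ ≤ K * (W.card * (L + log 2)) := mul_le_mul_of_nonneg_left h2 hK0.le
      _ = W.card * (K * (L + log 2)) := by ring
      _ ≤ W.card * (cap * lam) := mul_le_mul_of_nonneg_left h3 (Nat.cast_nonneg _)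
      _ = _ := by ring
  obtain ⟨τ, hτK, hτcap⟩ := exists_tokens (by omega : 0 < K) hhall
  set θ := ⌈3 * (K : ℝ) / lam⌉₊ with hθ
  have hθlo : 3 * (K : ℝ) / lam ≤ θ := Nat.le_ceil _
  have hθ0 : (0 : ℝ) < θ := (by positivity : (0 : ℝ) < 3 * K / lam).trans_le hθlo
  have hθhi : (θ : ℝ) < 3 * K / lam + 1 := Nat.ceil_lt_add_one (by positivity)
  have hθK : 2 * θ ≤ K + 1 := by
    have h8 : 3 * (K : ℝ) / lam ≤ 3 * K / 8 :=
      div_le_div_of_nonneg_left (by positivity) (by norm_num) hlam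
    have hK8' : (8 : ℝ) ≤ K := by exact_mod_cast hK8
    have : (2 * θ : ℝ) ≤ (K + 1 : ℕ) := by push_cast; linarith
    exact_mod_cast this
  refine ⟨⟨fun y x => y ∈ H ∧ x ∈ y ∧ θ ≤ τ.u y x, fun y x h => h.2.1, fun y hy => ?_,
    fun x => ?_, fun p hp hin hout => ?_⟩⟩
  · induction y using Sym2.ind with
    | _ a b =>
      have hne : a ≠ b := fun h => mem_allEdges.1 (hH hy) (by rw [h]; exact Sym2.mk_isDiag_iff.2 rfl)
      have := τ.split a b hne hy
      by_cases ha : θ ≤ τ.u s(a, b) a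
      · exact ⟨a, hy, Sym2.mem_mk_left a b, ha⟩
      · exact ⟨b, hy, Sym2.mem_mk_right a b, by omega⟩
  · have h1 := τ.card_rich θ x
    have e : H.filter (fun y => y ∈ H ∧ x ∈ y ∧ θ ≤ τ.u y x) = τ.rich θ x :=
      filter_congr fun y hy => by simp [hy]
    suffices ((τ.rich θ x).card : ℝ) ≤ L + 2 by
      rw [← e] at this
      convert this using 4
    rw [hτcap] at h1
    have h2 : ((τ.rich θ x).card : ℝ) * θ ≤ cap := by exact_mod_cast h1
    refine le_of_mul_le_mul_right ?_ (show (0 : ℝ) < 3 * K by positivity)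
    rw [div_le_iff₀ hlam0] at hθlo
    calc ((τ.rich θ x).card : ℝ) * (3 * K) ≤ (τ.rich θ x).card * (θ * lam) :=
          mul_le_mul_of_nonneg_left hθlo (Nat.cast_nonneg _)
      _ ≤ cap * lam := by rw [← mul_assoc]; exact mul_le_mul_of_nonneg_right h2 hlam0.le
      _ ≤ _ := hcap1.trans (by nlinarith)
  · have ht : (0 : ℝ) ≤ 3 * K / lam := by positivity
    have h := tokens_piece hH τ p hp hin ht fun y hy x hx hxp => by
      have h1 : ¬ θ ≤ τ.u y x := fun h => hout y hy x hx hxp ⟨hp hy, hx, h⟩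
      have h2 : (τ.u y x : ℝ) + 1 ≤ θ := by exact_mod_cast (show τ.u y x + 1 ≤ θ by omega)
      linarith
    rw [hτK, hτcap, ← mul_le_mul_iff_left₀ hlam0, add_mul,
      show 3 * (K : ℝ) / lam * p.2.card * lam = 3 * K * p.2.card by field_simp] at h
    have h2 : (cap : ℝ) * p.1.card * lam ≤ K * (L + 2) * p.1.card := by
      rw [mul_right_comm]; exact mul_le_mul_of_nonneg_right hcap1 (Nat.cast_nonneg _)
    have h3 : (p.2.card : ℝ) * lam ≤ p.1.card * (L + 2) + 3 * p.2.card := by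
      refine le_of_mul_le_mul_left ?_ hK0
      linarith
    simp only [pot]
    linarith

lemma pot_move (g : Equiv.Perm (Fin n)) (lam : ℝ) (p : Piece n) :
    pot lam (p.1.image g, img g p.2) = pot lam p := by
  simp only [pot, card_image_of_injective _ g.injective, card_img]

/-- Marks move with the graph. -/
theorem Marks.translate {H : Finset (Sym2 (Fin n))} {lam : ℝ} (M : Marks H lam)
    (g : Equiv.Perm (Fin n)) :
    ∃ M' : Marks (img g H) lam, ∀ y x, M'.rich (g • y) (g x) ↔ M.rich y x := by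
  have hmem : ∀ (σ : Equiv.Perm (Fin n)) (y : Sym2 (Fin n)) (x : Fin n), σ x ∈ σ • y ↔ x ∈ y :=
    fun σ y x => by
      rw [smul_sym2, Sym2.mem_map]
      exact ⟨fun ⟨a, ha, h⟩ => σ.injective h ▸ ha, fun h => ⟨x, h, rfl⟩⟩
  refine ⟨⟨fun y x => M.rich (g⁻¹ • y) (g⁻¹ x), fun y x h => (hmem g⁻¹ y x).1 (M.rich_mem _ _ h),
    fun y hy => ?_, fun x => ?_, fun p hp hin hout => ?_⟩, fun y x => by simp [← mul_smul]⟩
  · obtain ⟨z, hz, rfl⟩ := mem_image.1 hy
    obtain ⟨x, hx⟩ := M.rich_exists z hz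
    exact ⟨g x, by simpa [← mul_smul] using hx⟩
  · refine le_trans (le_of_eq ?_) (M.rich_card (g⁻¹ x))
    rw [img, filter_image, card_image_of_injective _ (MulAction.injective g)]
    simp [← mul_smul]
  · rw [← pot_move g⁻¹]
    have h := M.pot_ge (p.1.image ⇑g⁻¹, img g⁻¹ p.2) ((img_inv_subset g).2 hp)
      (fun y hy => by
        obtain ⟨z, hz, rfl⟩ := mem_image.1 hy
        obtain ⟨v, hv, hvz⟩ := hin z hz
        exact ⟨g⁻¹ v, mem_image_of_mem _ hv, (hmem g⁻¹ z v).2 hvz⟩)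
      (fun y hy x hx hxp => by
        obtain ⟨z, hz, rfl⟩ := mem_image.1 hy
        obtain ⟨v, rfl⟩ : ∃ v, g⁻¹ v = x := g⁻¹.surjective x
        exact hout z hz v ((hmem g⁻¹ z v).1 hx) fun h => hxp (mem_image_of_mem _ h))
    simp only [card_image_of_injective _ g⁻¹.injective, card_img] at h
    exact h

/-- A sparse graph stays sparse when moved. -/
theorem Sparse.translate {H : Finset (Sym2 (Fin n))} {q : ℝ}
    (hs : Sparse (Equiv.Perm (Fin n)) H q) (g : Equiv.Perm (Fin n)) :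
    Sparse (Equiv.Perm (Fin n)) (img g H) q := by
  intro F hF
  obtain ⟨F₀, hF₀, rfl⟩ : ∃ F₀ ⊆ H, F = img g F₀ :=
    ⟨img g⁻¹ F, (img_inv_subset g).2 hF, by rw [← img_mul, mul_inv_cancel, img_one]⟩
  rw [X_img_left, X_img_right, card_img]
  exact hs F₀ hF₀

lemma mem_class_iff {p p' : Piece n} : p' ∈ pieceClass p ↔ SameClass p p' := by
  simp [pieceClass]

/-- A class has few twins in a sparse graph. -/
theorem classWgt_le {H U : Finset (Sym2 (Fin n))} {q : ℝ} (hn : 2 ≤ n) (hq : 0 < q)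
    (hs : Sparse (Equiv.Perm (Fin n)) H q) (hU : U ⊆ H) {p : Piece n} (hp : p ∈ units U) :
    classWgt U (pieceClass p) ≤ (p.1.card : ℝ) ^ 2
      * (exp 2 * exp (pot (log (1 / q)) p) + ((att p).card : ℝ) * log (n : ℝ) + 1) := by
  set S := (units U).filter (· ∈ pieceClass p) with hS
  let apart : Finset (Piece n) → Prop := fun Q =>
    ∀ a ∈ Q, ∀ b ∈ Q, a ≠ b → Disjoint a.1 b.1
  obtain ⟨Q, hQ, hmax⟩ := exists_max_image (S.powerset.filter apart) card
    ⟨∅, mem_filter.2 ⟨empty_mem_powerset _, fun a ha => absurd ha (notMem_empty a)⟩⟩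
  obtain ⟨hQS, hQa⟩ := mem_filter.1 hQ
  rw [mem_powerset] at hQS
  have hunit : IsUnit' U p := (mem_filter.1 hp).2
  have hSne : ∀ a ∈ S, IsUnit' U a ∧ SameClass p a := fun a ha =>
    ⟨(mem_filter.1 (mem_filter.1 ha).1).2, mem_class_iff.1 (mem_filter.1 ha).2⟩
  set A := Q.biUnion Prod.fst with hA
  have hmeet : ∀ a ∈ S, ∃ v ∈ A, v ∈ a.1 := by
    intro a ha
    by_contra hc
    push Not at hc
    have hd : ∀ b ∈ Q, Disjoint a.1 b.1 := fun b hb => disjoint_left.2 fun v hv hvb =>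
      hc v (mem_biUnion.2 ⟨b, hb, hvb⟩) hv
    obtain ⟨v, hv⟩ := (hSne a ha).1.nonempty
    have haQ : a ∉ Q := fun h => hc v (mem_biUnion.2 ⟨a, h, hv⟩) hv
    have h2 : insert a Q ∈ S.powerset.filter apart := by
      refine mem_filter.2 ⟨mem_powerset.2 (insert_subset ha hQS), ?_⟩
      intro x hx y hy hne
      rcases mem_insert.1 hx with e₁ | k₁ <;> rcases mem_insert.1 hy with e₂ | k₂
      · exact absurd (e₁.trans e₂.symm) hne
      · rw [e₁]; exact hd y k₂
      · rw [e₂]; exact (hd x k₁).symm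
      · exact hQa x k₁ y k₂ hne
    have := hmax _ h2
    rw [card_insert_of_notMem haQ] at this
    omega
  have hcard : ∀ a ∈ S, a.1.card = p.1.card := fun a ha => by
    obtain ⟨g, -, h1, -⟩ := (hSne a ha).2
    rw [← h1, card_image_of_injective _ g.injective]
  have h1 : classWgt U (pieceClass p) ≤ (p.1.card : ℝ) * Q.card := by
    calc classWgt U (pieceClass p) = ∑ a ∈ S, wgt U a.1 := rfl
      _ ≤ ∑ a ∈ (units U).filter (fun a => ∃ v ∈ A, v ∈ a.1), wgt U a.1 :=
          sum_le_sum_of_subset_of_nonneg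
            (fun a ha => mem_filter.2 ⟨(mem_filter.1 ha).1, hmeet a ha⟩)
            fun a _ _ => by unfold wgt; positivity
      _ ≤ A.card := sum_units_le U A
      _ ≤ _ := by
          rw [mul_comm]
          exact_mod_cast card_biUnion_le_card_mul _ _ _ fun a ha => (hcard a (hQS ha)).le
  have hch : ∀ a : {a // a ∈ Q}, ∃ g : Equiv.Perm (Fin n),
      (∀ x ∈ att p, g x = x) ∧ p.1.image g = a.1.1 ∧ img g p.2 = a.1.2 :=
    fun a => (hSne a.1 (hQS a.2)).2
  choose γ hγa hγ1 hγ2 using hch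
  set Q' := univ.image γ with hQ'
  have hγi : Function.Injective γ := fun a b h => Subtype.ext (Prod.ext
    ((hγ1 a).symm.trans ((congrArg (fun g : Equiv.Perm (Fin n) => p.1.image g) h).trans (hγ1 b)))
    ((hγ2 a).symm.trans ((congrArg (fun g => img g p.2) h).trans (hγ2 b))))
  have hQc : Q'.card = Q.card := by
    rw [hQ', card_image_of_injective _ hγi, card_univ, Fintype.card_coe]
  have hTZ : ∀ e ∈ p.2, (∀ x ∈ e, x ∈ p.1 ∪ att p) ∧ ∃ x ∈ e, x ∈ p.1 := by
    intro e he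
    refine ⟨fun x hx => ?_, ?_⟩
    · by_cases h : x ∈ p.1
      · exact mem_union_left _ h
      · exact mem_union_right _ (mem_sdiff.2 ⟨mem_filter.2 ⟨mem_univ _, e, he, hx⟩, h⟩)
    · obtain ⟨v, hv, hve⟩ := (mem_filter.1 (hunit.sub he)).2
      exact ⟨v, hve, hv⟩
  obtain ⟨hsize, hfac⟩ := stab_blocks (Q := Q') hs hTZ
    (disjoint_left.2 fun x hx h => (mem_sdiff.1 h).2 hx) hunit.nonempty
    (fun g hg => by
      obtain ⟨a, -, rfl⟩ := mem_image.1 hg
      rw [hγ2 a]
      exact fun y hy => hU (mem_filter.1 ((hSne a.1 (hQS a.2)).1.sub hy)).1)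
    (fun g hg g' hg' x hx => by
      obtain ⟨a, -, rfl⟩ := mem_image.1 hg
      obtain ⟨b, -, rfl⟩ := mem_image.1 hg'
      rw [hγa a x hx, hγa b x hx])
    (fun g hg g' hg' hne x hx x' hx' he => by
      obtain ⟨a, -, rfl⟩ := mem_image.1 hg
      obtain ⟨b, -, rfl⟩ := mem_image.1 hg'
      have hab : a.1 ≠ b.1 := fun h => hne (congrArg γ (Subtype.ext h))
      exact disjoint_left.1 (hQa a.1 a.2 b.1 b.2 hab)
        (hγ1 a ▸ mem_image_of_mem _ hx) (he ▸ hγ1 b ▸ mem_image_of_mem _ hx'))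
  set k := Q'.card with hk
  have hn0 : (0 : ℝ) < n := Nat.cast_pos.2 (by omega)
  set B : ℝ := (n : ℝ) ^ p.1.card * q ^ p.2.card with hB
  have hB0 : 0 < B := by positivity
  have hBe : B = exp (pot (log (1 / q)) p) := by
    rw [pot, exp_sub, exp_nat_mul, exp_nat_mul, exp_log hn0, exp_log (by positivity), hB, one_div,
      inv_pow, div_inv_eq_mul]
  have h3 : (k.factorial : ℝ) ≤ 2 * (n : ℝ) ^ (att p).card * B ^ k := by
    refine le_of_mul_le_mul_right (hfac.trans ?_)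
      (show (0 : ℝ) < (n - ((att p).card + k * p.1.card)).factorial by positivity)
    refine le_trans (mul_le_mul_of_nonneg_left (factorial_le_pow hsize) (by positivity))
      (le_of_eq ?_)
    rw [hB, mul_pow, ← pow_mul, ← pow_mul, pow_add, mul_comm p.1.card, mul_comm p.2.card]
    ring
  have h4 := le_of_factorial (by omega : 1 ≤ n) hB0 h3
  rw [hBe, hQc] at h4
  refine h1.trans (mul_le_mul ?_ h4 (Nat.cast_nonneg _) (sq_nonneg _))
  have : (1 : ℝ) ≤ p.1.card := by exact_mod_cast hunit.nonempty.card_pos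
  nlinarith

end Vale.Agent.P064
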