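import Vale.Agent.P064.Glue
import Mathlib.Data.Fintype.Pi
import Mathlib.Algebra.Order.Field.GeomSum
import Mathlib.Analysis.Complex.ExponentialBounds

/-!
# Sums over the stages

Averages over tuples drawn independently from a finite set, summed over stages of doubling size.
-/

open Finset Real
open scoped Classical

namespace Vale.Agent.P064

variable {α : Type} [DecidableEq α] (S : Finset α)

/-- The average over tuples of members of `S`. -/
noncomputable def avgT {k : ℕ} (f : (Fin k → α) → ℝ) : ℝ :=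
  (∑ t ∈ Fintype.piFinset fun _ : Fin k => S, f t) / (S.card : ℝ) ^ k

/-- The share of `B` in `S`. -/
noncomputable def share (B : Finset α) : ℝ := ((S ∩ B).card : ℝ) / S.card

/-- The number of entries in `B`. -/
noncomputable def hitsIn {k : ℕ} (B : Finset α) (t : Fin k → α) : ℕ :=
  (univ.filter fun i => t i ∈ B).card

omit [DecidableEq α] in
theorem avgT_linear (hS : S.Nonempty) {k : ℕ} (h : α → ℝ) :
    avgT S (fun t : Fin k → α => ∑ i, h (t i)) = k * ((∑ a ∈ S, h a) / S.card) := by
  have hc : (S.card : ℝ) ≠ 0 := Nat.cast_ne_zero.2 hS.card_pos.ne'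
  rw [avgT, sum_comm, sum_div]
  have key : ∀ i : Fin k, (∑ t ∈ Fintype.piFinset fun _ : Fin k => S, h (t i)) / (S.card : ℝ) ^ k
      = (∑ a ∈ S, h a) / S.card := by
    intro i
    have e : ∀ t : Fin k → α, h (t i) = ∏ l, if l = i then h (t l) else 1 := fun t => by
      rw [prod_ite_eq' univ i (fun l => h (t l))]; simp
    simp_rw [e]
    rw [← prod_univ_sum (fun _ : Fin k => S) (fun l a => if l = i then h a else 1),
      ← mul_prod_erase univ _ (mem_univ i),
      prod_congr rfl (g := fun _ => (S.card : ℝ)) (fun l hl => by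
        rw [sum_congr rfl (fun a _ => if_neg (ne_of_mem_erase hl))]; simp),
      prod_const, card_erase_of_mem (mem_univ i), card_univ, Fintype.card_fin]
    simp only [if_true]
    obtain ⟨k', rfl⟩ : ∃ k', k = k' + 1 := ⟨k - 1, by have := i.2; omega⟩
    rw [Nat.add_sub_cancel, pow_succ]
    field_simp
  rw [sum_congr rfl (fun i _ => key i), sum_const, card_univ, Fintype.card_fin, nsmul_eq_mul]

omit [DecidableEq α] in
lemma avgT_mono {k : ℕ} {f g : (Fin k → α) → ℝ}
    (h : ∀ t, (∀ i, t i ∈ S) → f t ≤ g t) : avgT S f ≤ avgT S g :=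
  div_le_div_of_nonneg_right (sum_le_sum fun t ht => h t (Fintype.mem_piFinset.1 ht))
    (by positivity)

omit [DecidableEq α] in
lemma avgT_nonneg {k : ℕ} {f : (Fin k → α) → ℝ} (h : ∀ t, 0 ≤ f t) : 0 ≤ avgT S f :=
  div_nonneg (sum_nonneg fun t _ => h t) (by positivity)

omit [DecidableEq α] in
lemma avgT_add {k : ℕ} (f g : (Fin k → α) → ℝ) :
    avgT S (fun t => f t + g t) = avgT S f + avgT S g := by
  simp [avgT, sum_add_distrib, add_div]

omit [DecidableEq α] in
lemma avgT_const_mul {k : ℕ} (a : ℝ) (f : (Fin k → α) → ℝ) :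
    avgT S (fun t => a * f t) = a * avgT S f := by
  simp [avgT, ← mul_sum, mul_div_assoc]

omit [DecidableEq α] in
lemma avgT_sum {k : ℕ} {ι : Type*} (s : Finset ι) (f : ι → (Fin k → α) → ℝ) :
    avgT S (fun t => ∑ i ∈ s, f i t) = ∑ i ∈ s, avgT S (f i) := by
  simp [avgT, sum_comm (s := Fintype.piFinset fun _ : Fin k => S), sum_div]

omit [DecidableEq α] in
lemma avgT_const (hS : S.Nonempty) {k : ℕ} (a : ℝ) : avgT S (fun _ : Fin k → α => a) = a := by
  have : (S.card : ℝ) ≠ 0 := Nat.cast_ne_zero.2 hS.card_pos.ne'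
  simp only [avgT, sum_const, Fintype.card_piFinset, prod_const, card_univ, Fintype.card_fin,
    nsmul_eq_mul, Nat.cast_pow]
  field_simp

lemma share_nonneg (B : Finset α) : 0 ≤ share S B := by unfold share; positivity

lemma share_le_one (B : Finset α) : share S B ≤ 1 :=
  div_le_one_of_le₀ (Nat.cast_le.2 (card_le_card inter_subset_left)) (Nat.cast_nonneg _)

lemma sum_ind (B : Finset α) :
    (∑ a ∈ S, if a ∈ B then (1 : ℝ) else 0) = ((S ∩ B).card : ℝ) := by
  rw [sum_boole, filter_mem_eq_inter]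

lemma ite_one_congr {p q : Prop} {hp : Decidable p} {hq : Decidable q} (h : p ↔ q) :
    (if p then (1 : ℝ) else 0) = if q then (1 : ℝ) else 0 := by
  by_cases hh : p
  · rw [if_pos hh, if_pos (h.1 hh)]
  · rw [if_neg hh, if_neg fun hq' => hh (h.2 hq')]

/-- One distinguished entry in `C`, the others outside `B`. -/
lemma avgT_single (hS : S.Nonempty) {k : ℕ} (B C : Finset α) (i : Fin k) :
    avgT S (fun t : Fin k → α =>
      if t i ∈ C ∧ ∀ l, l ≠ i → t l ∉ B then (1 : ℝ) else 0)
      = share S C * (1 - share S B) ^ (k - 1) := by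
  have e : ∀ t : Fin k → α, (if t i ∈ C ∧ ∀ l, l ≠ i → t l ∉ B then (1 : ℝ) else 0)
      = ∏ l, if (if l = i then t l ∈ C else t l ∉ B) then (1 : ℝ) else 0 := by
    intro t
    rw [prod_boole]
    refine ite_one_congr ⟨fun h l _ => ?_, fun h => ⟨by simpa using h i (mem_univ i), fun l hl => by
      simpa [hl] using h l (mem_univ l)⟩⟩
    split
    · next hl => subst hl; exact h.1
    · next hl => exact h.2 l hl
  have hc : (S.card : ℝ) ≠ 0 := Nat.cast_ne_zero.2 hS.card_pos.ne'
  have hB : (∑ a ∈ S, if a ∉ B then (1 : ℝ) else 0) = (S.card : ℝ) - (S ∩ B).card := by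
    rw [sum_boole, ← filter_mem_eq_inter, eq_sub_iff_add_eq, ← Nat.cast_add, add_comm,
      card_filter_add_card_filter_not]
  simp only [avgT, e]
  rw [← prod_univ_sum (fun _ : Fin k => S)
      (fun l a => if (if l = i then a ∈ C else a ∉ B) then (1 : ℝ) else 0),
    ← mul_prod_erase univ _ (mem_univ i),
    prod_congr rfl (g := fun _ => (S.card : ℝ) - (S ∩ B).card) (fun l hl => by
      simp only [if_neg (ne_of_mem_erase hl)]; exact hB),
    prod_const, card_erase_of_mem (mem_univ i), card_univ, Fintype.card_fin]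
  simp only [if_true, sum_ind, share]
  obtain ⟨k', rfl⟩ : ∃ k', k = k' + 1 := ⟨k - 1, by have := i.2; omega⟩
  rw [Nat.add_sub_cancel, pow_succ, one_sub_div hc, div_pow]
  field_simp

lemma hitsIn_eq {k : ℕ} (B : Finset α) (t : Fin k → α) :
    (hitsIn B t : ℝ) = ∑ i, if t i ∈ B then (1 : ℝ) else 0 := by
  rw [sum_boole]; rfl

lemma avgT_hit_le (hS : S.Nonempty) {k : ℕ} (B : Finset α) :
    avgT S (fun t : Fin k → α => if 1 ≤ hitsIn B t then (1 : ℝ) else 0) ≤ k * share S B := by
  refine (avgT_mono S (g := fun t => ∑ i, if t i ∈ B then (1 : ℝ) else 0) fun t _ => ?_).trans_eq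
    ((avgT_linear S hS fun a => if a ∈ B then (1 : ℝ) else 0).trans (by rw [sum_ind]; rfl))
  rw [← hitsIn_eq]
  split
  · next h => exact_mod_cast h
  · positivity

omit [DecidableEq α] in
lemma avgT_ind_le_one (hS : S.Nonempty) {k : ℕ} (p : (Fin k → α) → Prop) [DecidablePred p] :
    avgT S (fun t => if p t then (1 : ℝ) else 0) ≤ 1 :=
  (avgT_mono S (g := fun _ => 1) fun t _ => by split <;> norm_num).trans_eq (avgT_const S hS 1)

/-- Few hits, one of them in `C`. -/
lemma avgT_lone_le (hS : S.Nonempty) {k : ℕ} {B C : Finset α} (hCB : C ⊆ B) :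
    avgT S (fun t : Fin k → α => if 1 ≤ hitsIn C t ∧ hitsIn B t ≤ 1 then (1 : ℝ) else 0)
      ≤ k * (share S C * (1 - share S B) ^ (k - 1)) := by
  refine (avgT_mono S (g := fun t =>
    ∑ i : Fin k, if t i ∈ C ∧ ∀ l, l ≠ i → t l ∉ B then (1 : ℝ) else 0) fun t _ => ?_).trans ?_
  · split
    · next h =>
      obtain ⟨i, hi⟩ := card_pos.1 (show 0 < (univ.filter fun i => t i ∈ C).card from h.1)
      have hiC : t i ∈ C := (mem_filter.1 hi).2
      have hc : ∀ l, l ≠ i → t l ∉ B := fun l hl hlB => hl (card_le_one.1 h.2 l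
        (mem_filter.2 ⟨mem_univ _, hlB⟩) i (mem_filter.2 ⟨mem_univ _, hCB hiC⟩))
      refine le_trans ?_ (single_le_sum
        (f := fun i => if t i ∈ C ∧ ∀ l, l ≠ i → t l ∉ B then (1 : ℝ) else 0)
        (fun l _ => by positivity) (mem_univ i))
      rw [if_pos ⟨hiC, hc⟩]
    · exact sum_nonneg fun l _ => by positivity
  · rw [avgT_sum, sum_congr rfl (fun i _ => avgT_single S hS B C i), sum_const, card_univ,
      Fintype.card_fin, nsmul_eq_mul]

lemma avgT_two_le (hS : S.Nonempty) {k : ℕ} (B : Finset α) :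
    avgT S (fun t : Fin k → α => if 2 ≤ hitsIn B t then (1 : ℝ) else 0)
      ≤ ((k : ℝ) * share S B) ^ 2 := by
  have hc : (S.card : ℝ) ≠ 0 := Nat.cast_ne_zero.2 hS.card_pos.ne'
  refine (avgT_mono S (g := fun t : Fin k → α => ∑ i : Fin k, ∑ l : Fin k,
    if i ≠ l ∧ t i ∈ B ∧ t l ∈ B then (1 : ℝ) else 0) fun t _ => ?_).trans ?_
  · split
    · next h =>
      obtain ⟨i, hi, l, hl, hne⟩ := one_lt_card.1 h
      refine le_trans ?_ ((single_le_sum
        (f := fun l => if i ≠ l ∧ t i ∈ B ∧ t l ∈ B then (1 : ℝ) else 0)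
        (fun l _ => by positivity) (mem_univ l)).trans (single_le_sum
          (f := fun i => ∑ l : Fin k, if i ≠ l ∧ t i ∈ B ∧ t l ∈ B then (1 : ℝ) else 0)
          (fun l _ => sum_nonneg fun m _ => by positivity) (mem_univ i)))
      rw [if_pos ⟨hne, (mem_filter.1 hi).2, (mem_filter.1 hl).2⟩]
    · exact sum_nonneg fun i _ => sum_nonneg fun l _ => by positivity
  simp only [avgT_sum]
  have key : ∀ i l : Fin k, avgT S (fun t : Fin k → α =>
      if i ≠ l ∧ t i ∈ B ∧ t l ∈ B then (1 : ℝ) else 0) ≤ share S B ^ 2 := by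
    intro i l
    by_cases hne : i = l
    · simp only [hne, ne_eq, not_true_eq_false, false_and, if_false]
      rw [avgT_const S hS]; positivity
    have e : ∀ t : Fin k → α, (if i ≠ l ∧ t i ∈ B ∧ t l ∈ B then (1 : ℝ) else 0)
        = ∏ m, if (m = i ∨ m = l → t m ∈ B) then (1 : ℝ) else 0 := by
      intro t
      rw [prod_boole]
      refine ite_one_congr ⟨fun h m _ hm => ?_,
        fun h => ⟨hne, h i (mem_univ i) (.inl rfl), h l (mem_univ l) (.inr rfl)⟩⟩
      rcases hm with rfl | rfl
      exacts [h.2.1, h.2.2]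
    simp only [avgT, e]
    rw [← prod_univ_sum (fun _ : Fin k => S)
        (fun m a => if (m = i ∨ m = l → a ∈ B) then (1 : ℝ) else 0),
      ← mul_prod_erase univ _ (mem_univ i),
      ← mul_prod_erase _ _ (show l ∈ univ.erase i by simp [Ne.symm hne]),
      prod_congr rfl (g := fun _ => (S.card : ℝ)) (fun m hm => by
        simp only [mem_erase] at hm
        rw [sum_congr rfl fun a _ => if_pos fun h => absurd h (by tauto)]; simp),
      prod_const, card_erase_of_mem (by simp [Ne.symm hne]), card_erase_of_mem (mem_univ i),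
      card_univ, Fintype.card_fin]
    simp only [true_or, or_true, forall_const, sum_ind, share]
    obtain ⟨k', rfl⟩ : ∃ k', k = k' + 2 := ⟨k - 2, by
      have := i.2; have := l.2
      have : (i : ℕ) ≠ l := fun h => hne (Fin.ext h)
      omega⟩
    rw [show k' + 2 - 1 - 1 = k' by omega, pow_add]
    refine le_of_eq ?_
    field_simp
  refine (sum_le_sum fun i _ => sum_le_sum fun l _ => key i l).trans_eq ?_
  simp only [sum_const, card_univ, Fintype.card_fin, nsmul_eq_mul]
  ring

/-- Dyadic sum of a bound that is linear and then constant. -/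
lemma sum_dyadic_le {μ : ℝ} (hμ : 0 ≤ μ) {f : ℕ → ℝ} (h1 : ∀ j, f j ≤ 1)
    (h2 : ∀ j, f j ≤ ((2 : ℝ) ^ j * μ) ^ 2) (l : ℕ) :
    ∑ j ∈ range l, f j / 2 ^ j ≤ 4 * μ := by
  rcases hμ.eq_or_lt with h | h
  · subst h
    refine le_of_le_of_eq (sum_nonpos fun j _ => div_nonpos_of_nonpos_of_nonneg ?_ (by positivity))
      (mul_zero _).symm
    simpa using h2 j
  have hex : ∃ J : ℕ, 1 ≤ (2 : ℝ) ^ J * μ := by
    obtain ⟨J, hJ⟩ := pow_unbounded_of_one_lt (1 / μ) (one_lt_two : (1 : ℝ) < 2)
    exact ⟨J, ((div_lt_iff₀ h).1 hJ).le⟩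
  set J := Nat.find hex
  have hJ : 1 ≤ (2 : ℝ) ^ J * μ := Nat.find_spec hex
  rw [← sum_filter_add_sum_filter_not (range l) (fun j => j < J)]
  have hlow : ∑ j ∈ (range l).filter (fun j => j < J), f j / 2 ^ j ≤ 2 * μ := by
    calc ∑ j ∈ (range l).filter (fun j => j < J), f j / 2 ^ j
        ≤ ∑ j ∈ range J, μ ^ 2 * (2 : ℝ) ^ j := by
          refine (sum_le_sum (g := fun j => μ ^ 2 * (2 : ℝ) ^ j) fun j _ => ?_).trans
            (sum_le_sum_of_subset_of_nonneg (fun j hj => mem_range.2 (mem_filter.1 hj).2)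
              fun _ _ _ => by positivity)
          rw [div_le_iff₀ (by positivity)]
          exact (h2 j).trans_eq (by ring)
      _ ≤ 2 * μ := by
          rw [← mul_sum]
          have hg := geom_sum_mul (2 : ℝ) J
          norm_num at hg
          rw [hg]
          rcases Nat.eq_zero_or_pos J with h0 | h0
          · rw [h0]; norm_num; linarith
          · have := Nat.find_min hex (show J - 1 < J by omega)
            push Not at this
            have e : (2 : ℝ) ^ J = 2 ^ (J - 1) * 2 := by rw [← pow_succ]; congr 1; omega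
            rw [e]
            nlinarith [mul_lt_mul_of_pos_left this h]
  have hhigh : ∑ j ∈ (range l).filter (fun j => ¬ j < J), f j / 2 ^ j ≤ 2 * μ := by
    calc ∑ j ∈ (range l).filter (fun j => ¬ j < J), f j / 2 ^ j
        ≤ ∑ j ∈ Ico J (max l J), (1 / 2 : ℝ) ^ j := by
          refine (sum_le_sum (g := fun j => (1 / 2 : ℝ) ^ j) fun j _ => ?_).trans
            (sum_le_sum_of_subset_of_nonneg (fun j hj => ?_) fun _ _ _ => by positivity)
          · rw [div_pow, one_pow]; exact div_le_div_of_nonneg_right (h1 j) (by positivity)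
          · simp only [mem_filter, mem_range, not_lt] at hj
            exact mem_Ico.2 ⟨hj.2, lt_max_of_lt_left hj.1⟩
      _ ≤ (1 / 2 : ℝ) ^ J / (1 - 1 / 2) :=
          geom_sum_Ico_le_of_lt_one (by norm_num) (by norm_num)
      _ ≤ 2 * μ := by
          rw [div_pow, one_pow, div_div, div_le_iff₀ (by norm_num)]
          linarith
  linarith

/-- Being met happens at few stages. -/
theorem sum_met_le (hS : S.Nonempty) (B : Finset α) (l : ℕ) :
    ∑ j ∈ range l, avgT S (fun t : Fin (2 ^ j) → α => if 2 ≤ hitsIn B t then (1 : ℝ) else 0) / 2 ^ j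
      ≤ 8 * share S B := by
  refine (sum_dyadic_le (share_nonneg S B) (fun j => avgT_ind_le_one S hS _) (fun j => ?_) l).trans
    (by linarith [share_nonneg S B])
  exact (avgT_two_le S hS B).trans_eq (by push_cast; ring)

lemma pow_sub_pow_ge {x : ℝ} (h0 : 0 ≤ x) (h1 : x ≤ 1) (a : ℕ) :
    (a : ℝ) * (1 - x) * x ^ (2 * a - 1) ≤ x ^ a - x ^ (2 * a) := by
  have key : ∀ k : ℕ, (k : ℝ) * (1 - x) * x ^ (a + a - 1) ≤ x ^ a - x ^ (a + k) ∨ a < k := by
    intro k
    induction k with
    | zero => left; simp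
    | succ k ih =>
      rcases ih with ih | ih
      · rcases Nat.lt_or_ge a (k + 1) with h | h
        · exact Or.inr h
        left
        have hm : x ^ (a + a - 1) ≤ x ^ (a + k) := pow_le_pow_of_le_one h0 h1 (by omega)
        have := mul_le_mul_of_nonneg_left hm (sub_nonneg.2 h1)
        rw [← Nat.add_assoc, pow_succ]
        push_cast
        linarith
      · exact Or.inr (by omega)
  rcases key a with h | h
  · rwa [two_mul]
  · exact absurd h (lt_irrefl _)

/-- Exactly one hit happens at few stages. -/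
lemma sum_one_hit_le {μ : ℝ} (h0 : 0 ≤ μ) (h1 : μ ≤ 1) (l : ℕ) :
    ∑ j ∈ range l, (2 : ℝ) ^ j * μ * (1 - μ) ^ (2 ^ j - 1) ≤ 3 := by
  have hx0 : (0 : ℝ) ≤ 1 - μ := by linarith
  have hx1 : 1 - μ ≤ 1 := by linarith
  have key : ∀ l : ℕ, ∑ j ∈ range (l + 1), (2 : ℝ) ^ j * μ * (1 - μ) ^ (2 ^ j - 1)
      ≤ 1 + 2 * (1 - (1 - μ) ^ 2 ^ l) := by
    intro l
    induction l with
    | zero => simp; linarith
    | succ l ih =>
      rw [sum_range_succ]
      have h := pow_sub_pow_ge hx0 hx1 (2 ^ l)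
      rw [sub_sub_cancel, ← pow_succ' 2 l] at h
      push_cast at h
      rw [pow_succ (2 : ℝ) l]
      linarith
  rcases l with _ | l
  · simp
  · exact (key l).trans (by linarith [pow_nonneg hx0 (2 ^ l)])

/-- Reaching a common point that is not met on both sides happens at few stages. -/
theorem sum_open_le (hS : S.Nonempty) {B C : Finset α} (hCB : C ⊆ B) (l : ℕ) :
    ∑ j ∈ range l,
      (avgT S (fun t : Fin (2 ^ j) → α => if 1 ≤ hitsIn C t ∧ hitsIn B t ≤ 1 then (1 : ℝ) else 0)
          * avgT S (fun t : Fin (2 ^ j) → α => if 1 ≤ hitsIn B t then (1 : ℝ) else 0)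
        + avgT S (fun t : Fin (2 ^ j) → α => if 1 ≤ hitsIn C t then (1 : ℝ) else 0)
          * avgT S (fun t : Fin (2 ^ j) → α => if hitsIn B t = 1 then (1 : ℝ) else 0)) / 2 ^ j
      ≤ 60 * share S C := by
  have hB0 := share_nonneg S B
  have hC0 := share_nonneg S C
  have hx : 0 ≤ 1 - share S B := sub_nonneg.2 (share_le_one S B)
  refine (sum_le_sum (g := fun j => 2 * share S C *
    ((2 : ℝ) ^ j * share S B * (1 - share S B) ^ (2 ^ j - 1))) fun j _ => ?_).trans ?_
  · rw [div_le_iff₀ (by positivity)]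
    have a1 := avgT_lone_le S hS hCB (k := 2 ^ j)
    have a2 := avgT_hit_le S hS B (k := 2 ^ j)
    have a3 := avgT_hit_le S hS C (k := 2 ^ j)
    have a4 : avgT S (fun t : Fin (2 ^ j) → α => if hitsIn B t = 1 then (1 : ℝ) else 0)
        ≤ ((2 ^ j : ℕ) : ℝ) * (share S B * (1 - share S B) ^ (2 ^ j - 1)) := by
      refine (avgT_mono S fun t _ => ?_).trans (avgT_lone_le S hS (Subset.refl B) (k := 2 ^ j))
      split
      · next h => rw [if_pos ⟨h.ge, h.le⟩]
      · positivity
    push_cast at a1 a2 a3 a4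
    have b1 := mul_le_mul a1 a2 (avgT_nonneg S fun t => by positivity) (by positivity)
    have b2 := mul_le_mul a3 a4 (avgT_nonneg S fun t => by positivity) (by positivity)
    linarith
  · rw [← mul_sum]
    nlinarith [sum_one_hit_le hB0 (share_le_one S B) l]

/-- Common points happen at few stages. -/
theorem sum_common_le (hS : S.Nonempty) (B : Finset α) (l : ℕ) :
    ∑ j ∈ range l,
      avgT S (fun t : Fin (2 ^ j) → α => if 1 ≤ hitsIn B t then (1 : ℝ) else 0) ^ 2 / 2 ^ j
      ≤ 8 * share S B := by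
  refine (sum_dyadic_le (share_nonneg S B) (fun j => ?_) (fun j => ?_) l).trans
    (by linarith [share_nonneg S B])
  · exact pow_le_one₀ (avgT_nonneg S fun t => by positivity) (avgT_ind_le_one S hS _)
  · exact pow_le_pow_left₀ (avgT_nonneg S fun t => by positivity)
      ((avgT_hit_le S hS B).trans_eq (by push_cast; ring)) 2

lemma devWgt_pos {ell : ℝ} (he : 4 ≤ ell) (d : ℝ) : 0 < devWgt ell d := by
  have : 0 < ell + |d| := by linarith [abs_nonneg d]
  unfold devWgt; positivity

lemma devWgt_le {ell : ℝ} (he : 4 ≤ ell) (d : ℝ) : devWgt ell d ≤ 1 / (4 + |d|) ^ 2 := by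
  have h4 : 0 < 4 + |d| := by linarith [abs_nonneg d]
  exact div_le_div_of_nonneg_left zero_le_one (by positivity)
    (pow_le_pow_left₀ h4.le (by linarith) 2)

/-- The weight varies slower than exponentially. -/
lemma devWgt_ratio {ell : ℝ} (he : 4 ≤ ell) (d d' : ℝ) :
    devWgt ell d ≤ devWgt ell d' * exp (|d - d'| / 2) := by
  have h1 : 0 < ell + |d| := by linarith [abs_nonneg d]
  have h2 : 0 < ell + |d'| := by linarith [abs_nonneg d']
  have hle : ell + |d'| ≤ (ell + |d|) * exp (|d - d'| / 4) := by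
    have := Real.add_one_le_exp (|d - d'| / 4)
    have h3 : |d'| ≤ |d| + |d - d'| := by
      have := abs_sub_abs_le_abs_sub d' d
      rw [abs_sub_comm d'] at this
      linarith
    nlinarith [abs_nonneg (d - d'), abs_nonneg d]
  have he2 : exp (|d - d'| / 2) = exp (|d - d'| / 4) ^ 2 := by
    rw [← exp_nat_mul]; congr 1; push_cast; ring
  unfold devWgt
  rw [he2, div_mul_eq_mul_div, one_mul, div_le_div_iff₀ (by positivity) (by positivity), one_mul,
    ← mul_pow, mul_comm]
  exact pow_le_pow_left₀ h2.le hle 2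

lemma devWgt_log {ell : ℝ} (he : 4 ≤ ell) {X x y : ℝ} (hx : 0 < x) (hy : 0 < y) :
    (x ≤ y → devWgt ell (log x - X) ≤ devWgt ell (log y - X) * (√y / √x)) ∧
    (x ≤ y → devWgt ell (log y - X) ≤ devWgt ell (log x - X) * (√y / √x)) := by
  have e : x ≤ y → exp (|log x - X - (log y - X)| / 2) = √y / √x := fun h => by
    rw [sub_sub_sub_cancel_right, abs_sub_comm, abs_of_nonneg (sub_nonneg.2 (log_le_log hx h)),
      sub_div, exp_sub, exp_half, exp_half, exp_log hx, exp_log hy]
  refine ⟨fun h => ?_, fun h => ?_⟩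
  · rw [← e h]; exact devWgt_ratio he _ _
  · rw [← e h, abs_sub_comm]; exact devWgt_ratio he _ _

/-- The weight changes slower than a square root. -/
theorem sqrt_devWgt_mono {ell : ℝ} (he : 4 ≤ ell) {X x y : ℝ} (hx : 0 ≤ x) (hxy : x ≤ y) :
    √x * devWgt ell (log x - X) ≤ √y * devWgt ell (log y - X) := by
  rcases hx.eq_or_lt with h | h
  · rw [← h, sqrt_zero, zero_mul]
    exact mul_nonneg (sqrt_nonneg _) (devWgt_pos he _).le
  · have := mul_le_mul_of_nonneg_left ((devWgt_log he h (h.trans_le hxy) (X := X)).1 hxy)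
      (sqrt_nonneg x)
    refine this.trans_eq ?_
    have : √x ≠ 0 := (sqrt_pos.2 h).ne'
    field_simp

/-- Splitting a count into a linear part and a rest. -/
theorem sqrt_devWgt_add {ell : ℝ} (he : 4 ≤ ell) {X x y : ℝ} (hx : 0 ≤ x) (hy : 0 ≤ y) :
    √(x + y) * devWgt ell (log (x + y) - X) ≤ 4 * (√x * devWgt ell (log x - X) + √y) := by
  have hw := devWgt_pos he (log x - X)
  have hw' := devWgt_pos he (log (x + y) - X)
  have h2 : √(2 : ℝ) ≤ 2 := by
    rw [sqrt_le_left (by norm_num)]; norm_num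
  rcases le_or_gt x y with h | h
  · have h1 : devWgt ell (log (x + y) - X) ≤ 1 :=
      (devWgt_le he _).trans (div_le_one_of_le₀ (by nlinarith [abs_nonneg (log (x + y) - X)])
        (by positivity))
    calc √(x + y) * devWgt ell (log (x + y) - X) ≤ √(2 * y) * 1 :=
          mul_le_mul (sqrt_le_sqrt (by linarith)) h1 hw'.le (sqrt_nonneg _)
      _ ≤ 2 * √y := by
          rw [mul_one, sqrt_mul (by norm_num)]; exact mul_le_mul_of_nonneg_right h2 (sqrt_nonneg _)
      _ ≤ _ := by nlinarith [mul_nonneg (sqrt_nonneg x) hw.le, sqrt_nonneg y]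
  · have hxp : 0 < x := lt_of_le_of_lt hy h
    have h1 := (devWgt_log he hxp (show 0 < x + y by linarith) (X := X)).2 (by linarith)
    calc √(x + y) * devWgt ell (log (x + y) - X)
        ≤ √(x + y) * (devWgt ell (log x - X) * (√(x + y) / √x)) :=
          mul_le_mul_of_nonneg_left h1 (sqrt_nonneg _)
      _ = (x + y) / √x * devWgt ell (log x - X) := by
          have := mul_self_sqrt (show 0 ≤ x + y by linarith)
          field_simp
          linear_combination this
      _ ≤ (2 * √x) * devWgt ell (log x - X) := by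
          refine mul_le_mul_of_nonneg_right ?_ hw.le
          rw [div_le_iff₀ (sqrt_pos.2 hxp), mul_assoc, mul_self_sqrt hx]
          linarith
      _ ≤ _ := by nlinarith [mul_nonneg (sqrt_nonneg x) hw.le, sqrt_nonneg y]

lemma frac_step (d s : ℝ) (hs : 1 / 2 ≤ s) (hs1 : s ≤ 1) :
    1 / (2 * (4 + |d|) ^ 2) ≤ (d + s) / (4 + |d + s|) - d / (4 + |d|) := by
  have h1 : 0 < 4 + |d| := by linarith [abs_nonneg d]
  have h2 : 0 < 4 + |d + s| := by linarith [abs_nonneg (d + s)]
  rw [div_sub_div _ _ h2.ne' h1.ne', div_le_div_iff₀ (by positivity) (by positivity), one_mul]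
  rcases le_or_gt 0 d with hd | hd
  · rw [abs_of_nonneg hd, abs_of_nonneg (show 0 ≤ d + s by linarith)]
    nlinarith [mul_nonneg hd hd, mul_nonneg hd (show (0:ℝ) ≤ s - 1 / 2 by linarith)]
  · rcases le_or_gt 0 (d + s) with hds | hds
    · rw [abs_of_neg hd, abs_of_nonneg hds]
      nlinarith [mul_nonneg hds (neg_nonneg.2 hd.le),
        mul_nonneg (show (0:ℝ) ≤ s - 1 / 2 by linarith) (neg_nonneg.2 hd.le)]
    · rw [abs_of_neg hd, abs_of_neg hds]
      nlinarith [mul_nonneg (neg_nonneg.2 hd.le) (neg_nonneg.2 hds.le)]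

lemma sum_devWgt_sq_le {ell : ℝ} (he : 4 ≤ ell) (a : ℝ) (l : ℕ) :
    ∑ j ∈ range l, devWgt ell (a + j * log 2) ^ 2 ≤ 4 := by
  have hs : (1 / 2 : ℝ) ≤ log 2 := by linarith [Real.log_two_gt_d9]
  have hs1 : log 2 ≤ 1 := by linarith [Real.log_two_lt_d9]
  set G : ℕ → ℝ := fun j => (a + j * log 2) / (4 + |a + j * log 2|)
  have hG : ∀ j, |G j| ≤ 1 := fun j => by
    have : 0 < 4 + |a + j * log 2| := by linarith [abs_nonneg (a + j * log 2)]
    rw [abs_div, abs_of_pos this, div_le_one this]
    linarith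
  have hterm : ∀ j : ℕ, devWgt ell (a + j * log 2) ^ 2 ≤ 2 * (G (j + 1) - G j) := by
    intro j
    have h := frac_step (a + j * log 2) (log 2) hs hs1
    have e : a + (j : ℝ) * log 2 + log 2 = a + ((j + 1 : ℕ) : ℝ) * log 2 := by push_cast; ring
    rw [e] at h
    change _ ≤ G (j + 1) - G j at h
    set D := a + (j : ℝ) * log 2
    have h4 : 4 ≤ 4 + |D| := le_add_of_nonneg_right (abs_nonneg _)
    have h5 : devWgt ell D ^ 2 ≤ 1 / (4 + |D|) ^ 2 * 1 := by
      rw [sq]
      refine mul_le_mul (devWgt_le he D) ((devWgt_le he D).trans ?_) (devWgt_pos he D).le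
        (by positivity)
      exact div_le_one_of_le₀ (by nlinarith) (by positivity)
    rw [mul_one] at h5
    have : 1 / (4 + |D|) ^ 2 = 2 * (1 / (2 * (4 + |D|) ^ 2)) := by
      field_simp
    linarith
  refine (sum_le_sum fun j _ => hterm j).trans ?_
  rw [← mul_sum, sum_range_sub]
  linarith [abs_le.1 (hG l), abs_le.1 (hG 0)]

omit [DecidableEq α] in
/-- A class meets itself at few stages. -/
theorem sum_match_le (hS : S.Nonempty) {ell : ℝ} (he : 4 ≤ ell) (X m : ℝ) (hm : 0 ≤ m)
    (c : ∀ j, (Fin (2 ^ j) → α) → ℝ) (hc : ∀ j t, 0 ≤ c j t)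
    (hmean : ∀ j, avgT S (c j) ≤ 2 ^ j * m) (l : ℕ) :
    ∑ j ∈ range l, avgT S (fun t => √(c j t) * devWgt ell (log (c j t) - X)) ^ 2 / 2 ^ j
      ≤ 100 * m := by
  have hnn : ∀ j, 0 ≤ avgT S (fun t : Fin (2 ^ j) → α => √(c j t) * devWgt ell (log (c j t) - X)) :=
    fun j => avgT_nonneg S fun t => mul_nonneg (sqrt_nonneg _) (devWgt_pos he _).le
  suffices key : ∀ j : ℕ,
      avgT S (fun t : Fin (2 ^ j) → α => √(c j t) * devWgt ell (log (c j t) - X)) ^ 2 / 2 ^ j
        ≤ 4 * m * devWgt ell ((log m - X) + j * log 2) ^ 2 by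
    refine (sum_le_sum fun j _ => key j).trans ?_
    rw [← mul_sum]
    nlinarith [sum_devWgt_sq_le he (log m - X) l]
  intro j
  set y := (2 : ℝ) ^ j * m
  rcases hm.eq_or_lt with h | h
  · have hz : avgT S (fun t : Fin (2 ^ j) → α => √(c j t) * devWgt ell (log (c j t) - X)) ≤ 0 := by
      have hsum : avgT S (c j) = 0 :=
        le_antisymm ((hmean j).trans_eq (by rw [← h, mul_zero])) (avgT_nonneg S (hc j))
      have hpow : ((S.card : ℝ) ^ (2 ^ j : ℕ)) ≠ 0 :=
        pow_ne_zero _ (Nat.cast_ne_zero.2 hS.card_pos.ne')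
      have h0 := (sum_eq_zero_iff_of_nonneg fun t _ => hc j t).1
        ((div_eq_zero_iff.1 hsum).resolve_right hpow)
      refine div_nonpos_of_nonpos_of_nonneg (sum_nonpos fun t ht => ?_) (by positivity)
      rw [h0 t ht, sqrt_zero, zero_mul]
    rw [le_antisymm hz (hnn j), ← h]
    simp
  have hy : 0 < y := by positivity
  set W := devWgt ell (log y - X)
  have hW : 0 < W := devWgt_pos he _
  have hsy : 0 < √y := sqrt_pos.2 hy
  have hpt : ∀ v, 0 ≤ v → √v * devWgt ell (log v - X) ≤ W * (√y + v / √y) := by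
    intro v hv
    rcases le_or_gt v y with hle | hgt
    · calc √v * devWgt ell (log v - X) ≤ √y * W := sqrt_devWgt_mono he hv hle
        _ ≤ _ := by nlinarith [div_nonneg hv hsy.le]
    · have hvp : 0 < v := hy.trans hgt
      calc √v * devWgt ell (log v - X) ≤ √v * (W * (√v / √y)) :=
            mul_le_mul_of_nonneg_left ((devWgt_log he hy hvp).2 hgt.le) (sqrt_nonneg _)
        _ = W * (v / √y) := by
            have := mul_self_sqrt hv
            field_simp
            linear_combination this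
        _ ≤ _ := by nlinarith
  have havg : avgT S (fun t : Fin (2 ^ j) → α => √(c j t) * devWgt ell (log (c j t) - X))
      ≤ 2 * (W * √y) := by
    refine (avgT_mono S (g := fun t => W * √y + W / √y * c j t) fun t _ => ?_).trans ?_
    · exact (hpt _ (hc j t)).trans_eq (by ring)
    · rw [avgT_add, avgT_const S hS, avgT_const_mul]
      have h1 := mul_le_mul_of_nonneg_left (hmean j) (div_nonneg hW.le hsy.le)
      have h2 : W / √y * y = W * √y := by
        have := mul_self_sqrt hy.le
        field_simp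
        linear_combination -this
      linarith
  have e : log m - X + j * log 2 = log y - X := by
    simp only [y]
    rw [log_mul (by positivity) h.ne', log_pow]; ring
  rw [e, div_le_iff₀ (by positivity)]
  refine (pow_le_pow_left₀ (hnn j) havg 2).trans_eq ?_
  rw [mul_pow, mul_pow, sq_sqrt hy.le]
  ring

end Vale.Agent.P064
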