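import Vale.Agent.P064.Load
import Vale.Agent.P064.Stages

/-!
# The mean load
-/

open Finset Real
open scoped Classical

namespace Vale.Agent.P064.Pat

variable {n : ℕ} (P : Pat n)

/-- The copies covering a vertex. -/
noncomputable def atV (v : Fin n) : Finset (Equiv.Perm (Fin n)) :=
  univ.filter fun g => v ∈ ends (img g P.T)

/-- The copies covering an edge. -/
noncomputable def atE (y : Sym2 (Fin n)) : Finset (Equiv.Perm (Fin n)) :=
  univ.filter fun g => y ∈ img g P.T

variable {S : Finset (Equiv.Perm (Fin n))} {k : ℕ}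

lemma copV_eq (t : Fin k → Equiv.Perm (Fin n)) (v : Fin n) : P.copV t v = hitsIn (P.atV v) t := by
  simp [copV, hitsIn, atV]

lemma copE_eq (t : Fin k → Equiv.Perm (Fin n)) (y : Sym2 (Fin n)) :
    P.copE t y = hitsIn (P.atE y) t := by
  simp [copE, hitsIn, atE]

lemma mem_edges_iff (t : Fin k → Equiv.Perm (Fin n)) (y : Sym2 (Fin n)) :
    y ∈ P.edges t ↔ 1 ≤ hitsIn (P.atE y) t := by
  simp only [edges, mem_biUnion, hitsIn, atE, one_le_card, filter_nonempty_iff, mem_univ,
    mem_filter, true_and]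

lemma mem_endsEdges_iff (t : Fin k → Equiv.Perm (Fin n)) (v : Fin n) :
    v ∈ ends (P.edges t) ↔ 1 ≤ hitsIn (P.atV v) t := by
  simp only [ends, edges, mem_biUnion, hitsIn, atV, one_le_card, filter_nonempty_iff, mem_univ,
    mem_filter, true_and]
  exact ⟨fun ⟨y, ⟨i, hi⟩, hv⟩ => ⟨i, y, hi, hv⟩, fun ⟨i, y, hi, hv⟩ => ⟨y, ⟨i, hi⟩, hv⟩⟩

lemma card_ends_le (E : Finset (Sym2 (Fin n))) : (ends E).card ≤ 2 * E.card := by
  have : ends E ⊆ E.biUnion fun y => y.toFinset := fun v hv => by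
    obtain ⟨y, hy, hvy⟩ := (mem_filter.1 hv).2
    exact mem_biUnion.2 ⟨y, hy, Sym2.mem_toFinset.2 hvy⟩
  refine (card_le_card this).trans ((card_biUnion_le_card_mul _ _ 2 fun y _ => ?_).trans_eq
    (mul_comm _ _))
  rw [Sym2.card_toFinset]
  split <;> norm_num

omit P in
lemma card_filter_mem_le (E : Finset (Sym2 (Fin n))) :
    ∑ v : Fin n, ((E.filter fun y => v ∈ y).card : ℝ) ≤ 2 * E.card := by
  have h : ∀ y : Sym2 (Fin n), ((univ.filter fun v => v ∈ y).card : ℝ) ≤ 2 := fun y => by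
    have : (univ.filter fun v => v ∈ y) = y.toFinset := by ext v; simp
    rw [this, Sym2.card_toFinset]
    split <;> norm_num
  simp only [card_filter, Nat.cast_sum]
  rw [sum_comm]
  refine (sum_le_card_nsmul _ _ 2 fun y _ => ?_).trans_eq (by rw [nsmul_eq_mul, mul_comm])
  refine le_trans (le_of_eq ?_) (h y)
  rw [card_filter, Nat.cast_sum]

omit P in
lemma share_sum {ι : Type*} (s : Finset ι) (B : ι → Finset (Equiv.Perm (Fin n))) :
    ∑ i ∈ s, share S (B i) = (∑ g ∈ S, ((s.filter fun i => g ∈ B i).card : ℝ)) / S.card := by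
  simp only [share, ← sum_div, ← sum_ind, card_filter, Nat.cast_sum, Nat.cast_ite, Nat.cast_one,
    Nat.cast_zero]
  rw [sum_comm]

omit P in
lemma mean_le (hS : S.Nonempty) {f : Equiv.Perm (Fin n) → ℝ} {a : ℝ} (h : ∀ g ∈ S, f g ≤ a) :
    (∑ g ∈ S, f g) / S.card ≤ a := by
  rw [div_le_iff₀ (Nat.cast_pos.2 hS.card_pos), mul_comm, ← nsmul_eq_mul]
  exact sum_le_card_nsmul _ _ _ h

lemma sum_share_atV (hS : S.Nonempty) : ∑ v, share S (P.atV v) ≤ 2 * (P.T.card : ℝ) := by
  rw [share_sum]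
  refine mean_le hS fun g _ => ?_
  have : (univ.filter fun v => g ∈ P.atV v) = ends (img g P.T) := by ext v; simp [atV]
  rw [this, ← card_img g P.T]
  exact_mod_cast card_ends_le _

lemma sum_share_atE (hS : S.Nonempty) : ∑ y, share S (P.atE y) ≤ (P.T.card : ℝ) := by
  rw [share_sum]
  refine mean_le hS fun g _ => ?_
  have : (univ.filter fun y => g ∈ P.atE y) = img g P.T := by ext v; simp [atE]
  rw [this, card_img]

lemma sum_share_at (hS : S.Nonempty) :
    ∑ v : Fin n, ∑ y ∈ univ.filter (v ∈ ·), share S (P.atE y) ≤ 2 * (P.T.card : ℝ) := by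
  simp only [share_sum, ← sum_div]
  rw [sum_comm]
  refine mean_le hS fun g _ => ?_
  refine le_trans (le_of_eq (sum_congr rfl fun v _ => ?_))
    ((card_filter_mem_le (img g P.T)).trans_eq (by rw [card_img]))
  congr 2
  ext y
  simp [atE, and_comm]

omit P in
lemma avgT_avgT_mul (f g : (Fin k → Equiv.Perm (Fin n)) → ℝ) :
    avgT S (fun t => avgT S fun u => f t * g u) = avgT S f * avgT S g := by
  simp only [avgT_const_mul]
  rw [mul_comm]
  simp_rw [mul_comm (f _)]
  rw [avgT_const_mul]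

omit P in
lemma avgT_avgT_mul' (f g : (Fin k → Equiv.Perm (Fin n)) → ℝ) :
    avgT S (fun t => avgT S fun u => g u * f t) = avgT S g * avgT S f := by
  rw [mul_comm, ← avgT_avgT_mul]
  simp_rw [mul_comm (g _)]

omit P in
lemma stages_swap {ι : Type*} (s : Finset ι) (l : ℕ) (F : ι → ℕ → ℝ) :
    ∑ j ∈ range l, (∑ i ∈ s, F i j) / 2 ^ j = ∑ i ∈ s, ∑ j ∈ range l, F i j / 2 ^ j := by
  simp only [sum_div]
  exact sum_comm

/-- Met vertices and met edges. -/
lemma sum_metV (hS : S.Nonempty) (l : ℕ) :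
    ∑ j ∈ range l, avgT S (fun t : Fin (2 ^ j) → Equiv.Perm (Fin n) => ((P.metV t).card : ℝ))
      / 2 ^ j ≤ 16 * P.T.card := by
  have e : ∀ j, avgT S (fun t : Fin (2 ^ j) → Equiv.Perm (Fin n) => ((P.metV t).card : ℝ)) =
      ∑ v, avgT S (fun t : Fin (2 ^ j) → Equiv.Perm (Fin n) =>
        if 2 ≤ hitsIn (P.atV v) t then (1 : ℝ) else 0) := fun j => by
    simp only [← avgT_sum, metV, sum_boole, copV_eq]
  simp_rw [e]
  rw [stages_swap]
  refine (sum_le_sum fun v _ => sum_met_le S hS (P.atV v) l).trans ?_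
  rw [← mul_sum]
  linarith [P.sum_share_atV hS]

lemma sum_metE (hS : S.Nonempty) (l : ℕ) :
    ∑ j ∈ range l, avgT S (fun t : Fin (2 ^ j) → Equiv.Perm (Fin n) => ((P.metE t).card : ℝ))
      / 2 ^ j ≤ 8 * P.T.card := by
  have e : ∀ j, avgT S (fun t : Fin (2 ^ j) → Equiv.Perm (Fin n) => ((P.metE t).card : ℝ)) =
      ∑ y, avgT S (fun t : Fin (2 ^ j) → Equiv.Perm (Fin n) =>
        if 2 ≤ hitsIn (P.atE y) t then (1 : ℝ) else 0) := fun j => by
    simp only [← avgT_sum, sum_boole]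
    congr
    funext t
    congr 2
    ext y
    simp only [metE, mem_filter, mem_univ, true_and, copE_eq, mem_edges_iff]
    exact ⟨fun h => h.2, fun h => ⟨by omega, h⟩⟩
  simp_rw [e]
  rw [stages_swap]
  refine (sum_le_sum fun y _ => sum_met_le S hS (P.atE y) l).trans ?_
  rw [← mul_sum]
  linarith [P.sum_share_atE hS]

/-- Common edges. -/
lemma sum_common (hS : S.Nonempty) (l : ℕ) :
    ∑ j ∈ range l, avgT S (fun t : Fin (2 ^ j) → Equiv.Perm (Fin n) =>
      avgT S fun u => ((P.common t u).card : ℝ)) / 2 ^ j ≤ 8 * P.T.card := by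
  have e : ∀ j, avgT S (fun t : Fin (2 ^ j) → Equiv.Perm (Fin n) =>
      avgT S fun u => ((P.common t u).card : ℝ)) =
      ∑ y, avgT S (fun t : Fin (2 ^ j) → Equiv.Perm (Fin n) =>
        if 1 ≤ hitsIn (P.atE y) t then (1 : ℝ) else 0) ^ 2 := fun j => by
    simp only [sq, ← avgT_avgT_mul, ← avgT_sum]
    congr
    funext t
    congr
    funext u
    simp only [common, ite_zero_mul_ite_zero, mul_one, sum_boole, ← mem_edges_iff]
    congr 2
    ext y
    simp
  simp_rw [e]
  rw [stages_swap]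
  refine (sum_le_sum fun y _ => sum_common_le S hS (P.atE y) l).trans ?_
  rw [← mul_sum]
  linarith [P.sum_share_atE hS]

/-- The part of the open degrees counted on the first side. -/
noncomputable def openTerm (t u : Fin k → Equiv.Perm (Fin n)) (v : Fin n) (y : Sym2 (Fin n)) : ℝ :=
  (if 1 ≤ hitsIn (P.atE y) t ∧ hitsIn (P.atV v) t ≤ 1 then (1 : ℝ) else 0)
      * (if 1 ≤ hitsIn (P.atV v) u then (1 : ℝ) else 0)
    + (if 1 ≤ hitsIn (P.atE y) t then (1 : ℝ) else 0)
      * (if hitsIn (P.atV v) u = 1 then (1 : ℝ) else 0)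

lemma openDeg_le (t u : Fin k → Equiv.Perm (Fin n)) :
    P.openDeg t u ≤ (∑ v : Fin n, ∑ y ∈ univ.filter (v ∈ ·), P.openTerm t u v y)
      + ∑ v : Fin n, ∑ y ∈ univ.filter (v ∈ ·), P.openTerm u t v y := by
  rw [← sum_add_distrib, openDeg]
  refine (sum_le_sum fun v hv => ?_).trans (sum_le_sum_of_subset_of_nonneg (subset_univ _)
    fun v _ _ => add_nonneg (sum_nonneg fun y _ => by unfold openTerm; positivity)
      (sum_nonneg fun y _ => by unfold openTerm; positivity))
  simp only [mem_sdiff, mem_inter, mem_endsEdges_iff, metV, mem_filter, mem_univ, true_and,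
    copV_eq, not_and_or, not_le] at hv
  obtain ⟨⟨h1, h2⟩, h3⟩ := hv
  have key : ∀ a b : Fin k → Equiv.Perm (Fin n), 1 ≤ hitsIn (P.atV v) b →
      (hitsIn (P.atV v) a < 2 ∨ hitsIn (P.atV v) b < 2) →
      (degIn (P.edges a) v : ℝ) ≤ ∑ y ∈ univ.filter (v ∈ ·), P.openTerm a b v y := by
    intro a b hb hor
    have e : degIn (P.edges a) v
        = ((univ.filter (v ∈ ·)).filter fun y => 1 ≤ hitsIn (P.atE y) a).card := by
      rw [degIn]
      congr 1
      ext y
      simp [mem_edges_iff, and_comm]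
    rw [e, card_filter, Nat.cast_sum]
    refine sum_le_sum fun y _ => ?_
    split
    · next hy =>
      unfold openTerm
      rcases hor with h | h
      · rw [if_pos ⟨hy, by omega⟩, if_pos hb]
        push_cast
        have : (0 : ℝ) ≤ (if 1 ≤ hitsIn (P.atE y) a then (1 : ℝ) else 0)
          * (if hitsIn (P.atV v) b = 1 then (1 : ℝ) else 0) := by positivity
        linarith
      · rw [if_pos hy, if_pos (by omega : hitsIn (P.atV v) b = 1)]
        push_cast
        have : (0 : ℝ) ≤ (if 1 ≤ hitsIn (P.atE y) a ∧ hitsIn (P.atV v) a ≤ 1 then (1 : ℝ) else 0)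
          * (if 1 ≤ hitsIn (P.atV v) b then (1 : ℝ) else 0) := by positivity
        linarith
    · push_cast
      unfold openTerm
      positivity
  exact add_le_add (key t u h2 h3) (key u t h1 h3.symm)

lemma sum_openDeg (hS : S.Nonempty) (l : ℕ) :
    ∑ j ∈ range l, avgT S (fun t : Fin (2 ^ j) → Equiv.Perm (Fin n) =>
      avgT S fun u => P.openDeg t u) / 2 ^ j ≤ 240 * P.T.card := by
  set F : Fin n → Sym2 (Fin n) → ℕ → ℝ := fun v y j =>
    avgT S (fun t : Fin (2 ^ j) → Equiv.Perm (Fin n) =>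
      if 1 ≤ hitsIn (P.atE y) t ∧ hitsIn (P.atV v) t ≤ 1 then (1 : ℝ) else 0)
      * avgT S (fun t : Fin (2 ^ j) → Equiv.Perm (Fin n) =>
        if 1 ≤ hitsIn (P.atV v) t then (1 : ℝ) else 0)
    + avgT S (fun t : Fin (2 ^ j) → Equiv.Perm (Fin n) =>
        if 1 ≤ hitsIn (P.atE y) t then (1 : ℝ) else 0)
      * avgT S (fun t : Fin (2 ^ j) → Equiv.Perm (Fin n) =>
        if hitsIn (P.atV v) t = 1 then (1 : ℝ) else 0) with hF
  have e : ∀ j, avgT S (fun t : Fin (2 ^ j) → Equiv.Perm (Fin n) =>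
      avgT S fun u => P.openDeg t u)
      ≤ ∑ v, 2 * ∑ y ∈ univ.filter (v ∈ ·), F v y j := fun j => by
    refine (avgT_mono S fun t _ => avgT_mono S fun u _ => P.openDeg_le t u).trans (le_of_eq ?_)
    simp only [avgT_add, avgT_sum, openTerm, two_mul, avgT_avgT_mul, avgT_avgT_mul', hF,
      sum_add_distrib]
  refine (sum_le_sum fun j _ => div_le_div_of_nonneg_right (e j) (by positivity)).trans ?_
  rw [stages_swap]
  have h60 : ∀ v : Fin n, ∀ y ∈ univ.filter (v ∈ ·),
      ∑ j ∈ range l, F v y j / 2 ^ j ≤ 60 * share S (P.atE y) := fun v y hy =>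
    sum_open_le S hS (fun g hg => by
      simp only [atE, atV, ends, mem_filter, mem_univ, true_and] at hg hy ⊢
      exact ⟨y, hg, hy⟩) l
  calc ∑ v, ∑ j ∈ range l, (2 * ∑ y ∈ univ.filter (v ∈ ·), F v y j) / 2 ^ j
      = ∑ v, 2 * ∑ y ∈ univ.filter (v ∈ ·), ∑ j ∈ range l, F v y j / 2 ^ j := by
        refine sum_congr rfl fun v _ => ?_
        rw [← stages_swap, mul_sum]
        exact sum_congr rfl fun j _ => by rw [mul_div_assoc]
    _ ≤ ∑ v, 2 * ∑ y ∈ univ.filter (v ∈ ·), 60 * share S (P.atE y) :=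
        sum_le_sum fun v _ => mul_le_mul_of_nonneg_left (sum_le_sum (h60 v)) two_pos.le
    _ ≤ _ := by
        simp only [← mul_sum]
        linarith [P.sum_share_at hS]

/-- Covered vertices, at a small price. -/
lemma sum_endsLog (hn : 2 ≤ n) (hS : S.Nonempty) (l : ℕ) :
    ∑ j ∈ range l, avgT S (fun t : Fin (2 ^ j) → Equiv.Perm (Fin n) =>
      ((ends (P.edges t)).card : ℝ) / log (n : ℝ) ^ 3) / 2 ^ j ≤ 40 * P.T.card := by
  set L := log (n : ℝ)
  set e := (P.T.card : ℝ)
  have he : 0 ≤ e := Nat.cast_nonneg _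
  have hn2 : (2 : ℝ) ≤ n := by exact_mod_cast hn
  have hL2 : log 2 ≤ L := log_le_log two_pos hn2
  have hL : (1 : ℝ) / 2 ≤ L := by linarith [log_two_gt_d9]
  have hb : ∀ j, ∀ t : Fin (2 ^ j) → Equiv.Perm (Fin n),
      ((ends (P.edges t)).card : ℝ) ≤ 2 * e * 2 ^ j ∧
      ((ends (P.edges t)).card : ℝ) ≤ n * e := by
    intro j t
    have h1 : (P.edges t).card ≤ (2 ^ j) * P.T.card := by
      refine (card_biUnion_le_card_mul _ _ P.T.card fun i _ => (card_img _ _).le).trans_eq ?_
      rw [card_univ, Fintype.card_fin]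
    refine ⟨?_, ?_⟩
    · have h2 := card_ends_le (P.edges t)
      calc ((ends (P.edges t)).card : ℝ) ≤ (2 * (2 ^ j * P.T.card) : ℕ) := by
            exact_mod_cast h2.trans (by omega)
        _ = _ := by push_cast; ring
    · rcases Nat.eq_zero_or_pos P.T.card with h0 | h0
      · have h2 := card_ends_le (P.edges t)
        have : (ends (P.edges t)).card = 0 := by
          rw [h0, mul_zero, Nat.le_zero] at h1
          omega
        rw [this, Nat.cast_zero]; positivity
      · calc ((ends (P.edges t)).card : ℝ) ≤ n := by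
              exact_mod_cast (card_le_univ _).trans_eq (Fintype.card_fin n)
          _ ≤ n * e := le_mul_of_one_le_right (Nat.cast_nonneg _) (Nat.one_le_cast.2 h0)
  obtain ⟨J, hJ1, hJ2⟩ : ∃ J : ℕ, (n : ℝ) ≤ 2 ^ J ∧ (J : ℝ) ≤ 3 * L := by
    refine ⟨Nat.log 2 n + 1, ?_, ?_⟩
    · exact_mod_cast (Nat.lt_pow_succ_log_self one_lt_two n).le
    · have h : ((2 : ℝ) ^ Nat.log 2 n) ≤ n := by exact_mod_cast Nat.pow_log_le_self 2 (by omega)
      have h' := log_le_log (by positivity) h
      rw [log_pow] at h'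
      push_cast
      nlinarith [log_two_gt_d9]
  have hterm : ∀ j, avgT S (fun t : Fin (2 ^ j) → Equiv.Perm (Fin n) =>
      ((ends (P.edges t)).card : ℝ) / L ^ 3) / 2 ^ j
      ≤ (if j < J then 2 * e / L ^ 3 else 0)
        + (if j < J then 0 else n * e / L ^ 3 * (1 / 2) ^ j) := by
    intro j
    rw [div_le_iff₀ (by positivity)]
    split
    · refine (avgT_mono S fun t _ => div_le_div_of_nonneg_right (hb j t).1 (by positivity)).trans
        (le_of_eq ((avgT_const S hS _).trans ?_))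
      ring
    · refine (avgT_mono S fun t _ => div_le_div_of_nonneg_right (hb j t).2 (by positivity)).trans
        (le_of_eq ((avgT_const S hS _).trans ?_))
      rw [zero_add, mul_assoc, ← mul_pow, one_div, inv_mul_cancel₀ two_ne_zero, one_pow, mul_one]
  refine (sum_le_sum fun j _ => hterm j).trans ?_
  rw [sum_add_distrib, ← sum_filter, sum_const, nsmul_eq_mul]
  have hA : (((range l).filter (· < J)).card : ℝ) * (2 * e / L ^ 3) ≤ 24 * e := by
    have hc : (((range l).filter (· < J)).card : ℝ) ≤ 3 * L :=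
      le_trans (Nat.cast_le.2 ((card_le_card fun x hx => mem_range.2 (mem_filter.1 hx).2).trans_eq
        (card_range J))) hJ2
    refine (mul_le_mul_of_nonneg_right hc (by positivity)).trans ?_
    rw [mul_div_assoc', div_le_iff₀ (by positivity)]
    nlinarith [mul_le_mul_of_nonneg_left (show (1:ℝ) / 4 ≤ L ^ 2 by nlinarith)
      (show 0 ≤ 24 * e * L by positivity)]
  have hB : ∑ j ∈ range l, (if j < J then (0 : ℝ) else n * e / L ^ 3 * (1 / 2) ^ j) ≤ 16 * e := by
    calc ∑ j ∈ range l, (if j < J then (0 : ℝ) else n * e / L ^ 3 * (1 / 2) ^ j)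
        = ∑ j ∈ (range l).filter (fun j => ¬ j < J), n * e / L ^ 3 * (1 / 2) ^ j := by
          rw [sum_filter]; exact sum_congr rfl fun j _ => by split_ifs <;> rfl
      _ ≤ ∑ j ∈ Ico J (max l J), n * e / L ^ 3 * (1 / 2) ^ j := by
          refine sum_le_sum_of_subset_of_nonneg (fun j hj => ?_) fun _ _ _ => by positivity
          simp only [mem_filter, mem_range, not_lt] at hj
          exact mem_Ico.2 ⟨hj.2, lt_max_of_lt_left hj.1⟩
      _ ≤ n * e / L ^ 3 * ((1 / 2) ^ J / (1 - 1 / 2)) := by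
          rw [← mul_sum]
          exact mul_le_mul_of_nonneg_left
            (geom_sum_Ico_le_of_lt_one (by norm_num) (by norm_num)) (by positivity)
      _ = (n * (1 / 2) ^ J) * (2 * e / L ^ 3) := by ring
      _ ≤ 1 * (2 * e / L ^ 3) := by
          refine mul_le_mul_of_nonneg_right ?_ (by positivity)
          rw [div_pow, one_pow, mul_one_div]
          exact div_le_one_of_le₀ hJ1 (by positivity)
      _ ≤ 16 * e := by
          rw [one_mul, div_le_iff₀ (by positivity)]
          nlinarith [mul_le_mul_of_nonneg_left (show (1:ℝ) / 8 ≤ L ^ 3 by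
            nlinarith [pow_le_pow_left₀ (by norm_num) hL 3]) (show 0 ≤ 16 * e by positivity)]
  linarith

lemma four_le_sell : 4 ≤ sell n := by
  unfold sell
  linarith [log_nonneg (by linarith [log_natCast_nonneg n] : (1 : ℝ) ≤ log (n : ℝ) + 3)]

/-- Marked edges. -/
lemma sum_markF (R : Sym2 (Fin n) → Fin n → Prop) (hR : ∀ y x, R y x → x ∈ y)
    (hS : S.Nonempty) (l : ℕ) :
    ∑ j ∈ range l, avgT S (fun t : Fin (2 ^ j) → Equiv.Perm (Fin n) =>
      avgT S fun u : Fin (2 ^ j) → Equiv.Perm (Fin n) =>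
        ∑ x, P.markF R t x * P.markF R u x) / 2 ^ j ≤ 200 * P.T.card := by
  simp only [avgT_sum, avgT_avgT_mul]
  rw [stages_swap]
  set m : Fin n → ℝ := fun x =>
    (∑ g ∈ S, (((img g P.T).filter fun y => R y x).card : ℝ)) / S.card
  have key : ∀ x, ∑ j ∈ range l,
      avgT S (fun t : Fin (2 ^ j) → Equiv.Perm (Fin n) => P.markF R t x)
        * avgT S (fun t : Fin (2 ^ j) → Equiv.Perm (Fin n) => P.markF R t x) / 2 ^ j
      ≤ 100 * m x := by
    intro x
    have h := sum_match_le S hS (four_le_sell (n := n)) 0 (m x)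
      (div_nonneg (sum_nonneg fun g _ => Nat.cast_nonneg _) (Nat.cast_nonneg _))
      (fun j t => (((P.edges t).filter fun y => R y x).card : ℝ))
      (fun j t => Nat.cast_nonneg _) (fun j => ?_) l
    · simpa only [markF, sub_zero, sq] using h
    · refine (avgT_mono S (g := fun t =>
        ∑ i, (((img (t i) P.T).filter fun y => R y x).card : ℝ)) fun t _ => ?_).trans_eq
        ((avgT_linear S hS fun g => (((img g P.T).filter fun y => R y x).card : ℝ)).trans
          (by rw [Nat.cast_pow, Nat.cast_ofNat]))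
      rw [edges, filter_biUnion]
      exact_mod_cast card_biUnion_le
  refine (sum_le_sum fun x _ => key x).trans ?_
  rw [← mul_sum]
  simp only [m, ← sum_div]
  rw [sum_comm]
  have : (∑ g ∈ S, ∑ x, (((img g P.T).filter fun y => R y x).card : ℝ)) / S.card
      ≤ 2 * (P.T.card : ℝ) := mean_le hS fun g _ => by
    refine le_trans (sum_le_sum fun x _ => Nat.cast_le.2 (card_le_card ?_))
      ((card_filter_mem_le (img g P.T)).trans_eq (by rw [card_img]))
    exact monotone_filter_right _ fun y _ h => hR y x h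
  linarith

/-- The part of a class weight seen at met vertices. -/
noncomputable def metWgt (t : Fin k → Equiv.Perm (Fin n)) (κ : Finset (Piece n)) : ℝ :=
  ∑ p ∈ ((units (P.edges t)).filter fun p => ∃ v ∈ P.metV t, v ∈ p.1).filter (· ∈ κ),
    wgt (P.edges t) p.1

omit P in
lemma class_sum_le (F : Finset (Piece n)) (f : Piece n → ℝ) (hf : ∀ p ∈ F, 0 ≤ f p) :
    ∑ κ ∈ (univ : Finset (Piece n)).image pieceClass, ∑ p ∈ F.filter (· ∈ κ), f p
      ≤ ∑ p ∈ F, f p := by
  rw [← sum_biUnion]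
  · exact sum_le_sum_of_subset_of_nonneg
      (biUnion_subset.2 fun κ _ => filter_subset _ _) fun p hp _ => hf p hp
  · intro κ hκ κ' hκ' hne
    refine disjoint_left.2 fun x hx hx' => hne ?_
    obtain ⟨p, -, rfl⟩ := mem_image.1 hκ
    obtain ⟨p', -, rfl⟩ := mem_image.1 hκ'
    rw [← pieceClass_eq (mem_filter.1 hx).2, ← pieceClass_eq (mem_filter.1 hx').2]

/-- A unit away from the met vertices is a unit of one copy. -/
lemma unit_of_copy (t : Fin k → Equiv.Perm (Fin n)) {p : Piece n}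
    (hp : IsUnit' (P.edges t) p) (hmet : ∀ v ∈ p.1, v ∉ P.metV t) :
    ∃ i, p ∈ units (img (t i) P.T) ∧ wgt (img (t i) P.T) p.1 = wgt (P.edges t) p.1 := by
  have h1 : ∀ v ∈ p.1, ∀ i i', v ∈ ends (img (t i) P.T) → v ∈ ends (img (t i') P.T) → i = i' := by
    intro v hv i i' hi hi'
    have h := hmet v hv
    rw [metV, mem_filter, not_and] at h
    have h' : P.copV t v ≤ 1 := Nat.le_of_lt_succ (Nat.lt_of_not_le (h (mem_univ v)))
    exact card_le_one.1 h' i (mem_filter.2 ⟨mem_univ _, hi⟩) i'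
      (mem_filter.2 ⟨mem_univ _, hi'⟩)
  obtain ⟨v₀, hv₀⟩ := hp.nonempty
  obtain ⟨y₀, hy₀, hvy₀⟩ := (mem_filter.1 (hp.covered v₀ hv₀)).2
  obtain ⟨i, -, hi⟩ := mem_biUnion.1 (mem_filter.1 (hp.sub hy₀)).1
  have hmemv : ∀ {i v y}, y ∈ img (t i) P.T → v ∈ y → v ∈ ends (img (t i) P.T) :=
    fun hy hv => mem_filter.2 ⟨mem_univ _, _, hy, hv⟩
  have hall : ∀ v ∈ p.1, v ∈ ends (img (t i) P.T) := by
    by_contra hc
    push Not at hc
    obtain ⟨w, hw, hw'⟩ := hc
    obtain ⟨a, ha, b, hb, hbP, he⟩ := hp.linked v₀ hv₀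
      (p.1.filter fun v => v ∈ ends (img (t i) P.T)) (filter_subset _ _)
      (singleton_subset_iff.2 (mem_filter.2 ⟨hv₀, hmemv hi hvy₀⟩))
      (fun h => hw' (mem_filter.1 (h.symm ▸ hw :
        w ∈ p.1.filter fun v => v ∈ ends (img (t i) P.T))).2)
    obtain ⟨ha, hai⟩ := mem_filter.1 ha
    obtain ⟨i', -, hi'⟩ := mem_biUnion.1 (mem_filter.1 (hp.sub he)).1
    have := h1 a ha i i' hai (hmemv hi' (Sym2.mem_mk_left a b))
    subst this
    exact hbP (mem_filter.2 ⟨hb, hmemv hi' (Sym2.mem_mk_right a b)⟩)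
  have hinc : ∀ v ∈ p.1, ∀ y ∈ P.edges t, v ∈ y → y ∈ img (t i) P.T := by
    intro v hv y hy hvy
    obtain ⟨i', -, hi'⟩ := mem_biUnion.1 hy
    rwa [h1 v hv i i' (hall v hv) (hmemv hi' hvy)]
  have hsub : img (t i) P.T ⊆ P.edges t := subset_biUnion_of_mem (fun i => img (t i) P.T) (mem_univ i)
  refine ⟨i, mem_filter.2 ⟨mem_univ _, ⟨hp.nonempty, fun y hy => ?_, hp.covered, hp.linked⟩⟩, ?_⟩
  · obtain ⟨hyU, v, hv, hvy⟩ := mem_filter.1 (hp.sub hy)
    exact mem_filter.2 ⟨hinc v hv y hyU hvy, v, hv, hvy⟩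
  · unfold wgt
    congr 1
    refine sum_congr rfl fun v hv => ?_
    unfold degIn
    congr 1
    ext y
    simp only [mem_filter]
    exact ⟨fun h => ⟨hsub h.1, h.2⟩, fun h => ⟨hinc v hv y h.1 h.2, h.2⟩⟩

lemma classWgt_split (t : Fin k → Equiv.Perm (Fin n)) (κ : Finset (Piece n)) :
    classWgt (P.edges t) κ ≤ (∑ i, classWgt (img (t i) P.T) κ) + P.metWgt t κ := by
  have hw : ∀ (U : Finset (Sym2 (Fin n))) (K : Finset (Fin n)), 0 ≤ wgt U K := fun U K => by
    unfold wgt; positivity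
  rw [classWgt, metWgt, filter_filter, ← sum_filter_add_sum_filter_not
    ((units (P.edges t)).filter (· ∈ κ)) (fun p => ∃ v ∈ P.metV t, v ∈ p.1), add_comm, filter_filter,
    filter_filter]
  refine add_le_add ?_ (le_of_eq (sum_congr (filter_congr fun p _ => and_comm) fun _ _ => rfl))
  calc _ ≤ ∑ p ∈ (units (P.edges t)).filter
        (fun p => p ∈ κ ∧ ¬∃ v ∈ P.metV t, v ∈ p.1),
        ∑ i, if p ∈ units (img (t i) P.T) then wgt (img (t i) P.T) p.1 else 0 := by
        refine sum_le_sum fun p hp => ?_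
        obtain ⟨hpu, -, hmet⟩ := mem_filter.1 hp
        push Not at hmet
        obtain ⟨i, hi, he⟩ := P.unit_of_copy t (mem_filter.1 hpu).2 fun v hv hvm => hmet v hvm hv
        rw [← he]
        refine le_trans (le_of_eq (if_pos hi).symm) (single_le_sum
          (f := fun i => if p ∈ units (img (t i) P.T) then wgt (img (t i) P.T) p.1 else 0)
          (fun i _ => ?_) (mem_univ i))
        split
        · exact hw _ _
        · exact le_rfl
    _ ≤ _ := by
        rw [sum_comm]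
        refine sum_le_sum fun i _ => ?_
        rw [← sum_filter, filter_filter]
        refine sum_le_sum_of_subset_of_nonneg (fun p hp => ?_) fun p _ _ => hw _ _
        exact mem_filter.2 ⟨(mem_filter.1 hp).2.2, (mem_filter.1 hp).2.1.1⟩

omit P in
lemma classWgt_nonneg (U : Finset (Sym2 (Fin n))) (κ : Finset (Piece n)) : 0 ≤ classWgt U κ :=
  sum_nonneg fun p _ => by unfold wgt; positivity

lemma metWgt_nonneg (t : Fin k → Equiv.Perm (Fin n)) (κ : Finset (Piece n)) : 0 ≤ P.metWgt t κ :=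
  sum_nonneg fun p _ => by unfold wgt; positivity

omit P in
lemma sq_avgT_sqrt_le (hS : S.Nonempty) (b : (Fin k → Equiv.Perm (Fin n)) → ℝ)
    (hb : ∀ t, 0 ≤ b t) : avgT S (fun t => √(b t)) ^ 2 ≤ avgT S b := by
  have hN : (0 : ℝ) < (S.card : ℝ) ^ k := pow_pos (Nat.cast_pos.2 hS.card_pos) _
  rw [avgT, avgT, div_pow, div_le_div_iff₀ (by positivity) hN]
  have h := sum_mul_sq_le_sq_mul_sq (Fintype.piFinset fun _ : Fin k => S)
    (fun _ => (1 : ℝ)) (fun t => √(b t))
  simp only [one_mul, one_pow, sum_const, Fintype.card_piFinset, prod_const, card_univ,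
    Fintype.card_fin, nsmul_eq_mul, mul_one, Nat.cast_pow] at h
  simp only [sq_sqrt (hb _)] at h
  calc _ ≤ _ := mul_le_mul_of_nonneg_right h hN.le
    _ = _ := by ring

/-- Classes. -/
lemma sum_classes (lam : ℝ) (hS : S.Nonempty) (l : ℕ) :
    ∑ j ∈ range l, avgT S (fun t : Fin (2 ^ j) → Equiv.Perm (Fin n) =>
      avgT S fun u : Fin (2 ^ j) → Equiv.Perm (Fin n) => ∑ κ ∈ (univ : Finset (Piece n)).image pieceClass,
        matchWgt lam (P.edges t) κ * matchWgt lam (P.edges u) κ) / 2 ^ j ≤ 8000 * P.T.card := by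
  simp only [avgT_sum, avgT_avgT_mul]
  set Ks := (univ : Finset (Piece n)).image pieceClass
  set c : Finset (Piece n) → ∀ j, (Fin (2 ^ j) → Equiv.Perm (Fin n)) → ℝ := fun κ _ t =>
    ∑ i, classWgt (img (t i) P.T) κ
  have hc0 : ∀ κ j t, 0 ≤ c κ j t := fun κ j t => sum_nonneg fun i _ => classWgt_nonneg _ _
  have hsell := four_le_sell (n := n)
  have hone : ∀ κ j, avgT S (fun t : Fin (2 ^ j) → Equiv.Perm (Fin n) =>
      matchWgt lam (P.edges t) κ) * avgT S (fun t : Fin (2 ^ j) → Equiv.Perm (Fin n) =>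
        matchWgt lam (P.edges t) κ)
      ≤ 32 * avgT S (fun t => √(c κ j t) * devWgt (sell n) (log (c κ j t) - classPot lam κ)) ^ 2
        + 32 * avgT S (fun t : Fin (2 ^ j) → Equiv.Perm (Fin n) => P.metWgt t κ) := by
    intro κ j
    have h0 : 0 ≤ avgT S (fun t : Fin (2 ^ j) → Equiv.Perm (Fin n) =>
        matchWgt lam (P.edges t) κ) :=
      avgT_nonneg S fun t => mul_nonneg (sqrt_nonneg _) (devWgt_pos hsell _).le
    have h1 : avgT S (fun t : Fin (2 ^ j) → Equiv.Perm (Fin n) => matchWgt lam (P.edges t) κ)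
        ≤ 4 * avgT S (fun t => √(c κ j t) * devWgt (sell n) (log (c κ j t) - classPot lam κ))
          + 4 * avgT S (fun t : Fin (2 ^ j) → Equiv.Perm (Fin n) => √(P.metWgt t κ)) := by
      rw [← avgT_const_mul, ← avgT_const_mul, ← avgT_add]
      refine avgT_mono S fun t _ => ?_
      rw [← mul_add]
      exact (sqrt_devWgt_mono hsell (classWgt_nonneg _ _) (P.classWgt_split t κ)).trans
        (sqrt_devWgt_add hsell (hc0 κ j t) (P.metWgt_nonneg t κ))
    have h2 := sq_avgT_sqrt_le (S := S) hS (fun t : Fin (2 ^ j) → Equiv.Perm (Fin n) => P.metWgt t κ)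
      fun t => P.metWgt_nonneg t κ
    have h3 := mul_le_mul h1 h1 h0 (h0.trans h1)
    nlinarith [sq_nonneg (avgT S (fun t => √(c κ j t) * devWgt (sell n)
      (log (c κ j t) - classPot lam κ)) - avgT S (fun t : Fin (2 ^ j) → Equiv.Perm (Fin n) =>
        √(P.metWgt t κ)))]
  refine (sum_le_sum fun j _ => div_le_div_of_nonneg_right
    (sum_le_sum fun κ _ => hone κ j) (by positivity)).trans ?_
  simp only [sum_add_distrib, add_div, ← mul_sum, mul_div_assoc]
  have hA : ∑ j ∈ range l, (∑ κ ∈ Ks, avgT S (fun t =>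
      √(c κ j t) * devWgt (sell n) (log (c κ j t) - classPot lam κ)) ^ 2) / 2 ^ j
      ≤ 200 * (P.T.card : ℝ) := by
    rw [stages_swap]
    refine (sum_le_sum fun κ _ => sum_match_le S hS hsell (classPot lam κ)
      ((∑ g ∈ S, classWgt (img g P.T) κ) / S.card)
      (div_nonneg (sum_nonneg fun g _ => classWgt_nonneg _ _) (Nat.cast_nonneg _)) (c κ)
      (hc0 κ) (fun j => ((avgT_linear S hS fun g => classWgt (img g P.T) κ).trans
        (by rw [Nat.cast_pow, Nat.cast_ofNat])).le) l).trans ?_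
    rw [← mul_sum, ← sum_div, sum_comm]
    have : (∑ g ∈ S, ∑ κ ∈ Ks, classWgt (img g P.T) κ) / S.card ≤ 2 * (P.T.card : ℝ) :=
      mean_le hS fun g _ => by
        refine (sum_classWgt_le (img g P.T) univ).trans ?_
        rw [← card_img g P.T]
        exact_mod_cast card_ends_le _
    linarith
  have hB : ∑ j ∈ range l,
      (∑ κ ∈ Ks, avgT S (fun t : Fin (2 ^ j) → Equiv.Perm (Fin n) => P.metWgt t κ)) / 2 ^ j
      ≤ 16 * (P.T.card : ℝ) := by
    refine le_trans (sum_le_sum fun j _ => div_le_div_of_nonneg_right ?_ (by positivity))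
      (P.sum_metV hS l)
    rw [← avgT_sum]
    refine avgT_mono S fun t _ => ?_
    exact (class_sum_le _ _ fun p _ => by unfold wgt; positivity).trans
      (sum_units_le (P.edges t) (P.metV t))
  linarith [Nat.cast_nonneg (α := ℝ) P.T.card]

/-- The loads of the doubling stages add up to the number of edges. -/
theorem sum_load_le (hn : 2 ≤ n) (lam : ℝ) (R : Sym2 (Fin n) → Fin n → Prop)
    (hR : ∀ y x, R y x → x ∈ y) {S : Finset (Equiv.Perm (Fin n))} (hS : S.Nonempty) (l : ℕ) :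
    ∑ j ∈ range l,
      avgT S (fun t : Fin (2 ^ j) → Equiv.Perm (Fin n) =>
        avgT S (fun u : Fin (2 ^ j) → Equiv.Perm (Fin n) => P.stageLoad lam R t u)) / 2 ^ j
      ≤ 100000 * P.T.card := by
  simp only [stageLoad, avgT_add, avgT_const S hS, add_div, sum_add_distrib]
  linarith [P.sum_metV hS l, P.sum_metE hS l, P.sum_common hS l, P.sum_openDeg hS l,
    P.sum_endsLog hn hS l, P.sum_markF R hR hS l, P.sum_classes lam hS l,
    Nat.cast_nonneg (α := ℝ) P.T.card]

end Vale.Agent.P064.Pat
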