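import Vale.Agent.P064.Load
import Mathlib.Data.Nat.Choose.Bounds
import Vale.Agent.P064.Marks
import Vale.Agent.P064.Mean
import Vale.Agent.P064.Stages

/-!
# The price is bounded by the load
-/

open Finset Real
open scoped Classical

namespace Vale.Agent.P064.Pat

variable {n k : ℕ} (P : Pat n)

omit P in
lemma sell_ge : 24 ≤ sell n := by
  have : 0 ≤ log (log (n : ℝ) + 3) := log_nonneg (by linarith [log_natCast_nonneg n])
  unfold sell
  linarith

omit P in
lemma one_le_log_sell : 1 ≤ log (sell n) := by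
  rw [le_log_iff_exp_le (by linarith [sell_ge (n := n)])]
  linarith [exp_one_lt_d9, sell_ge (n := n)]

omit P in
lemma log_add_three_le : log (log (n : ℝ) + 3) ≤ sell n := by
  unfold sell; linarith

omit P in
lemma neg_log_devWgt {ell : ℝ} (he : 4 ≤ ell) (d : ℝ) :
    -log (devWgt ell d) = 2 * log (ell + |d|) := by
  have : 0 < ell + |d| := by linarith [abs_nonneg d]
  rw [devWgt, one_div, log_inv, log_pow, neg_neg, Nat.cast_ofNat]

omit P in
/-- Selecting `g` out of `c`. -/
lemma select_le {ell X g gh c c' : ℝ} (he : 4 ≤ ell) (hg : 0 < g) (hgh : 0 < gh) (hgh' : gh ≤ g)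
    (hc : gh ≤ c) (hc' : gh ≤ c') :
    g * log (c / g) ≤ 2 * (√c * devWgt ell (log c - X) * (√c' * devWgt ell (log c' - X)))
      + g * log (g / gh)
      + 4 * g * (log (ell + |log c - X|) + log (ell + |log gh - X|)) := by
  have hc0 : 0 < c := hgh.trans_le hc
  have _ := hgh'
  have h1 := sqrt_devWgt_mono (X := X) he hgh.le hc'
  set Wc := devWgt ell (log c - X) with hWc
  set Wg := devWgt ell (log gh - X) with hWg
  have hWc0 : 0 < Wc := devWgt_pos he _
  have hWg0 : 0 < Wg := devWgt_pos he _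
  have hA : 0 < √c * Wc * (√gh * Wg) := by positivity
  have h2 : log (√c * Wc * (√gh * Wg) / g) ≤ √c * Wc * (√gh * Wg) / g := log_le_self (by positivity)
  rw [log_div hA.ne' hg.ne', log_mul (by positivity) (by positivity),
    log_mul (by positivity) hWc0.ne', log_mul (by positivity) hWg0.ne', log_sqrt hc0.le,
    log_sqrt hgh.le, le_div_iff₀ hg] at h2
  have h3 : √c * Wc * (√gh * Wg) ≤ √c * Wc * (√c' * devWgt ell (log c' - X)) :=
    mul_le_mul_of_nonneg_left h1 (by positivity)
  have e1 := neg_log_devWgt he (log c - X)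
  have e2 := neg_log_devWgt he (log gh - X)
  rw [← hWc] at e1
  rw [← hWg] at e2
  rw [log_div hc0.ne' hg.ne', log_div hg.ne' hgh.ne']
  linear_combination 2 * h2 + 2 * h3 + 2 * g * e1 + 2 * g * e2

omit P in
lemma log_scale_le {ell d m x N g : ℝ} (he : 6 ≤ ell) (hg : 0 < g) (hm : 0 ≤ m) (hx : 0 ≤ x)
    (hN : 0 ≤ N) (hd : |d| ≤ 6 * (ell + m) + N + x / g) :
    g * log (ell + |d|) ≤ g * (log ell + 6 + m) + x + g * log (1 + N / ell) := by
  have hx' : 0 ≤ x / g := div_nonneg hx hg.le
  have he0 : 0 < ell := by linarith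
  set z := (6 * m + x / g) / ell with hz
  have hz0 : 0 ≤ z := by positivity
  have hz1 : z ≤ m + x / g := by rw [hz, div_le_iff₀ he0]; nlinarith
  have h0 : 0 ≤ N / ell := by positivity
  have h1 : ell + |d| ≤ ell * ((7 + z) * (1 + N / ell)) := by
    have : ell * ((7 + z) * (1 + N / ell)) = (7 * ell + 6 * m + x / g) + (7 + z) * N := by
      simp only [hz]; field_simp; ring
    rw [this]
    nlinarith [mul_nonneg hz0 hN]
  have h2 := log_le_log (by linarith [abs_nonneg d]) h1
  rw [log_mul he0.ne' (by positivity), log_mul (by positivity) (by positivity)] at h2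
  have h3 := log_le_sub_one_of_pos (show 0 < 7 + z by linarith)
  have h4 := mul_le_mul_of_nonneg_left
    (show log (ell + |d|) ≤ log ell + 6 + m + x / g + log (1 + N / ell) by linarith) hg.le
  rw [mul_add, mul_add, mul_div_cancel₀ _ hg.ne'] at h4
  linarith

omit P in
lemma log_factorial_ge (g : ℕ) (hg : 1 ≤ g) :
    (g : ℝ) * log g - g ≤ log (g.factorial : ℝ) := by
  have hg0 : (0 : ℝ) < g := by exact_mod_cast hg
  have h := Real.pow_div_factorial_le_exp _ hg0.le g
  rw [div_le_iff₀ (by positivity)] at h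
  have h2 := log_le_log (by positivity) h
  rw [log_pow, log_mul (exp_pos _).ne' (by positivity), log_exp] at h2
  linarith

omit P in
lemma log_choose_le {c g : ℕ} (hg : 1 ≤ g) (hgc : g ≤ c) :
    log ((c.choose g : ℕ) : ℝ) ≤ g + g * log ((c : ℝ) / g) := by
  have hg0 : (0 : ℝ) < g := by exact_mod_cast hg
  have hc0 : (0 : ℝ) < c := hg0.trans_le (by exact_mod_cast hgc)
  have h := log_le_log (Nat.cast_pos.2 (Nat.choose_pos hgc)) (Nat.choose_le_pow_div (α := ℝ) g c)
  rw [log_div (by positivity) (by positivity), log_pow] at h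
  rw [log_div hc0.ne' hg0.ne']
  linarith [log_factorial_ge g hg]

omit P in
lemma class_up {ell L v phi a b r : ℝ} (hL : 0 ≤ L) (hL' : log (L + 3) ≤ ell) (hv : 0 < v)
    (ha : 1 ≤ a) (hb : 0 ≤ b) (hr : 0 ≤ r) (hrb : r ≤ 2 * b)
    (hphi : -(2 * a + 3 * b) ≤ phi) (hell : 24 ≤ ell)
    (hvb : v ≤ a ^ 2 * (exp 2 * exp phi + r * L + 1)) :
    log v - phi ≤ 6 * (ell + (a + b)) := by
  have h1 := log_le_log hv hvb
  rw [log_mul (by positivity) (by positivity), log_pow, Nat.cast_ofNat] at h1
  have h2 : log a ≤ a := log_le_self (by linarith)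
  have h4 : exp phi ≤ exp (max phi (r + ell)) := exp_le_exp.2 (le_max_left _ _)
  have h5 : r * L + 1 ≤ exp (max phi (r + ell)) := by
    refine le_trans ?_ (exp_le_exp.2 (le_max_right phi (r + ell)))
    rw [exp_add]
    calc r * L + 1 ≤ (r + 1) * (L + 3) := by nlinarith
      _ ≤ _ := mul_le_mul (add_one_le_exp r)
          ((log_le_iff_le_exp (by linarith)).1 hL') (by linarith) (exp_pos _).le
  have h3 : exp 2 * exp phi + r * L + 1 ≤ exp 3 * exp (max phi (r + ell)) := by
    have e3 : exp 3 = exp 1 * exp 2 := by rw [← exp_add]; norm_num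
    have h7 := mul_le_mul_of_nonneg_left h4 (exp_pos 2).le
    have h8 : exp 2 + 1 ≤ exp 1 * exp 2 := by
      nlinarith [exp_one_gt_d9, add_one_le_exp (2 : ℝ)]
    have h9 := mul_le_mul_of_nonneg_right h8 (exp_pos (max phi (r + ell))).le
    rw [e3]
    linarith
  have h6 := log_le_log (by positivity) h3
  rw [log_mul (exp_pos _).ne' (exp_pos _).ne', log_exp, log_exp] at h6
  rcases max_cases phi (r + ell) with ⟨h, -⟩ | ⟨h, -⟩ <;> rw [h] at h6 <;> linarith

omit P in
lemma class_scale {ell L g gh v phi a b r s : ℝ} (he : 24 ≤ ell) (hL : 0 ≤ L)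
    (hL' : log (L + 3) ≤ ell) (hg : 0 < g) (hgh : 0 < gh) (hv : gh ≤ v) (hs0 : 0 ≤ s)
    (hs : g * log (g / gh) ≤ s)
    (ha : 1 ≤ a) (hb : 0 ≤ b) (hr : 0 ≤ r) (hrb : r ≤ 2 * b)
    (hphi : -(2 * a + 3 * b) ≤ phi) (hvb : v ≤ a ^ 2 * (exp 2 * exp phi + r * L + 1)) :
    g * log (ell + |log v - phi|)
      ≤ g * (log ell + 6 + (a + b)) + s + g * log (1 + max 0 (phi - log g) / ell) := by
  have hlow : log g - s / g ≤ log gh := by
    rw [log_div hg.ne' hgh.ne'] at hs
    have : log g - log gh ≤ s / g := by rw [le_div_iff₀ hg, mul_comm]; exact hs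
    linarith
  have hsg : 0 ≤ s / g := div_nonneg hs0 hg.le
  have hN := le_max_left 0 (phi - log g)
  refine log_scale_le (by linarith) hg (by linarith) hs0 hN (abs_le.2 ⟨?_, ?_⟩)
  · have := log_le_log hgh hv
    linarith [le_max_right 0 (phi - log g)]
  · linarith [class_up hL hL' (hgh.trans_le hv) ha hb hr hrb hphi he hvb]

omit P in
lemma loose_spread {ell L g phi a b : ℝ} (he : 24 ≤ ell) (hl0 : 1 ≤ log ell) (hL : 0 ≤ L)
    (hL' : log (L + 3) ≤ ell) (hg : 1 ≤ g) (ha : 1 ≤ a) (hb : 0 ≤ b)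
    (hphi : -(2 * a + 3 * b) ≤ phi) (hphiL : phi ≤ a * L)
    (hns : ell ≤ a + b ∨ ell * exp (phi + 3 * (a + b)) < g) :
    3 * ell ≤ 3 * (log ell * g * (a + b)) ∧
      g * log (1 + max 0 (phi - log g) / ell) ≤ 2 * (log ell * g * (a + b)) := by
  have h1g : 1 ≤ log ell * g := one_le_mul_of_one_le_of_one_le hl0 hg
  rcases hns with h | h
  · refine ⟨by linarith [le_mul_of_one_le_left (show 0 ≤ a + b by linarith) h1g], ?_⟩
    have hlg : 0 ≤ log g := log_nonneg hg
    have hNa : max 0 (phi - log g) ≤ a * L := max_le (by positivity) (by linarith)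
    have hN := le_max_left 0 (phi - log g)
    have h1 : log (1 + max 0 (phi - log g) / ell) ≤ log ((1 + a) * (L + 3)) := by
      refine log_le_log (by positivity) ?_
      have : max 0 (phi - log g) / ell ≤ max 0 (phi - log g) := div_le_self hN (by linarith)
      nlinarith
    rw [log_mul (by positivity) (by positivity)] at h1
    have h2 := log_le_sub_one_of_pos (show 0 < 1 + a by linarith)
    have h3 := le_mul_of_one_le_left (show 0 ≤ a + b by linarith) hl0
    calc g * log (1 + max 0 (phi - log g) / ell) ≤ g * (2 * (log ell * (a + b))) :=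
          mul_le_mul_of_nonneg_left (by linarith) (by linarith)
      _ = _ := by ring
  · have h0 : 0 ≤ phi + 3 * (a + b) := by linarith
    have hge : ell < g := lt_of_le_of_lt (le_mul_of_one_le_right (by linarith) (one_le_exp h0)) h
    have hlgphi : phi ≤ log g := by
      rw [le_log_iff_exp_le (by linarith)]
      refine le_trans ?_ h.le
      exact le_trans (exp_le_exp.2 (by linarith))
        (le_mul_of_one_le_left (exp_pos _).le (by linarith))
    have h3 : g ≤ log ell * g * (a + b) := by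
      calc g ≤ g * (log ell * (a + b)) := le_mul_of_one_le_right (by linarith)
            (one_le_mul_of_one_le_of_one_le hl0 (by linarith))
        _ = _ := by ring
    refine ⟨by linarith, ?_⟩
    rw [max_eq_left (by linarith), zero_div, add_zero, log_one, mul_zero]
    linarith

omit P in
lemma joint_spread {ell g phi a b : ℝ} (he : 24 ≤ ell) (hl0 : 1 ≤ log ell) (hg : 0 < g)
    (ha : 1 ≤ a) (hb : 0 ≤ b) (hsl : g ≤ ell * exp (phi + 3 * (a + b))) :
    g * (log g - phi) + 12 * (g * log (1 + max 0 (phi - log g) / ell))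
      ≤ 4 * (log ell * g * (a + b)) := by
  set N := max 0 (phi - log g) with hN'
  have hN : 0 ≤ N := le_max_left _ _
  have h1 : log (1 + N / ell) ≤ N / ell := by
    linarith [log_le_sub_one_of_pos (show 0 < 1 + N / ell by positivity)]
  have h2 : 12 * (N / ell) ≤ N := by
    rw [mul_div_assoc', div_le_iff₀ (by linarith)]; nlinarith
  have h3 : log g - phi + N ≤ 4 * (log ell * (a + b)) := by
    have h4 : log g ≤ log ell + (phi + 3 * (a + b)) := by
      have h5 := log_le_log hg hsl
      rwa [log_mul (by linarith) (exp_pos _).ne', log_exp] at h5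
    have h6 := le_mul_of_one_le_left (show 0 ≤ a + b by linarith) hl0
    have h7 := le_mul_of_one_le_right (show 0 ≤ log ell by linarith) (show 1 ≤ a + b by linarith)
    rcases max_cases 0 (phi - log g) with ⟨h, -⟩ | ⟨h, -⟩ <;> rw [← hN'] at h <;> linarith
  calc g * (log g - phi) + 12 * (g * log (1 + N / ell))
      = g * (log g - phi + 12 * log (1 + N / ell)) := by ring
    _ ≤ g * (4 * (log ell * (a + b))) := mul_le_mul_of_nonneg_left (by linarith) hg.le
    _ = _ := by ring

omit P in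
/-- The two prices of a class with `g` unseeded pieces. -/
lemma class_le {ell L g gh c c' sU sV phi a b r : ℝ} (he : 24 ≤ ell) (hL : 0 ≤ L)
    (hL' : log (L + 3) ≤ ell) (hg : 1 ≤ g) (hgh0 : 0 < gh) (hgh : gh ≤ g) (hc : gh ≤ c)
    (hc' : gh ≤ c') (hs : g * log (g / gh) ≤ sU + sV) (hsU : 0 ≤ sU) (hsV : 0 ≤ sV)
    (ha : 1 ≤ a) (hb : 0 ≤ b) (hr : 0 ≤ r) (hrb : r ≤ 2 * b)
    (hphi : -(2 * a + 3 * b) ≤ phi) (hphiL : phi ≤ a * L)
    (hcb : c ≤ a ^ 2 * (exp 2 * exp phi + r * L + 1))
    (hcb' : c' ≤ a ^ 2 * (exp 2 * exp phi + r * L + 1)) :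
    (ell ≤ a + b ∨ ell * exp (phi + 3 * (a + b)) < g →
      3 * g + 3 * ell + g * log (c / g) - log c + sU
        ≤ 100 * (√c * devWgt ell (log c - phi) * (√c' * devWgt ell (log c' - phi))
          + (sU + sV) + log ell * g * (a + b))) ∧
    (a + b < ell → g ≤ ell * exp (phi + 3 * (a + b)) →
      g * (a * log ell) + (sU + sV) - g * phi + g / 2 * (log c + log c')
        + 2 * g * (log (ell + |log c - phi|) + log (ell + |log c' - phi|))
        ≤ 150 * (√c * devWgt ell (log c - phi) * (√c' * devWgt ell (log c' - phi))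
          + (sU + sV) + log ell * g * (a + b))) := by
  have hl0 : 1 ≤ log ell := by
    rw [le_log_iff_exp_le (by linarith)]
    linarith [exp_one_lt_d9]
  have hg0 : 0 < g := by linarith
  have hs0 : 0 ≤ sU + sV := add_nonneg hsU hsV
  have hFF0 : 0 ≤ √c * devWgt ell (log c - phi) * (√c' * devWgt ell (log c' - phi)) :=
    mul_nonneg (mul_nonneg (sqrt_nonneg _) (devWgt_pos (by linarith) _).le)
      (mul_nonneg (sqrt_nonneg _) (devWgt_pos (by linarith) _).le)
  have hd := fun {v : ℝ} (hv : gh ≤ v) (hvb : v ≤ a ^ 2 * (exp 2 * exp phi + r * L + 1)) =>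
    class_scale he hL hL' hg0 hgh0 hv hs0 hs ha hb hr hrb hphi hvb
  have hdc := hd hc hcb
  have hdc' := hd hc' hcb'
  have hdg := hd le_rfl (hc.trans hcb)
  have hM : g * (log ell + 6 + (a + b)) ≤ 8 * (log ell * g * (a + b)) := by
    have h1 := le_mul_of_one_le_left (show 0 ≤ a + b by linarith) hl0
    have h2 := le_mul_of_one_le_right (show 0 ≤ log ell by linarith) (show 1 ≤ a + b by linarith)
    calc g * (log ell + 6 + (a + b)) ≤ g * (8 * (log ell * (a + b))) :=
          mul_le_mul_of_nonneg_left (by linarith) hg0.le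
      _ = _ := by ring
  have hgab : g ≤ log ell * g * (a + b) := by
    calc g ≤ g * (log ell * (a + b)) := le_mul_of_one_le_right hg0.le
          (one_le_mul_of_one_le_of_one_le hl0 (by linarith))
      _ = _ := by ring
  have hsel := select_le (X := phi) (show 4 ≤ ell by linarith) hg0 hgh0 hgh hc hc'
  refine ⟨fun hns => ?_, fun _ hsl => ?_⟩
  · have hlogc : -log c ≤ sU + sV := by
      have h1 := log_le_log hgh0 hc
      have h2 : log g - log gh ≤ sU + sV := by
        rcases le_or_gt (log g) (log gh) with h | h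
        · linarith
        · have h3 := le_mul_of_one_le_left (show 0 ≤ log g - log gh by linarith) hg
          rw [← log_div hg0.ne' hgh0.ne'] at h3 ⊢
          linarith
      linarith [log_nonneg hg]
    obtain ⟨h1, h2⟩ := loose_spread he hl0 hL hL' hg ha hb hphi hphiL hns
    linarith
  · have hgain := joint_spread he hl0 hg0 ha hb hsl
    have hsel' := select_le (X := phi) (show 4 ≤ ell by linarith) hg0 hgh0 hgh hc' hc
    rw [mul_comm (√c' * devWgt ell (log c' - phi))] at hsel'
    have hab : g * (a * log ell) ≤ log ell * g * (a + b) := by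
      calc g * (a * log ell) = log ell * g * a := by ring
        _ ≤ _ := mul_le_mul_of_nonneg_left (by linarith) (by positivity)
    rw [log_div (hgh0.trans_le hc).ne' hg0.ne'] at hsel
    rw [log_div (hgh0.trans_le hc').ne' hg0.ne'] at hsel'
    linarith

variable {t u : Fin k → Equiv.Perm (Fin n)}

/-- Facts about copies with the marks of `H`. -/
lemma good_sub {H : Finset (Sym2 (Fin n))} {R : Sym2 (Fin n) → Fin n → Prop}
    (ht : ∀ i, t i ∈ P.goodCopies H R) : P.edges t ⊆ H :=
  biUnion_subset.2 fun i _ => (mem_filter.1 (ht i)).2.1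

lemma good_rich {H : Finset (Sym2 (Fin n))} {R : Sym2 (Fin n) → Fin n → Prop}
    (ht : ∀ i, t i ∈ P.goodCopies H R) {y : Sym2 (Fin n)} {x : Fin n} (h : P.Rich t y x) :
    R y x := by
  obtain ⟨i, z, hz, w, hw, rfl, rfl⟩ := h
  exact ((mem_filter.1 (ht i)).2.2 z hz w (P.mark_sub z hz w hw)).2 hw

lemma good_rich' {H : Finset (Sym2 (Fin n))} {R : Sym2 (Fin n) → Fin n → Prop}
    (ht : ∀ i, t i ∈ P.goodCopies H R) {y : Sym2 (Fin n)} {x : Fin n} (hy : y ∈ P.edges t)
    (hx : x ∈ y) (h : R y x) : P.Rich t y x := by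
  obtain ⟨i, -, hi⟩ := mem_biUnion.1 hy
  obtain ⟨z, hz, rfl⟩ := mem_image.1 hi
  rw [smul_sym2, Sym2.mem_map] at hx
  obtain ⟨w, hw, rfl⟩ := hx
  exact ⟨i, z, hz, w, ((mem_filter.1 (ht i)).2.2 z hz w hw).1 h, rfl, rfl⟩

omit P in
lemma mark_select {cnt g : ℕ} {L c2 : ℝ} (hL' : log (L + 3) ≤ sell n) {c1 : ℕ}
    (hgc : g ≤ cnt) (hc1 : cnt ≤ c1) (hc1' : (c1 : ℝ) ≤ L + 2) (hc2 : (g : ℝ) ≤ c2) :
    2 * (g : ℝ) + 1 + log ((cnt.choose g : ℕ) : ℝ) ≤ 19 * log (sell n) * g + 1
      + 2 * (√(c1 : ℝ) * devWgt (sell n) (log c1) * (√c2 * devWgt (sell n) (log c2))) := by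
  have he := sell_ge (n := n)
  have hl := one_le_log_sell (n := n)
  have hp1 := devWgt_pos (show 4 ≤ sell n by linarith) (log (c1 : ℝ))
  have hp2 := devWgt_pos (show 4 ≤ sell n by linarith) (log c2)
  rcases Nat.eq_zero_or_pos g with h0 | h0
  · subst h0
    simp only [Nat.choose_zero_right, Nat.cast_one, log_one, Nat.cast_zero, mul_zero, zero_add,
      add_zero]
    nlinarith [mul_nonneg (mul_nonneg (sqrt_nonneg (c1 : ℝ)) hp1.le)
      (mul_nonneg (sqrt_nonneg c2) hp2.le)]
  have hg0 : (0 : ℝ) < g := by exact_mod_cast h0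
  have hgc1 : (g : ℝ) ≤ c1 := by exact_mod_cast hgc.trans hc1
  have h1 := select_le (X := 0) (show 4 ≤ sell n by linarith) hg0 hg0 le_rfl hgc1 hc2
  simp only [sub_zero, div_self hg0.ne', log_one, mul_zero, add_zero] at h1
  have h2 := log_choose_le h0 hgc
  have h3 : (g : ℝ) * log ((cnt : ℝ) / g) ≤ g * log ((c1 : ℝ) / g) := by
    refine mul_le_mul_of_nonneg_left (log_le_log (div_pos ?_ hg0) ?_) hg0.le
    · exact hg0.trans_le (by exact_mod_cast hgc)
    · exact div_le_div_of_nonneg_right (by exact_mod_cast hc1) hg0.le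
  have h4 : ∀ v : ℝ, (g : ℝ) ≤ v → v ≤ c1 →
      log (sell n + |log v|) ≤ log (sell n) + 1 := by
    intro v hv hv'
    have h1v : (1 : ℝ) ≤ v := le_trans (by exact_mod_cast h0) hv
    have hb : |log v| ≤ sell n := by
      rw [abs_of_nonneg (log_nonneg h1v)]
      exact le_trans (log_le_log (by linarith) (by linarith)) hL'
    calc log (sell n + |log v|) ≤ log (2 * sell n) :=
          log_le_log (by linarith [abs_nonneg (log v)]) (by linarith)
      _ ≤ _ := by rw [log_mul two_ne_zero (by linarith)]; linarith [log_two_lt_d9]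
  have h5 := mul_le_mul_of_nonneg_left (h4 _ hgc1 le_rfl) hg0.le
  have h6 := mul_le_mul_of_nonneg_left (h4 _ le_rfl hgc1) hg0.le
  nlinarith [mul_nonneg hg0.le (sub_nonneg.2 hl)]

/-- The marks of one side. -/
lemma sum_markCost_le {H : Finset (Sym2 (Fin n))} {lam : ℝ} (M : Marks H lam)
    (ht : ∀ i, t i ∈ P.goodCopies H M.rich) (hu : ∀ i, u i ∈ P.goodCopies H M.rich)
    {a b : Fin k → Equiv.Perm (Fin n)} (hab : (a = t ∧ b = u) ∨ (a = u ∧ b = t)) :
    ∑ x ∈ P.mid t u, P.markCost t u a x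
      ≤ 38 * log (sell n) * (P.common t u).card + (P.metV a).card
        + 2 * ∑ x, P.markF M.rich a x * P.markF M.rich b x := by
  have hl := one_le_log_sell (n := n)
  have ha : ∀ i, a i ∈ P.goodCopies H M.rich := by
    rcases hab with ⟨rfl, rfl⟩ | ⟨rfl, rfl⟩
    exacts [ht, hu]
  have hcb : P.common t u ⊆ P.edges b := by
    rcases hab with ⟨rfl, rfl⟩ | ⟨rfl, rfl⟩
    exacts [inter_subset_right, inter_subset_left]
  have hmid : P.mid t u ⊆ P.metV a := by
    rcases hab with ⟨rfl, rfl⟩ | ⟨rfl, rfl⟩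
    exacts [inter_subset_left.trans inter_subset_right, inter_subset_right]
  have hpos : ∀ x, 0 ≤ P.markF M.rich a x * P.markF M.rich b x := fun x => by
    have := devWgt_pos (show 4 ≤ sell n by linarith [sell_ge (n := n)])
      (log (((P.edges a).filter fun y => M.rich y x).card : ℝ))
    have := devWgt_pos (show 4 ≤ sell n by linarith [sell_ge (n := n)])
      (log (((P.edges b).filter fun y => M.rich y x).card : ℝ))
    unfold markF
    positivity
  set deg : Fin n → ℕ := fun x => ((P.common t u).filter fun y => x ∈ y).card with hdeg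
  refine (sum_le_sum (g := fun x => 19 * log (sell n) * (deg x : ℝ) + 1
    + 2 * (P.markF M.rich a x * P.markF M.rich b x)) fun x hx => ?_).trans ?_
  · set g := (P.richAt a x ∩ P.common t u).card
    have hsub : P.richAt a x ⊆ (P.edges a).filter fun y => M.rich y x := fun y hy => by
      obtain ⟨hy1, -, -, hy2⟩ := mem_filter.1 hy
      exact mem_filter.2 ⟨hy1, P.good_rich ha hy2⟩
    have hc1 : (((P.edges a).filter fun y => M.rich y x).card : ℝ) ≤ log (n : ℝ) + 2 :=
      le_trans (Nat.cast_le.2 (card_le_card (filter_subset_filter _ (P.good_sub ha))))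
        (M.rich_card x)
    have hc2 : (g : ℝ) ≤ ((P.edges b).filter fun y => M.rich y x).card := by
      refine Nat.cast_le.2 (card_le_card fun y hy => ?_)
      obtain ⟨hy1, hy2⟩ := mem_inter.1 hy
      exact mem_filter.2 ⟨hcb hy2, (mem_filter.1 (hsub hy1)).2⟩
    have hgd : g ≤ deg x := card_le_card fun y hy => by
      obtain ⟨hy1, hy2⟩ := mem_inter.1 hy
      exact mem_filter.2 ⟨hy2, (mem_filter.1 hy1).2.1⟩
    refine (mark_select log_add_three_le (card_le_card inter_subset_left)
      (card_le_card hsub) hc1 hc2).trans ?_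
    have : 19 * log (sell n) * (g : ℝ) ≤ 19 * log (sell n) * deg x :=
      mul_le_mul_of_nonneg_left (Nat.cast_le.2 hgd) (by linarith)
    simp only [markF]
    linarith
  · rw [sum_add_distrib, sum_add_distrib, ← mul_sum, ← mul_sum, sum_const, nsmul_eq_mul, mul_one]
    have h1 : ∑ x ∈ P.mid t u, (deg x : ℝ) ≤ 2 * (P.common t u).card :=
      (sum_le_sum_of_subset_of_nonneg (subset_univ _) fun x _ _ => Nat.cast_nonneg _).trans
        (card_filter_mem_le (P.common t u))
    have h2 : ∑ x ∈ P.mid t u, P.markF M.rich a x * P.markF M.rich b x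
        ≤ ∑ x, P.markF M.rich a x * P.markF M.rich b x :=
      sum_le_sum_of_subset_of_nonneg (subset_univ _) fun x _ _ => hpos x
    have h3 : ((P.mid t u).card : ℝ) ≤ (P.metV a).card := Nat.cast_le.2 (card_le_card hmid)
    have := mul_le_mul_of_nonneg_left h1 (show 0 ≤ 19 * log (sell n) by linarith)
    linarith

/-- The unseeded pieces of a class. -/
noncomputable def grp (t u : Fin k → Equiv.Perm (Fin n)) (κ : Finset (Piece n)) :
    Finset (Piece n) :=
  (P.parts t u).filter fun r => ¬ P.Seeded t u r ∧ pieceClass r = κ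

/-- The weights of a piece on both sides. -/
noncomputable def logW (t u : Fin k → Equiv.Perm (Fin n)) (r : Piece n) : ℝ :=
  -log (wgt (P.edges t) r.1) - log (wgt (P.edges u) r.1)

/-- What a class may cost. -/
noncomputable def classLoad (lam : ℝ) (t u : Fin k → Equiv.Perm (Fin n)) (κ : Finset (Piece n)) :
    ℝ :=
  matchWgt lam (P.edges t) κ * matchWgt lam (P.edges u) κ
    + ∑ r ∈ P.grp t u κ, (P.logW t u r + log (sell n) * ((r.1.card : ℝ) + r.2.card))

omit P in
lemma wgt_pos (U : Finset (Sym2 (Fin n))) (K : Finset (Fin n)) : 0 < wgt U K := by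
  unfold wgt; positivity

omit P in
lemma wgt_le_one (U : Finset (Sym2 (Fin n))) (K : Finset (Fin n)) : wgt U K ≤ 1 :=
  pow_le_one₀ (by norm_num) (by norm_num)

omit P in
lemma neg_log_wgt (U : Finset (Sym2 (Fin n))) (K : Finset (Fin n)) :
    -log (wgt U K) = log 4 * ∑ v ∈ K, (degIn U v : ℝ) := by
  rw [wgt, log_pow, log_inv]
  push_cast
  ring

omit P in
lemma pieceClass_self (p : Piece n) : p ∈ pieceClass p :=
  mem_filter.2 ⟨mem_univ _, 1, fun _ _ => rfl, by simp, img_one _⟩

omit P in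
lemma pieceClass_iff (p r : Piece n) : r ∈ pieceClass p ↔ pieceClass r = pieceClass p :=
  ⟨pieceClass_eq, fun h => h ▸ pieceClass_self r⟩

omit P in
lemma class_cards {p r : Piece n} (h : r ∈ pieceClass p) :
    r.1.card = p.1.card ∧ r.2.card = p.2.card ∧ ∀ lam, pot lam r = pot lam p := by
  obtain ⟨g, -, h1, h2⟩ := (mem_filter.1 h).2
  have e1 : r.1.card = p.1.card := by rw [← h1, card_image_of_injective _ g.injective]
  have e2 : r.2.card = p.2.card := by rw [← h2, card_img]
  exact ⟨e1, e2, fun lam => by simp only [pot, e1, e2]⟩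

omit P in
lemma classPot_eq (lam : ℝ) (p : Piece n) : classPot lam (pieceClass p) = pot lam p := by
  have h : (pieceClass p).Nonempty := ⟨p, pieceClass_self p⟩
  rw [classPot, dif_pos h]
  exact (class_cards h.choose_spec).2.2 lam

omit P in
lemma mul_log_mean_le {G : Finset (Piece n)} (hG : G.Nonempty) (x xU xV : Piece n → ℝ)
    (hx : ∀ r ∈ G, 0 < x r) (hmin : ∀ r ∈ G, xU r + xV r ≤ log (x r)) :
    (G.card : ℝ) * log ((G.card : ℝ) / ∑ r ∈ G, x r) ≤ ∑ r ∈ G, (-xU r - xV r) := by
  have hg : (0 : ℝ) < G.card := Nat.cast_pos.2 hG.card_pos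
  have hS : 0 < ∑ r ∈ G, x r := sum_pos hx hG
  set m := (∑ r ∈ G, x r) / G.card with hm
  have hm0 : 0 < m := by positivity
  have h1 : ∑ r ∈ G, log (x r) ≤ ∑ r ∈ G, (log m + (x r / m - 1)) := sum_le_sum fun r hr => by
    have := log_le_sub_one_of_pos (div_pos (hx r hr) hm0)
    rw [log_div (hx r hr).ne' hm0.ne'] at this
    linarith
  rw [sum_add_distrib, sum_sub_distrib, ← sum_div, sum_const, sum_const, nsmul_eq_mul,
    nsmul_eq_mul, mul_one] at h1
  have e : (∑ r ∈ G, x r) / m = G.card := by rw [hm]; field_simp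
  rw [e, hm, log_div hS.ne' hg.ne'] at h1
  have h2 := sum_le_sum hmin
  rw [sum_add_distrib] at h2
  rw [log_div hg.ne' hS.ne', sum_sub_distrib, sum_neg_distrib]
  linarith

lemma class_bound {H : Finset (Sym2 (Fin n))} {q lam : ℝ} (hn : 2 ≤ n) (hq : 0 < q)
    (hlamq : log (1 / q) = lam) (hlam : 0 ≤ lam) (hs : Sparse (Equiv.Perm (Fin n)) H q)
    (M : Marks H lam)
    (ht : ∀ i, t i ∈ P.goodCopies H M.rich) (hu : ∀ i, u i ∈ P.goodCopies H M.rich) :
    (∀ κ ∈ P.looseClasses lam t u,
      P.looseCost lam t u t κ + P.looseCost lam t u u κ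
        ≤ 200 * P.classLoad lam t u κ) ∧
    (∀ κ ∈ (P.jointParts lam t u).image pieceClass,
      ∑ r ∈ (P.jointParts lam t u).filter (fun r => pieceClass r = κ),
        P.jointCost lam t u r ≤ 150 * P.classLoad lam t u κ) := by
  have data : ∀ p ∈ P.parts t u, ¬ P.Seeded t u p →
      let κ := pieceClass p
      let G := P.grp t u κ
      let g := (G.card : ℝ)
      let c := classWgt (P.edges t) κ
      let c' := classWgt (P.edges u) κ
      let sU := ∑ r ∈ G, -log (wgt (P.edges t) r.1)
      let sV := ∑ r ∈ G, -log (wgt (P.edges u) r.1)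
      let T := P.classLoad lam t u κ
      1 ≤ g ∧ (P.mult t u p : ℝ) = g ∧ sU + sV = ∑ r ∈ G, P.logW t u r ∧
      (sell n ≤ (p.1.card : ℝ) + p.2.card ∨
          sell n * exp (pot lam p + 3 * ((p.1.card : ℝ) + p.2.card)) < g →
        3 * g + 3 * sell n + g * log (c / g) - log c + sU ≤ 100 * T ∧
        3 * g + 3 * sell n + g * log (c' / g) - log c' + sV ≤ 100 * T) ∧
      ((p.1.card : ℝ) + p.2.card < sell n →
          g ≤ sell n * exp (pot lam p + 3 * ((p.1.card : ℝ) + p.2.card)) →
        g * (p.1.card * log (sell n)) + (sU + sV) - g * pot lam p + g / 2 * (log c + log c')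
          + 2 * g * (log (sell n + |log c - pot lam p|) + log (sell n + |log c' - pot lam p|))
          ≤ 150 * T) := by
    intro p hp hseed κ G g c c' sU sV T
    have hpG : p ∈ G := mem_filter.2 ⟨hp, hseed, rfl⟩
    have hg : (1 : ℝ) ≤ g := Nat.one_le_cast.2 (card_pos.2 ⟨p, hpG⟩)
    have hmult : (P.mult t u p : ℝ) = g :=
      Nat.cast_inj.2 (congrArg card (filter_congr fun r _ => by
        rw [pieceClass_iff]))
    have hsum : sU + sV = ∑ r ∈ G, P.logW t u r := by
      rw [← sum_add_distrib]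
      exact sum_congr rfl fun r _ => by unfold logW; ring
    have hcsub : P.common t u ⊆ P.edges t := inter_subset_left
    have hcsub' : P.common t u ⊆ P.edges u := inter_subset_right
    have hpc : p.2 ⊆ P.common t u := by rw [part_snd hp]; exact filter_subset _ _
    have htouch : ∀ y ∈ p.2, ∃ v ∈ p.1, v ∈ y := fun y hy => by
      rw [part_snd hp] at hy
      exact (mem_filter.1 hy).2
    have hphi : -(2 * (p.1.card : ℝ) + 3 * p.2.card) ≤ pot lam p := by
      refine M.pot_ge p (hpc.trans (hcsub.trans (P.good_sub ht))) htouch fun y hy x hx hxp hr => ?_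
      exact hseed ⟨y, hy, x, mem_sdiff.2 ⟨mem_filter.2 ⟨mem_univ _, y, hy, hx⟩, hxp⟩, hx,
        Or.inr (P.good_rich' ht (hcsub (hpc hy)) hx hr),
        Or.inr (P.good_rich' hu (hcsub' (hpc hy)) hx hr)⟩
    have hphiL : pot lam p ≤ (p.1.card : ℝ) * log (n : ℝ) :=
      sub_le_self _ (mul_nonneg (Nat.cast_nonneg _) hlam)
    set x : Piece n → ℝ := fun r => min (wgt (P.edges t) r.1) (wgt (P.edges u) r.1) with hx
    set gh := ∑ r ∈ G, x r
    have hxpos : ∀ r ∈ G, 0 < x r := fun r _ => lt_min (wgt_pos _ _) (wgt_pos _ _)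
    have hgh0 : 0 < gh := sum_pos hxpos ⟨p, hpG⟩
    have hgh : gh ≤ g := by
      refine (sum_le_card_nsmul _ _ 1 fun r _ => ?_).trans_eq (by rw [nsmul_eq_mul, mul_one])
      exact (min_le_left _ _).trans (wgt_le_one _ _)
    have hcls : ∀ (s : Fin k → Equiv.Perm (Fin n)), P.common t u ⊆ P.edges s →
        (∀ r, x r ≤ wgt (P.edges s) r.1) → gh ≤ classWgt (P.edges s) κ := by
      intro s hs' hle
      refine (sum_le_sum fun r _ => hle r).trans (sum_le_sum_of_subset_of_nonneg (fun r hr => ?_)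
        fun r _ _ => (wgt_pos _ _).le)
      obtain ⟨hr1, -, hr2⟩ := mem_filter.1 hr
      exact mem_filter.2 ⟨part_mem_units hr1 hs', (pieceClass_iff p r).2 hr2⟩
    have hc : gh ≤ c := hcls t hcsub fun r => min_le_left _ _
    have hc' : gh ≤ c' := hcls u hcsub' fun r => min_le_right _ _
    have hlogmin : g * log (g / gh) ≤ sU + sV := by
      rw [← sum_add_distrib]
      refine (mul_log_mean_le ⟨p, hpG⟩ x (fun r => log (wgt (P.edges t) r.1))
        (fun r => log (wgt (P.edges u) r.1)) hxpos (fun r _ => ?_)).trans_eq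
          (sum_congr rfl fun r _ => by ring)
      have h1 := log_nonpos (wgt_pos (P.edges t) r.1).le (wgt_le_one _ _)
      have h2 := log_nonpos (wgt_pos (P.edges u) r.1).le (wgt_le_one _ _)
      rcases min_cases (wgt (P.edges t) r.1) (wgt (P.edges u) r.1) with ⟨h, -⟩ | ⟨h, -⟩ <;>
        simp only [hx, h] <;> linarith
    have hs0 : ∀ s : Fin k → Equiv.Perm (Fin n),
        0 ≤ ∑ r ∈ G, -log (wgt (P.edges s) r.1) := fun s =>
      sum_nonneg fun r _ => neg_nonneg.2 (log_nonpos (wgt_pos _ _).le (wgt_le_one _ _))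
    have ha : (1 : ℝ) ≤ (p.1.card : ℝ) := Nat.one_le_cast.2 (part_nonempty hp).card_pos
    have hr : ((att p).card : ℝ) ≤ 2 * (p.2.card : ℝ) := by
      refine le_trans (Nat.cast_le.2 ((card_le_card sdiff_subset).trans (card_ends_le p.2))) ?_
      push_cast; linarith
    have hcb := classWgt_le hn hq hs (P.good_sub ht) (part_mem_units hp hcsub)
    have hcb' := classWgt_le hn hq hs (P.good_sub hu) (part_mem_units hp hcsub')
    rw [hlamq] at hcb hcb'
    have hT : T = √c * devWgt (sell n) (log c - pot lam p)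
        * (√c' * devWgt (sell n) (log c' - pot lam p)) + (sU + sV)
        + log (sell n) * g * ((p.1.card : ℝ) + p.2.card) := by
      simp only [T, classLoad, matchWgt, κ, classPot_eq, sum_add_distrib, hsum, c, c', add_assoc]
      congr 2
      rw [sum_congr rfl (g := fun _ => log (sell n) * ((p.1.card : ℝ) + p.2.card)) (fun r hr => by
        obtain ⟨e1, e2, -⟩ := class_cards ((pieceClass_iff p r).2 (mem_filter.1 hr).2.2)
        rw [e1, e2]), sum_const, nsmul_eq_mul]
      ring
    have hA := class_le (sell_ge (n := n)) (log_natCast_nonneg n) log_add_three_le hg hgh0 hgh hc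
      hc' hlogmin (hs0 t) (hs0 u) ha (Nat.cast_nonneg _) (Nat.cast_nonneg _) hr hphi hphiL hcb hcb'
    have hB := class_le (sell_ge (n := n)) (log_natCast_nonneg n) log_add_three_le hg hgh0 hgh hc'
      hc (by rw [add_comm]; exact hlogmin) (hs0 u) (hs0 t) ha (Nat.cast_nonneg _) (Nat.cast_nonneg _)
      hr hphi hphiL hcb' hcb
    refine ⟨hg, hmult, hsum, fun h => ⟨(hA.1 h).trans_eq (by rw [hT]),
      (hB.1 h).trans_eq (by rw [hT]; ring)⟩, fun h h' => (hA.2 h h').trans_eq (by rw [hT])⟩
  constructor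
  · intro κ hκ
    obtain ⟨p, hp, rfl⟩ := mem_image.1 hκ
    obtain ⟨hp1, hp2, hp3⟩ := mem_filter.1 hp
    obtain ⟨hg, hmult, -, hloose, -⟩ := data p hp1 hp2
    have he : (P.looseParts lam t u).filter (· ∈ pieceClass p) = P.grp t u (pieceClass p) := by
      ext r
      simp only [looseParts, grp, mem_filter, pieceClass_iff]
      refine ⟨fun h => ⟨h.1.1, h.1.2.1, h.2⟩, fun h => ⟨⟨h.1, h.2.1, fun hsl => hp3 ?_⟩, h.2.2⟩⟩
      obtain ⟨e1, e2, e3⟩ := class_cards ((pieceClass_iff p r).2 h.2.2)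
      have em : P.mult t u r = P.mult t u p :=
        congrArg card (filter_congr fun z _ => by rw [h.2.2])
      unfold Slim at hsl ⊢
      rwa [e1, e2, e3 lam, em] at hsl
    have hns : sell n ≤ (p.1.card : ℝ) + p.2.card ∨
        sell n * exp (pot lam p + 3 * ((p.1.card : ℝ) + p.2.card))
          < ((P.grp t u (pieceClass p)).card : ℝ) := by
      rw [← hmult]
      unfold Slim at hp3
      rcases le_or_gt (sell n) ((p.1.card : ℝ) + p.2.card) with h | h
      · exact Or.inl h
      · exact Or.inr (not_le.1 fun h' => hp3 ⟨h, h'⟩)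
    obtain ⟨h1, h2⟩ := hloose hns
    have hone : ∀ s : Fin k → Equiv.Perm (Fin n), 0 < classWgt (P.edges s) (pieceClass p) →
        P.looseCost lam t u s (pieceClass p) ≤ 3 * ((P.grp t u (pieceClass p)).card : ℝ)
          + 3 * sell n
          + (P.grp t u (pieceClass p)).card
            * log (classWgt (P.edges s) (pieceClass p) / (P.grp t u (pieceClass p)).card)
          - log (classWgt (P.edges s) (pieceClass p))
          + ∑ r ∈ P.grp t u (pieceClass p), -log (wgt (P.edges s) r.1) := by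
      intro s hc
      simp only [looseCost, he]
      rw [log_div hc.ne' (by linarith), sum_neg_distrib]
      linarith [log_factorial_ge _ (Nat.one_le_cast.1 hg)]
    have hpos : ∀ s : Fin k → Equiv.Perm (Fin n), P.common t u ⊆ P.edges s →
        0 < classWgt (P.edges s) (pieceClass p) := fun s hs' =>
      sum_pos' (fun r _ => (wgt_pos _ _).le)
        ⟨p, mem_filter.2 ⟨part_mem_units hp1 hs', pieceClass_self p⟩, wgt_pos _ _⟩
    linarith [hone t (hpos t inter_subset_left), hone u (hpos u inter_subset_right)]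
  · intro κ hκ
    obtain ⟨p, hp, rfl⟩ := mem_image.1 hκ
    obtain ⟨hp1, hp2, hp3⟩ := mem_filter.1 hp
    obtain ⟨hg, hmult, hsum, -, hjoint⟩ := data p hp1 hp2
    obtain ⟨hs1, hs2⟩ := hp3
    rw [hmult] at hs2
    have hb := hjoint hs1 hs2
    have he : (P.jointParts lam t u).filter (fun r => pieceClass r = pieceClass p)
        = P.grp t u (pieceClass p) := by
      ext r
      simp only [jointParts, grp, mem_filter]
      refine ⟨fun h => ⟨h.1.1, h.1.2.1, h.2⟩, fun h => ⟨⟨h.1, h.2.1, ?_⟩, h.2.2⟩⟩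
      obtain ⟨e1, e2, e3⟩ := class_cards ((pieceClass_iff p r).2 h.2.2)
      have em : P.mult t u r = P.mult t u p :=
        congrArg card (filter_congr fun z _ => by rw [h.2.2])
      unfold Slim
      rw [e1, e2, e3 lam, em, hmult]
      exact ⟨hs1, hs2⟩
    have hfac : log (p.1.card.factorial : ℝ) ≤ (p.1.card : ℝ) * log (sell n) := by
      have ha : (0 : ℝ) < p.1.card := Nat.cast_pos.2 (part_nonempty hp1).card_pos
      calc log (p.1.card.factorial : ℝ) ≤ log ((p.1.card : ℝ) ^ p.1.card) :=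
            log_le_log (by positivity) (by exact_mod_cast Nat.factorial_le_pow _)
        _ ≤ _ := by
            rw [log_pow]
            exact mul_le_mul_of_nonneg_left (log_le_log ha (by
              linarith [Nat.cast_nonneg (α := ℝ) p.2.card])) ha.le
    refine le_trans (le_of_eq ?_) (le_trans (b := ((P.grp t u (pieceClass p)).card : ℝ)
      * (log (p.1.card.factorial : ℝ) - pot lam p
        + (log (classWgt (P.edges t) (pieceClass p))
          + log (classWgt (P.edges u) (pieceClass p))) / 2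
        + 2 * (log (sell n + |log (classWgt (P.edges t) (pieceClass p)) - pot lam p|)
          + log (sell n + |log (classWgt (P.edges u) (pieceClass p)) - pot lam p|)))
      + ∑ r ∈ P.grp t u (pieceClass p), P.logW t u r) le_rfl ?_)
    · rw [he, ← nsmul_eq_mul, ← sum_const, ← sum_add_distrib]
      refine sum_congr rfl fun r hr => ?_
      obtain ⟨-, -, hrp⟩ := mem_filter.1 hr
      obtain ⟨e1, e2, e3⟩ := class_cards ((pieceClass_iff p r).2 hrp)
      have h4 : 4 ≤ sell n := by linarith [sell_ge (n := n)]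
      simp only [jointCost, hrp, e1, e3 lam, logW]
      linear_combination neg_log_devWgt h4 (log (classWgt (P.edges t) (pieceClass p)) - pot lam p)
        + neg_log_devWgt h4 (log (classWgt (P.edges u) (pieceClass p)) - pot lam p)
    · have := mul_le_mul_of_nonneg_left hfac
        (Nat.cast_nonneg (α := ℝ) (P.grp t u (pieceClass p)).card)
      linarith

lemma common_ends_sub (t u : Fin k → Equiv.Perm (Fin n)) :
    ends (P.common t u) ⊆ ends (P.edges t) ∩ ends (P.edges u) := fun v hv => by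
  obtain ⟨y, hy, hvy⟩ := (mem_filter.1 hv).2
  obtain ⟨h1, h2⟩ := mem_inter.1 hy
  exact mem_inter.2 ⟨mem_filter.2 ⟨mem_univ _, y, h1, hvy⟩, mem_filter.2 ⟨mem_univ _, y, h2, hvy⟩⟩

lemma logW_nonneg (t u : Fin k → Equiv.Perm (Fin n)) (r : Piece n) : 0 ≤ P.logW t u r := by
  unfold logW
  linarith [log_nonpos (wgt_pos (P.edges t) r.1).le (wgt_le_one _ _),
    log_nonpos (wgt_pos (P.edges u) r.1).le (wgt_le_one _ _)]

lemma sum_logW_le (t u : Fin k → Equiv.Perm (Fin n)) :
    ∑ r ∈ P.parts t u, P.logW t u r ≤ 2 * P.openDeg t u := by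
  have h4 : log 4 ≤ 2 := by
    rw [show (4 : ℝ) = 2 * 2 by norm_num, log_mul two_ne_zero two_ne_zero]
    linarith [log_two_lt_d9]
  have e : ∀ r, P.logW t u r
      = log 4 * ∑ v ∈ r.1, ((degIn (P.edges t) v : ℝ) + degIn (P.edges u) v) := fun r => by
    rw [sum_add_distrib, mul_add, ← neg_log_wgt, ← neg_log_wgt, logW]
    ring
  simp only [e, ← mul_sum]
  rw [← sum_biUnion parts_disjoint]
  refine mul_le_mul h4 (sum_le_sum_of_subset_of_nonneg (fun v hv => ?_) fun v _ _ => by positivity)
    (sum_nonneg fun v _ => by positivity) two_pos.le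
  obtain ⟨r, hr, hv⟩ := mem_biUnion.1 hv
  obtain ⟨h1, h2⟩ := mem_sdiff.1 (part_subset hr hv)
  refine mem_sdiff.2 ⟨P.common_ends_sub t u h1, fun hm => h2 ?_⟩
  obtain ⟨hm1, hm2⟩ := mem_inter.1 hm
  exact mem_inter.2 ⟨mem_inter.2 ⟨h1, hm1⟩, hm2⟩

lemma sum_size_le (t u : Fin k → Equiv.Perm (Fin n)) :
    ∑ r ∈ P.parts t u, ((r.1.card : ℝ) + r.2.card) ≤ 3 * (P.common t u).card := by
  rw [sum_add_distrib]
  have h1 : ∑ r ∈ P.parts t u, (r.1.card : ℝ) ≤ 2 * ((P.common t u).card : ℝ) := by
    rw [← Nat.cast_sum, ← card_biUnion parts_disjoint]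
    refine le_trans (Nat.cast_le.2 ((card_le_card ?_).trans (card_ends_le (P.common t u)))) ?_
    · exact biUnion_subset.2 fun r hr => (part_subset hr).trans sdiff_subset
    · push_cast; exact le_rfl
  have h2 : ∑ r ∈ P.parts t u, (r.2.card : ℝ) ≤ ((P.common t u).card : ℝ) := by
    rw [← Nat.cast_sum, ← card_biUnion fun r hr r' hr' hne => disjoint_left.2 fun y hy hy' =>
      hne (part_snd_unique (mem_coe.1 hr) (mem_coe.1 hr') hy hy')]
    exact Nat.cast_le.2 (card_le_card (biUnion_subset.2 fun r hr => by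
      rw [part_snd hr]; exact filter_subset _ _))
  linarith

lemma sum_classLoad_le (lam : ℝ) (t u : Fin k → Equiv.Perm (Fin n)) :
    ∑ κ ∈ (univ : Finset (Piece n)).image pieceClass, P.classLoad lam t u κ
      ≤ (∑ κ ∈ (univ : Finset (Piece n)).image pieceClass,
          matchWgt lam (P.edges t) κ * matchWgt lam (P.edges u) κ)
        + 2 * P.openDeg t u + 3 * log (sell n) * (P.common t u).card := by
  simp only [classLoad, sum_add_distrib, add_assoc]
  refine add_le_add le_rfl ?_
  have hl := one_le_log_sell (n := n)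
  have key : ∀ f : Piece n → ℝ, (∀ r, 0 ≤ f r) →
      ∑ κ ∈ (univ : Finset (Piece n)).image pieceClass, ∑ r ∈ P.grp t u κ, f r
        ≤ ∑ r ∈ P.parts t u, f r := by
    intro f hf
    rw [← sum_fiberwise_of_maps_to (g := pieceClass)
      (fun r _ => mem_image_of_mem pieceClass (mem_univ r)) f]
    refine sum_le_sum fun κ _ => sum_le_sum_of_subset_of_nonneg (fun r hr => ?_) fun r _ _ => hf r
    exact mem_filter.2 ⟨(mem_filter.1 hr).1, (mem_filter.1 hr).2.2⟩
  refine add_le_add ((key _ (P.logW_nonneg t u)).trans (P.sum_logW_le t u))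
    ((key _ fun r => by positivity).trans ?_)
  rw [← mul_sum]
  refine (mul_le_mul_of_nonneg_left (P.sum_size_le t u) (by linarith)).trans_eq ?_
  ring

lemma cost0_le_aux {H : Finset (Sym2 (Fin n))} {q lam : ℝ} (hn : 2 ≤ n) (hq : 0 < q)
    (hlamq : log (1 / q) = lam) (hlam : 0 ≤ lam)
    (hs : Sparse (Equiv.Perm (Fin n)) H q) (M : Marks H lam)
    {t u : Fin k → Equiv.Perm (Fin n)} (ht : ∀ i, t i ∈ P.goodCopies H M.rich)
    (hu : ∀ i, u i ∈ P.goodCopies H M.rich) :
    P.cost0 lam t u ≤ 10000 * log (sell n) * P.stageLoad lam M.rich t u := by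
  have hl := one_le_log_sell (n := n)
  have h4 : 4 ≤ sell n := by linarith [sell_ge (n := n)]
  obtain ⟨hloose, hjoint⟩ := P.class_bound hn hq hlamq hlam hs M ht hu
  have hFF : ∀ κ, 0 ≤ matchWgt lam (P.edges t) κ * matchWgt lam (P.edges u) κ := fun κ =>
    mul_nonneg (mul_nonneg (sqrt_nonneg _) (devWgt_pos h4 _).le)
      (mul_nonneg (sqrt_nonneg _) (devWgt_pos h4 _).le)
  have hload : ∀ κ, 0 ≤ P.classLoad lam t u κ := fun κ => by
    refine add_nonneg (hFF κ) (sum_nonneg fun r _ => ?_)
    have := P.logW_nonneg t u r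
    positivity
  have hsub : ∀ S : Finset (Piece n), S.image pieceClass ⊆ ((univ : Finset (Piece n)).image pieceClass) := fun S =>
    image_subset_image (subset_univ _)
  have hL : ∑ κ ∈ P.looseClasses lam t u, (P.looseCost lam t u t κ + P.looseCost lam t u u κ)
      ≤ 200 * ∑ κ ∈ ((univ : Finset (Piece n)).image pieceClass), P.classLoad lam t u κ := by
    rw [mul_sum]
    exact (sum_le_sum hloose).trans
      (sum_le_sum_of_subset_of_nonneg (hsub _) fun κ _ _ => mul_nonneg (by norm_num) (hload κ))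
  have hJ : ∑ p ∈ P.jointParts lam t u, P.jointCost lam t u p
      ≤ 150 * ∑ κ ∈ ((univ : Finset (Piece n)).image pieceClass), P.classLoad lam t u κ := by
    rw [← sum_fiberwise_of_maps_to (g := pieceClass)
      (fun r hr => mem_image_of_mem pieceClass hr) (P.jointCost lam t u), mul_sum]
    exact (sum_le_sum hjoint).trans
      (sum_le_sum_of_subset_of_nonneg (hsub _) fun κ _ _ => mul_nonneg (by norm_num) (hload κ))
  have hM : P.matchSum lam t u
      ≤ ∑ κ ∈ ((univ : Finset (Piece n)).image pieceClass), matchWgt lam (P.edges t) κ * matchWgt lam (P.edges u) κ :=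
    sum_le_sum_of_subset_of_nonneg (hsub _) fun κ _ _ => hFF κ
  have hS : -∑ p ∈ P.seededParts t u, log (wgt (P.edges t) p.1)
      - ∑ p ∈ P.seededParts t u, log (wgt (P.edges u) p.1) ≤ 2 * P.openDeg t u := by
    refine le_trans (le_of_eq ?_) ((sum_le_sum_of_subset_of_nonneg
      (show P.seededParts t u ⊆ P.parts t u from filter_subset _ _)
      fun r _ _ => P.logW_nonneg t u r).trans (P.sum_logW_le t u))
    rw [← sum_neg_distrib, ← sum_sub_distrib]
    rfl
  have hE : ((ends (P.common t u)).card : ℝ) ≤ 2 * (P.common t u).card := by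
    exact_mod_cast card_ends_le _
  have hmt := P.sum_markCost_le M ht hu (a := t) (b := u) (Or.inl ⟨rfl, rfl⟩)
  have hmu := P.sum_markCost_le M ht hu (a := u) (b := t) (Or.inr ⟨rfl, rfl⟩)
  have hswap : ∑ x, P.markF M.rich u x * P.markF M.rich t x
      = ∑ x, P.markF M.rich t x * P.markF M.rich u x := sum_congr rfl fun x _ => mul_comm _ _
  rw [hswap] at hmu
  have hCl := P.sum_classLoad_le lam t u
  have hnn : 0 ≤ log (n : ℝ) := log_natCast_nonneg n
  have g1 : (0 : ℝ) ≤ P.openDeg t u := sum_nonneg fun v _ => by positivity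
  have g2 : 0 ≤ ∑ x, P.markF M.rich t x * P.markF M.rich u x := sum_nonneg fun x _ =>
    mul_nonneg (mul_nonneg (sqrt_nonneg _) (devWgt_pos h4 _).le)
      (mul_nonneg (sqrt_nonneg _) (devWgt_pos h4 _).le)
  have g3 : 0 ≤ ∑ κ ∈ ((univ : Finset (Piece n)).image pieceClass), matchWgt lam (P.edges t) κ * matchWgt lam (P.edges u) κ :=
    sum_nonneg fun κ _ => hFF κ
  have m1 : ∀ x : ℝ, 0 ≤ x → x ≤ log (sell n) * x := fun x hx => le_mul_of_one_le_left hx hl
  unfold cost0 sideCost stageLoad
  rw [sum_add_distrib] at hL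
  change _ ≤ 10000 * log (sell n) * _
  simp only [mul_add]
  simp only [mul_assoc (10000 : ℝ)]
  linarith [Nat.cast_nonneg (α := ℝ) (P.metV t).card, Nat.cast_nonneg (α := ℝ) (P.metV u).card,
    Nat.cast_nonneg (α := ℝ) (P.metE t).card, Nat.cast_nonneg (α := ℝ) (P.metE u).card,
    Nat.cast_nonneg (α := ℝ) (P.common t u).card,
    show (0 : ℝ) ≤ (ends (P.edges t)).card / log (n : ℝ) ^ 3 by positivity,
    show (0 : ℝ) ≤ (ends (P.edges u)).card / log (n : ℝ) ^ 3 by positivity,
    m1 _ (Nat.cast_nonneg (α := ℝ) (P.metV t).card),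
    m1 _ (Nat.cast_nonneg (α := ℝ) (P.metV u).card),
    m1 _ (Nat.cast_nonneg (α := ℝ) (P.metE t).card),
    m1 _ (Nat.cast_nonneg (α := ℝ) (P.metE u).card),
    m1 _ (Nat.cast_nonneg (α := ℝ) (P.common t u).card),
    m1 _ (show (0 : ℝ) ≤ (ends (P.edges t)).card / log (n : ℝ) ^ 3 by positivity),
    m1 _ (show (0 : ℝ) ≤ (ends (P.edges u)).card / log (n : ℝ) ^ 3 by positivity),
    m1 _ g1, m1 _ g2, m1 _ g3]

/-- Inside a sparse graph the price of gluing is at most the load times `log log log n`. -/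
theorem cost0_le {H : Finset (Sym2 (Fin n))} {q : ℝ} (hn : 2 ≤ n) (hq : 0 < q)
    (hlam : 0 ≤ log (1 / q))
    (hs : Sparse (Equiv.Perm (Fin n)) H q) (M : Marks H (log (1 / q)))
    {t u : Fin k → Equiv.Perm (Fin n)} (ht : ∀ i, t i ∈ P.goodCopies H M.rich)
    (hu : ∀ i, u i ∈ P.goodCopies H M.rich) :
    P.cost0 (log (1 / q)) t u ≤ 10000 * log (sell n) * P.stageLoad (log (1 / q)) M.rich t u :=
  P.cost0_le_aux hn hq rfl hlam hs M ht hu

end Vale.Agent.P064.Pat
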