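import Vale.Agent.P064.Levels

/-!
# Spreadness with a single logarithm

Sparseness alone bounds the probability that a random group element maps `F` into `H` by
`(C q log |H|)^|F|`.
-/

open Finset Real
open scoped Classical

namespace Vale.Agent.P064

/-- Points with a level. -/
structure Lab (Ω : Type) (L : ℕ) where
  pt : Ω
  lev : Fin (L + 1)

variable {Γ Ω : Type} [Group Γ] [Fintype Γ] [DecidableEq Ω] [MulAction Γ Ω]

/-- The group keeps levels. -/
instance labAction {L : ℕ} : MulAction Γ (Lab Ω L) where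
  smul g x := ⟨g • x.pt, x.lev⟩
  one_smul x := by show (⟨(1 : Γ) • x.pt, x.lev⟩ : Lab Ω L) = x; rw [one_smul]
  mul_smul g h x := by
    show (⟨(g * h) • x.pt, x.lev⟩ : Lab Ω L) = ⟨g • (h • x.pt), x.lev⟩
    rw [mul_smul]

omit [Fintype Γ] [DecidableEq Ω] in
lemma lab_smul {L : ℕ} (g : Γ) (x : Lab Ω L) : g • x = ⟨g • x.pt, x.lev⟩ := rfl

/-- A sparse set stays sparse when its points get levels. -/
lemma sparse_lab {L : ℕ} {H : Finset Ω} {q : ℝ} (hs : Sparse Γ H q) (ℓ : Ω → Fin (L + 1)) :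
    Sparse Γ (H.image fun y => (⟨y, ℓ y⟩ : Lab Ω L)) q := by
  intro T hT
  have hinj : Set.InjOn Lab.pt (T : Set (Lab Ω L)) := by
    intro a ha b hb h
    obtain ⟨a', -, rfl⟩ := mem_image.1 (hT ha)
    obtain ⟨b', -, rfl⟩ := mem_image.1 (hT hb)
    have : a' = b' := h
    rw [this]
  have hsub : T.image Lab.pt ⊆ H := by
    intro y hy
    obtain ⟨a, ha, rfl⟩ := mem_image.1 hy
    obtain ⟨a', ha', rfl⟩ := mem_image.1 (hT ha)
    exact ha'
  have h := hs _ hsub
  rw [card_image_of_injOn hinj] at h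
  refine le_trans (div_le_div_of_nonneg_right (Nat.cast_le.2 (card_le_card fun g hg => ?_))
    card_pos'.le) h
  simp only [mem_filter, mem_univ, true_and] at hg ⊢
  intro y hy
  obtain ⟨z, hz, rfl⟩ := mem_image.1 hy
  obtain ⟨a, ha, rfl⟩ := mem_image.1 hz
  exact mem_image.2 ⟨g • a, hg (mem_image_of_mem _ ha), rfl⟩

/-- The counting bound for an arbitrary levelling, with `Λ` the possible level patterns of `F`. -/
theorem X_le_pattern {H F : Finset Ω} {q : ℝ} (hs : Sparse Γ H q) (hq : 0 < q) {L : ℕ}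
    (ℓ : Ω → Fin (L + 1)) (Λ : Finset ({x // x ∈ F} → Fin (L + 1)))
    (hΛ : ∀ g : Γ, img g F ⊆ H → (fun x : {x // x ∈ F} => ℓ (g • x.1)) ∈ Λ)
    (hup : ∀ y ∈ H, ((univ.filter fun g : Γ => img g F ⊆ H).filter fun g => y ∈ img g F).card
      * 2 ^ (ℓ y : ℕ) ≤ (univ.filter fun g : Γ => img g F ⊆ H).card) :
    X Γ F H ≤ Λ.card * q ^ F.card * exp (2 + 6 * ∑ y ∈ H, (2⁻¹ : ℝ) ^ (ℓ y : ℕ)) := by
  set S : Finset Γ := univ.filter fun g => img g F ⊆ H with hS
  set A : Γ × {f // f ∈ Λ} → Finset (Lab Ω L) :=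
    fun a => univ.image fun x : {x // x ∈ F} => ⟨a.1 • x.1, a.2.1 x⟩ with hA
  set lev : Lab Ω L → ℕ := fun x => (x.lev : ℕ) with hlev
  set H' : Finset (Lab Ω L) := H.image fun y => ⟨y, ℓ y⟩ with hH'
  have hfit : ∀ a, A a ⊆ H' → img a.1 F ⊆ H ∧ a.2.1 = fun x => ℓ (a.1 • x.1) := by
    intro a ha
    have : ∀ x : {x // x ∈ F}, a.1 • x.1 ∈ H ∧ a.2.1 x = ℓ (a.1 • x.1) := by
      intro x
      obtain ⟨y, hy, he⟩ := mem_image.1 (ha (mem_image_of_mem _ (mem_univ x)))
      obtain ⟨rfl, h2⟩ := Lab.mk.injEq .. ▸ he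
      exact ⟨hy, h2.symm⟩
    refine ⟨fun y hy => ?_, funext fun x => (this x).2⟩
    obtain ⟨x, hx, rfl⟩ := mem_image.1 hy
    exact (this ⟨x, hx⟩).1
  have hback : ∀ g (hg : g ∈ S), A (g, ⟨fun x => ℓ (g • x.1), hΛ g (mem_filter.1 hg).2⟩) ⊆ H' := by
    intro g hg z hz
    obtain ⟨x, -, rfl⟩ := mem_image.1 hz
    exact mem_image.2 ⟨g • x.1, (mem_filter.1 hg).2 (mem_image_of_mem _ x.2), rfl⟩
  have hgood : (good A H' 0).card = S.card := by
    refine card_bij' (fun a _ => a.1) (fun g hg => (g, ⟨fun x => ℓ (g • x.1), hΛ g (mem_filter.1 hg).2⟩)) ?_ ?_ ?_ ?_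
    · intro a ha
      exact mem_filter.2 ⟨mem_univ _, (hfit a (mem_filter.1 ha).2).1⟩
    · intro g hg
      exact mem_filter.2 ⟨mem_univ _, hback g hg⟩
    · intro a ha
      exact Prod.ext rfl (Subtype.ext (hfit a (mem_filter.1 ha).2).2.symm)
    · intro g _; rfl
  have hp : ∀ z ∈ H', cnt A H' 0 z * 2 ^ lev z ≤ (good A H' 0).card := by
    intro z hz
    obtain ⟨y, hy, rfl⟩ := mem_image.1 hz
    rw [hgood]
    refine le_trans (Nat.mul_le_mul_right _ ?_) (hup y hy)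
    refine card_le_card_of_injOn (fun a => a.1) ?_ ?_
    · intro a ha
      rw [mem_coe] at ha ⊢
      obtain ⟨ha, hy'⟩ := (Finset.mem_filter (α := Tup (Γ × {f // f ∈ Λ}) 0)).1 ha
      refine mem_filter.2 ⟨mem_filter.2 ⟨mem_univ _, (hfit a ((Finset.mem_filter (α := Tup (Γ × {f // f ∈ Λ}) 0)).1 ha).2).1⟩, ?_⟩
      obtain ⟨x, -, hx⟩ := mem_image.1 hy'
      exact mem_image.2 ⟨x.1, x.2, congrArg Lab.pt hx⟩
    · intro a ha b hb h
      rw [mem_coe] at ha hb
      have ha' := (hfit a (mem_filter.1 (mem_filter.1 ha).1).2).2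
      have hb' := (hfit b (mem_filter.1 (mem_filter.1 hb).1).2).2
      refine Prod.ext h (Subtype.ext ?_)
      rw [ha', hb', show a.1 = b.1 from h]
  have hcard : ∀ a, (A a).card = F.card := by
    intro a
    rw [hA, card_image_of_injective, card_univ, Fintype.card_coe]
    intro x x' h
    exact Subtype.ext (MulAction.injective a.1 (congrArg Lab.pt h))
  have hmv : ∀ (d : Γ) (a : Γ × {f // f ∈ Λ}),
      A (((Equiv.mulLeft d).prodCongr (Equiv.refl _)) a) = img d (A a) := by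
    intro d a
    simp [hA, img, image_image, Function.comp_def, lab_smul, mul_smul]
  have hkey := good_le A lev H' hq (sparse_lab hs ℓ) (fun g x => rfl)
    (fun d => (Equiv.mulLeft d).prodCongr (Equiv.refl _)) hmv hcard hp
  have hmass : massB lev H' = ∑ y ∈ H, (2⁻¹ : ℝ) ^ (ℓ y : ℕ) := by
    rw [massB, hH', sum_image fun a _ b _ h => congrArg Lab.pt h]
  rw [hgood, hmass] at hkey
  show (S.card : ℝ) / Fintype.card Γ ≤ _
  rw [div_le_iff₀ card_pos']
  refine hkey.trans (le_of_eq ?_)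
  rw [Fintype.card_prod, Fintype.card_coe]
  push_cast
  ring

/-- Spreadness with one logarithm. -/
theorem X_le_log {H F : Finset Ω} {q : ℝ} (hs : Sparse Γ H q) (hq : 0 < q) (hF : 1 ≤ F.card) :
    X Γ F H ≤ (exp 20 * ((Nat.log 2 H.card : ℝ) + 2) * q) ^ F.card := by
  rcases eq_or_lt_of_le (X_nonneg (Γ := Γ) F H) with h0 | h0
  · rw [← h0]; positivity
  set S : Finset Γ := univ.filter fun g => img g F ⊆ H with hS
  set c : Ω → ℕ := fun y => (S.filter fun g => y ∈ img g F).card with hc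
  set L : ℕ := Nat.log 2 H.card + 1 with hL
  have hN : 0 < S.card := by
    obtain ⟨g, hg⟩ := exists_of_X_pos h0
    exact card_pos.2 ⟨g, by simp [hS, hg]⟩
  have hex : ∀ y, ∃ a, a = L ∨ S.card < c y * 2 ^ (a + 1) := fun y => ⟨L, Or.inl rfl⟩
  have hle : ∀ y, Nat.find (hex y) < L + 1 := fun y =>
    Nat.lt_succ_of_le (Nat.find_le (Or.inl rfl))
  set ℓ : Ω → Fin (L + 1) := fun y => ⟨Nat.find (hex y), hle y⟩ with hℓ
  have hup : ∀ y, c y * 2 ^ (ℓ y : ℕ) ≤ S.card := by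
    intro y
    show c y * 2 ^ Nat.find (hex y) ≤ S.card
    rcases Nat.eq_zero_or_pos (Nat.find (hex y)) with h | h
    · rw [h, pow_zero, mul_one]
      exact card_filter_le _ _
    · have := Nat.find_min (hex y) (Nat.sub_lt h Nat.one_pos)
      rw [not_or, not_lt, Nat.sub_add_cancel h] at this
      exact this.2
  have hlow : ∀ y, (2⁻¹ : ℝ) ^ (ℓ y : ℕ) ≤ 2 * c y / S.card + 2⁻¹ ^ L := by
    intro y
    show (2⁻¹ : ℝ) ^ Nat.find (hex y) ≤ _
    have hS0 : (0 : ℝ) < S.card := Nat.cast_pos.2 hN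
    rcases Nat.find_spec (hex y) with h | h
    · rw [h]
      exact le_add_of_nonneg_left (by positivity)
    · refine le_add_of_le_of_nonneg ?_ (by positivity)
      rw [inv_pow, inv_le_iff_one_le_mul₀ (by positivity), div_mul_eq_mul_div,
        le_div_iff₀ hS0, one_mul]
      have h' : (S.card : ℝ) ≤ c y * 2 ^ (Nat.find (hex y) + 1) := by exact_mod_cast h.le
      refine le_of_le_of_eq h' ?_
      rw [pow_succ]; ring
  have hcpos : (1 : ℝ) ≤ F.card := Nat.one_le_cast.2 hF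
  have hmass : ∑ y ∈ H, (2⁻¹ : ℝ) ^ (ℓ y : ℕ) ≤ 3 * F.card := by
    refine le_trans (sum_le_sum fun y _ => hlow y) ?_
    have hsum : ∑ y ∈ H, c y ≤ S.card * F.card := by
      simp only [hc, card_filter]
      rw [sum_comm, ← smul_eq_mul, ← sum_const]
      refine sum_le_sum fun g hg => ?_
      rw [← card_filter]
      exact le_trans (card_le_card fun y hy => (mem_filter.1 hy).2) (card_img g F).le
    have h2 : (H.card : ℝ) * 2⁻¹ ^ L ≤ 1 := by
      rw [inv_pow, ← div_eq_mul_inv, div_le_one (by positivity)]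
      exact_mod_cast (Nat.lt_pow_succ_log_self (by norm_num) H.card).le
    have h3 : ∑ y ∈ H, 2 * (c y : ℝ) / S.card ≤ 2 * F.card := by
      rw [← sum_div, ← mul_sum, div_le_iff₀ (Nat.cast_pos.2 hN)]
      have : ((∑ y ∈ H, c y : ℕ) : ℝ) ≤ ((S.card * F.card : ℕ) : ℝ) := Nat.cast_le.2 hsum
      push_cast at this
      linarith
    rw [sum_add_distrib, sum_const, nsmul_eq_mul]
    linarith
  refine le_trans (X_le_pattern hs hq ℓ univ (fun g _ => mem_univ _) (fun y _ => hup y)) ?_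
  have hexp : exp (2 + 6 * ∑ y ∈ H, (2⁻¹ : ℝ) ^ (ℓ y : ℕ)) ≤ exp 20 ^ F.card := by
    rw [← exp_nat_mul, exp_le_exp]
    linarith
  have hcard : ((univ : Finset ({x // x ∈ F} → Fin (L + 1))).card : ℝ)
      = ((Nat.log 2 H.card : ℝ) + 2) ^ F.card := by
    simp only [card_univ, Fintype.card_fun, Fintype.card_coe, Fintype.card_fin, hL]
    push_cast
    ring
  rw [hcard, mul_pow, mul_pow]
  calc _ ≤ ((Nat.log 2 H.card : ℝ) + 2) ^ F.card * q ^ F.card
          * exp 20 ^ F.card := mul_le_mul_of_nonneg_left hexp (by positivity)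
    _ = _ := by ring

end Vale.Agent.P064
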