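import Vale.Agent.P064.Translate
import Vale.Agent.P064.Labels

/-!
# The threshold bound
-/

open Finset MeasureTheory Real
open scoped Classical

namespace Vale.Agent.P064

variable {n k : ℕ}

lemma prob_eq (p : unitInterval) (S : Set (SimpleGraph (Fin n))) :
    (SimpleGraph.binomialRandom (Fin n) p).real S =
      Ex (p : ℝ) (allEdges n)
        (fun W => if SimpleGraph.fromEdgeSet (W : Set (Sym2 (Fin n))) ∈ S then 1 else 0) := by
  have : MeasurableSingletonClass (SimpleGraph (Fin n)) := ⟨fun G => by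
    have h := SimpleGraph.measurable_edgeSet (measurableSet_singleton G.edgeSet)
    convert h using 1
    ext K; simp⟩
  rw [← integral_binomialRandom, ← integral_indicator_one (Set.toFinite S).measurableSet]
  congr 1
  funext G
  simp [Set.indicator_apply]

/-- The parameter of the loss, in terms of the number `E` of edges. -/
noncomputable def loss (E : ℕ) : ℝ := 3000000000 * log ((E : ℝ) + 1)

lemma log_E_ge {E : ℕ} (hE : 1 ≤ E) : 0.69 ≤ log ((E : ℝ) + 1) := by
  have h : log 2 ≤ log ((E : ℝ) + 1) := log_le_log (by norm_num) (by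
    have : (1 : ℝ) ≤ E := by exact_mod_cast hE
    linarith)
  linarith [log_two_gt_d9]

lemma loss_pos {E : ℕ} (hE : 1 ≤ E) : 0 < loss E := by
  unfold loss
  have := log_E_ge hE
  positivity

lemma natLog_mul_le {E : ℕ} (hE : 1 ≤ E) :
    (Nat.log 2 E : ℝ) * log 2 ≤ log ((E : ℝ) + 1) := by
  have h1 : ((2 ^ Nat.log 2 E : ℕ) : ℝ) ≤ (E : ℝ) :=
    Nat.cast_le.2 (Nat.pow_log_le_self 2 (by omega))
  have h2 : log ((2 ^ Nat.log 2 E : ℕ) : ℝ) ≤ log ((E : ℝ) + 1) :=
    log_le_log (by positivity) (by linarith)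
  push_cast at h2
  rwa [log_pow] at h2

lemma natLog_le {E : ℕ} (hE : 1 ≤ E) :
    (Nat.log 2 (2 * E) : ℝ) ≤ 3 * log ((E : ℝ) + 1) ∧
      (Nat.log 2 E : ℝ) + 2 ≤ 6 * log ((E : ℝ) + 1) := by
  have hL := log_E_ge hE
  have h := natLog_mul_le hE
  have h' : Nat.log 2 (2 * E) = Nat.log 2 E + 1 := by
    rw [mul_comm, Nat.log_mul_base (by norm_num) (by omega)]
  have h0 : (0:ℝ) ≤ Nat.log 2 E := Nat.cast_nonneg _
  rw [h']
  push_cast
  constructor <;> nlinarith [log_two_gt_d9]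

lemma one_le_edges (hk : k ≤ n) {H : SimpleGraph (Fin k)} (hH : H ≠ ⊥) :
    1 ≤ (edgesIn hk H).card := by
  rw [card_edgesIn]
  exact card_pos.2 (SimpleGraph.edgeFinset_nonempty.2 hH)

/-- An admissible density controls the probabilities of all edge sets. -/
theorem spread_edges (hk : k ≤ n) (H : SimpleGraph (Fin k))
    (hE : 1 ≤ (edgesIn hk H).card) {q : ℝ} (hq : 0 < q)
    (hs : Sparse (Equiv.Perm (Fin n)) (edgesIn hk H) q) (T : Finset (Sym2 (Fin n))) :
    X (Equiv.Perm (Fin n)) T (edgesIn hk H)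
      ≤ (loss (edgesIn hk H).card * q) ^ T.card := by
  set L := log (((edgesIn hk H).card : ℝ) + 1) with hLdef
  have hL : 0.69 ≤ L := log_E_ge hE
  have hR : 0 ≤ loss (edgesIn hk H).card * q := mul_nonneg (loss_pos hE).le hq.le
  rcases T.eq_empty_or_nonempty with h0 | h0
  · subst h0; simp [X_empty]
  rcases eq_or_lt_of_le (X_nonneg (Γ := Equiv.Perm (Fin n)) T (edgesIn hk H)) with hX | hX
  · rw [← hX]; positivity
  have he : 1 ≤ T.card := card_pos.2 h0
  refine le_trans (X_le_log hs hq he) (pow_le_pow_left₀ (by positivity) ?_ _)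
  have h1 : (Nat.log 2 (edgesIn hk H).card : ℝ) + 2 ≤ 6 * L := (natLog_le hE).2
  have h2 : exp (20 : ℝ) ≤ 500000000 := by
    calc exp (20 : ℝ) = exp 1 ^ 20 := by rw [← exp_nat_mul]; norm_num
      _ ≤ (2.7182818286 : ℝ) ^ 20 :=
        pow_le_pow_left₀ (exp_pos 1).le (exp_one_lt_d9).le 20
      _ ≤ 500000000 := by norm_num
  calc exp 20 * ((Nat.log 2 (edgesIn hk H).card : ℝ) + 2) * q
      ≤ 500000000 * (6 * L) * q := by gcongr
    _ = loss (edgesIn hk H).card * q := by rw [loss, hLdef]; ring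

lemma mean_one_pos (hk : k ≤ n) {H : SimpleGraph (Fin k)} (F : H.Subgraph) :
    (1 : ℝ) ≤ ∫ G, (G.copyCount F.coe : ℝ) ∂SimpleGraph.binomialRandom (Fin n) 1 := by
  rw [mean_copies hk]
  have : 1 ≤ (orbit2 (sets (pushed hk F))).card :=
    card_pos.2 ⟨_, mem_image_of_mem _ (mem_univ 1)⟩
  simpa using (show (1:ℝ) ≤ ((orbit2 (sets (pushed hk F))).card : ℝ) by exact_mod_cast this)

/-- The admissible densities. -/
lemma admissible_pos (hk : k ≤ n) {H : SimpleGraph (Fin k)} (hH : H ≠ ⊥) {p : ℝ}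
    (hp : p ∈ Set.Icc (0 : ℝ) 1)
    (hs : Sparse (Equiv.Perm (Fin n)) (edgesIn hk H) p) : 0 < p := by
  rcases eq_or_lt_of_le hp.1 with h0 | h0
  · exfalso
    have hE : 0 < (edgesIn hk H).card := by
      rw [card_edgesIn]
      exact card_pos.2 (SimpleGraph.edgeFinset_nonempty.2 hH)
    have h := hs _ (subset_refl (edgesIn hk H))
    rw [← h0, zero_pow hE.ne', mul_zero] at h
    have : 0 < X (Equiv.Perm (Fin n)) (edgesIn hk H) (edgesIn hk H) := by
      rw [X]
      refine div_pos (Nat.cast_pos.2 (card_pos.2 ⟨1, ?_⟩)) card_pos'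
      simp [img_one]
    linarith
  · exact h0

theorem frac_le_of_spread (hk : k ≤ n) (H : SimpleGraph (Fin k)) {R : ℝ} (hR : 0 ≤ R)
    (hspread' : ∀ T : Finset (Sym2 (Fin n)),
      X (Equiv.Perm (Fin n)) T (edgesIn hk H) ≤ R ^ T.card) : pEFrac n H ≤ R := by
  have hb : BddBelow {p : ℝ | ∃ h : p ∈ Set.Icc (0 : ℝ) 1, ∀ F : H.Subgraph,
      (H.copyCount F.coe : ℝ) / 2 ≤
        ∫ G, (G.copyCount F.coe : ℝ) ∂SimpleGraph.binomialRandom (Fin n) ⟨p, h⟩} :=
    ⟨0, fun p hp => hp.1.1⟩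
  obtain ⟨p, hp, hple, hX⟩ : ∃ p : ℝ, ∃ _ : p ∈ Set.Icc (0 : ℝ) 1, p ≤ R ∧
      ∀ T : Finset (Sym2 (Fin n)), X (Equiv.Perm (Fin n)) T (edgesIn hk H) ≤ p ^ T.card := by
    by_cases h1 : R ≤ 1
    · exact ⟨_, ⟨hR, h1⟩, le_rfl, hspread'⟩
    · exact ⟨1, ⟨zero_le_one, le_rfl⟩, le_of_not_ge h1, fun T => by simpa using X_le_one T _⟩
  refine le_trans (csInf_le hb ⟨hp, fun F => ?_⟩) hple
  have h := frac_of_bound hk H ⟨p, hp⟩ hX F
  have : (0 : ℝ) ≤ H.copyCount F.coe := Nat.cast_nonneg _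
  linarith

theorem pc_le_of_spread (hk : k ≤ n) (H : SimpleGraph (Fin k))
    (hE : 1 ≤ (edgesIn hk H).card) {R : ℝ} (hR : 0 < R)
    (hspread' : ∀ T : Finset (Sym2 (Fin n)),
      X (Equiv.Perm (Fin n)) T (edgesIn hk H) ≤ R ^ T.card) :
    pc n H ≤ 768 * log (((edgesIn hk H).card : ℝ) + 1) * R := by
  have hb : BddBelow {p : ℝ | ∃ h : p ∈ Set.Icc (0 : ℝ) 1,
      1 / 2 ≤ (SimpleGraph.binomialRandom (Fin n) ⟨p, h⟩).real {G | 0 < G.copyCount H}} :=
    ⟨0, fun p hp => hp.1.1⟩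
  have hL := log_E_ge hE
  set A : Equiv.Perm (Fin n) → Finset (Sym2 (Fin n)) := fun s => img s (edgesIn hk H) with hA
  have hcopy : ∀ W : Finset (Sym2 (Fin n)), (∃ s ∈ univ, A s ⊆ W) →
      0 < (SimpleGraph.fromEdgeSet (W : Set (Sym2 (Fin n)))).copyCount H := by
    rintro W ⟨s, -, hsW⟩
    rw [SimpleGraph.copyCount_pos]
    refine ⟨⟨⟨fun a => s (Fin.castLE hk a), fun {a b} h => ?_⟩, ?_⟩⟩
    · rw [SimpleGraph.fromEdgeSet_adj]
      refine ⟨hsW ?_, fun e => h.ne (Fin.castLE_injective hk (s.injective e))⟩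
      exact mem_image.2 ⟨s(Fin.castLE hk a, Fin.castLE hk b),
        mem_image.2 ⟨s(a, b), SimpleGraph.mem_edgeFinset.2 h, rfl⟩, rfl⟩
    · exact s.injective.comp (Fin.castLE_injective hk)
  by_cases hP : 256 * R ≤ 1
  · have hN : (0 : ℝ) < Fintype.card (Equiv.Perm (Fin n)) := card_pos'
    have hspread : ∀ T : Finset (Sym2 (Fin n)), T.Nonempty →
        (((univ : Finset (Equiv.Perm (Fin n))).filter fun s => T ⊆ A s).card : ℝ)
          ≤ 2 * R ^ T.card * Fintype.card (Equiv.Perm (Fin n)) := by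
      intro T _
      have e : ((univ : Finset (Equiv.Perm (Fin n))).filter fun s => T ⊆ A s).card
          = (univ.filter fun s : Equiv.Perm (Fin n) => img s T ⊆ edgesIn hk H).card := by
        refine card_bij' (fun s _ => s⁻¹) (fun s _ => s⁻¹) ?_ ?_ ?_ ?_
        · intro s h
          simp only [mem_filter, mem_univ, true_and, hA] at h ⊢
          exact (img_inv_subset s).2 h
        · intro s h
          simp only [mem_filter, mem_univ, true_and, hA] at h ⊢
          rw [← img_inv_subset, inv_inv]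
          exact h
        · simp
        · simp
      have h := hspread' T
      rw [X, div_le_iff₀ hN] at h
      rw [e]
      have : 0 ≤ R ^ T.card * (Fintype.card (Equiv.Perm (Fin n)) : ℝ) := by positivity
      linarith
    obtain ⟨p, hp0, hp1, hple, hpr⟩ := hit_prob (U := allEdges n) hN hR.le (P := 256 * R)
      (by positivity) le_rfl hP (edgesIn hk H).card univ A (by simp)
      (fun s _ => ⟨img_subset_allEdges (edgesIn_subset hk H) s, (card_img _ _).le⟩) hspread
    refine le_trans (csInf_le hb ⟨⟨hp0, hp1⟩, ?_⟩) ?_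
    · rw [prob_eq]
      have hbeta := beta_le (edgesIn hk H).card
      rw [card_univ, div_self hN.ne'] at hpr
      refine le_trans (by linarith : (1:ℝ) / 2 ≤ Ex p (allEdges n) (hit univ A)) ?_
      refine Ex_mono hp0 hp1 fun W _ => ?_
      unfold hit
      split_ifs with h1 h2 <;> try norm_num
      exact absurd (hcopy W h1) h2
    · have hlog := (natLog_le hE).1
      calc p ≤ (Nat.log 2 (2 * (edgesIn hk H).card) : ℝ) * (256 * R) := hple
        _ ≤ 3 * log (((edgesIn hk H).card : ℝ) + 1) * (256 * R) := by gcongr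
        _ = _ := by ring
  · refine le_trans (csInf_le hb ⟨⟨zero_le_one, le_rfl⟩, ?_⟩) ?_
    · have h := hcopy (allEdges n) ⟨1, mem_univ _, by
        simp [hA, img_one, edgesIn_subset hk H]⟩
      rw [show (⟨1, _⟩ : unitInterval) = 1 from rfl, SimpleGraph.binomialRandom_one,
        measureReal_def, Measure.dirac_apply_of_mem]
      · norm_num
      · show 0 < (⊤ : SimpleGraph (Fin n)).copyCount H
        convert h using 2
        ext a b
        simp [SimpleGraph.fromEdgeSet_adj, mem_allEdges]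
    · have : 0 < 3 * log (((edgesIn hk H).card : ℝ) + 1) - 1 := by linarith
      nlinarith

/-- Thresholds for containing a graph, in terms of the expectation threshold. -/
theorem threshold_bound : ∃ C : ℝ, 0 < C ∧ ∀ n k : ℕ, 2 ≤ n → k ≤ n →
    ∀ H : SimpleGraph (Fin k), H ≠ ⊥ →
      pc n H ≤ C * pE n H * log ((H.edgeSet.ncard : ℝ) + 1) ^ 2 ∧
        pEFrac n H ≤ C * pE n H * log ((H.edgeSet.ncard : ℝ) + 1) := by
  refine ⟨10000000000000, by norm_num, fun n k _hn hk H hH => ?_⟩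
  have hE := one_le_edges hk hH
  have hcard : H.edgeSet.ncard = (edgesIn hk H).card := by
    rw [card_edgesIn, ← SimpleGraph.coe_edgeFinset, Set.ncard_coe_finset]
  rw [hcard]
  set S : Set ℝ := {p : ℝ | ∃ h : p ∈ Set.Icc (0 : ℝ) 1, ∀ F : H.Subgraph,
    1 / 2 ≤ ∫ G, (G.copyCount F.coe : ℝ) ∂SimpleGraph.binomialRandom (Fin n) ⟨p, h⟩} with hS
  have hpE : pE n H = sInf S := rfl
  have hne : S.Nonempty := ⟨1, ⟨zero_le_one, le_rfl⟩, fun F => by
    have := mean_one_pos hk F
    rw [show (⟨1, _⟩ : unitInterval) = 1 from rfl]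
    linarith⟩
  have key : ∀ p ∈ S, pEFrac n H ≤ loss (edgesIn hk H).card * p ∧ pc n H ≤ 768 * log (((edgesIn hk H).card : ℝ) + 1) * (loss (edgesIn hk H).card * p) := by
    rintro p ⟨hp, hpF⟩
    have hs := sparse_of_mean hk H ⟨p, hp⟩ hpF
    have hq := admissible_pos hk hH hp hs
    exact ⟨frac_le_of_spread hk H (mul_nonneg (loss_pos hE).le hq.le) (spread_edges hk H hE hq hs),
      pc_le_of_spread hk H hE (mul_pos (loss_pos hE) hq) (spread_edges hk H hE hq hs)⟩
  have hL := log_E_ge hE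
  have hl := loss_pos hE
  have h1 : pEFrac n H / loss (edgesIn hk H).card ≤ pE n H := le_csInf hne fun p hp => by
    rw [div_le_iff₀ hl, mul_comm]; exact (key p hp).1
  have h2 : pc n H / (768 * log (((edgesIn hk H).card : ℝ) + 1) * loss (edgesIn hk H).card) ≤ pE n H := le_csInf hne fun p hp => by
    rw [div_le_iff₀ (by positivity), mul_comm, mul_assoc]; exact (key p hp).2
  rw [div_le_iff₀ hl] at h1
  rw [div_le_iff₀ (by positivity)] at h2
  have hE0 : 0 ≤ pE n H := le_csInf hne fun p hp => hp.1.1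
  constructor
  · have h0 : 0 ≤ pE n H * log (((edgesIn hk H).card : ℝ) + 1) ^ 2 := by positivity
    have e : pE n H * (768 * log (((edgesIn hk H).card : ℝ) + 1) * loss (edgesIn hk H).card)
        = 2304000000000 * (pE n H * log (((edgesIn hk H).card : ℝ) + 1) ^ 2) := by rw [loss]; ring
    linarith
  · have h0 : 0 ≤ pE n H * log (((edgesIn hk H).card : ℝ) + 1) := by positivity
    have e : pE n H * loss (edgesIn hk H).card = 3000000000 * (pE n H * log (((edgesIn hk H).card : ℝ) + 1)) := by rw [loss]; ring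
    linarith

/-- The bounds by the number of edges, with their consequences in terms of `n`. -/
theorem threshold_edges : ∃ C : ℝ, 0 < C ∧ ∀ n k : ℕ, 2 ≤ n → k ≤ n →
    ∀ H : SimpleGraph (Fin k), H ≠ ⊥ →
      pc n H ≤ C * pE n H * log ((H.edgeSet.ncard : ℝ) + 1) ^ 2 ∧
      pEFrac n H ≤ C * pE n H * log ((H.edgeSet.ncard : ℝ) + 1) ∧
      pc n H ≤ C * pE n H * log (n : ℝ) ^ 2 ∧
      pEFrac n H ≤ C * pE n H * log (n : ℝ) ∧
      (log ((H.edgeSet.ncard : ℝ) + 1) ^ 2 ≤ log (n : ℝ) →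
        pc n H ≤ C * pE n H * log (n : ℝ)) := by
  obtain ⟨C, hC, h⟩ := threshold_bound
  refine ⟨4 * C, by linarith, fun n k hn hk H hH => ?_⟩
  obtain ⟨h1, h2⟩ := h n k hn hk H hH
  have hE0 : 0 ≤ pE n H := Real.sInf_nonneg fun p hp => hp.1.1
  have hcard : H.edgeSet.ncard + 1 ≤ n ^ 2 := by
    rw [← SimpleGraph.coe_edgeFinset, Set.ncard_coe_finset, ← card_edgesIn hk H]
    have := card_le_card (edgesIn_subset hk H)
    rw [card_allEdges] at this
    have := Nat.choose_two_right n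
    have : n * (n - 1) + n = n * n := by
      cases n with
      | zero => omega
      | succ m => simp [Nat.mul_succ]
    rw [sq]
    omega
  have hl : log ((H.edgeSet.ncard : ℝ) + 1) ≤ 2 * log (n : ℝ) := by
    calc log ((H.edgeSet.ncard : ℝ) + 1) ≤ log ((n : ℝ) ^ 2) :=
          log_le_log (by positivity) (by exact_mod_cast hcard)
      _ = 2 * log (n : ℝ) := by rw [log_pow]; norm_num
  have hl0 : 0 ≤ log ((H.edgeSet.ncard : ℝ) + 1) :=
    log_nonneg (le_add_of_nonneg_left (Nat.cast_nonneg _))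
  have hlsq : log ((H.edgeSet.ncard : ℝ) + 1) ^ 2 ≤ 4 * log (n : ℝ) ^ 2 := by nlinarith
  have hCp : 0 ≤ C * pE n H := mul_nonneg hC.le hE0
  refine ⟨?_, ?_, ?_, ?_, fun hs => ?_⟩
  · nlinarith [mul_nonneg hCp (sq_nonneg (log ((H.edgeSet.ncard : ℝ) + 1)))]
  · nlinarith [mul_nonneg hCp hl0]
  · nlinarith [mul_le_mul_of_nonneg_left hlsq hCp]
  · nlinarith [mul_le_mul_of_nonneg_left hl hCp, mul_nonneg hCp hl0]
  · nlinarith [mul_le_mul_of_nonneg_left hs hCp,
      mul_nonneg hCp (sq_nonneg (log ((H.edgeSet.ncard : ℝ) + 1)))]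

end Vale.Agent.P064
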