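import Vale.Agent.P064.Dense
import Vale.Agent.P064.Main

/-!
# Thresholds when the expectation threshold is large
-/

open Finset MeasureTheory Real
open scoped Classical

namespace Vale.Agent.P064

variable {n k : ℕ}

/-- The exponent in the loss. -/
noncomputable def expo (n : ℕ) (q : ℝ) : ℝ :=
  8 * log (1 / q) * log (log (n : ℝ) + 3) / log (n : ℝ)

/-- The constant in the loss. -/
noncomputable def cst : ℝ := 6000000000 + (30 * exp 1) ^ 2 * exp 170

lemma cst_ge : 6000000000 ≤ cst := le_add_of_nonneg_right (by positivity)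

lemma cst_pos : 0 < cst := lt_of_lt_of_le (by norm_num) cst_ge

lemma log_n_pos (hn : 2 ≤ n) : 0 < log (n : ℝ) := log_pos (by exact_mod_cast hn)

lemma ll_pos (n : ℕ) : 0 < log (log (n : ℝ) + 3) :=
  log_pos (by linarith [log_natCast_nonneg n])

lemma log_edges_le (hn : 2 ≤ n) (hk : k ≤ n) (H : SimpleGraph (Fin k)) :
    log (((edgesIn hk H).card : ℝ) + 1) ≤ 2 * log (n : ℝ) := by
  have hcard : (edgesIn hk H).card + 1 ≤ n ^ 2 := by
    have := card_le_card (edgesIn_subset hk H)
    rw [card_allEdges] at this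
    have := Nat.choose_two_right n
    have : n * (n - 1) + n = n * n := by
      cases n with
      | zero => omega
      | succ m => simp [Nat.mul_succ]
    rw [sq]
    omega
  calc log (((edgesIn hk H).card : ℝ) + 1) ≤ log ((n : ℝ) ^ 2) :=
        log_le_log (by positivity) (by exact_mod_cast hcard)
    _ = 2 * log (n : ℝ) := by rw [log_pow]; norm_num

/-- Spreadness for all admissible densities, good for large ones. -/
theorem spread_all (hn : 2 ≤ n) (hk : k ≤ n) (H : SimpleGraph (Fin k))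
    (hE : 1 ≤ (edgesIn hk H).card) {q : ℝ} (hq : 0 < q) (hq1 : q ≤ 1)
    (hs : Sparse (Equiv.Perm (Fin n)) (edgesIn hk H) q) (T : Finset (Sym2 (Fin n))) :
    X (Equiv.Perm (Fin n)) T (edgesIn hk H) ≤ (cst * exp (expo n q) * q) ^ T.card := by
  set L := log (n : ℝ) with hL
  set LL := log (L + 3) with hLL
  set lam := log (1 / q) with hlamdef
  have hL0 : 0 < L := log_n_pos hn
  have hLL0 : 0 < LL := ll_pos n
  have hlam0 : 0 ≤ lam := log_nonneg (by rw [le_div_iff₀ hq]; linarith)
  have hexp : expo n q = 8 * lam * LL / L := rfl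
  have hx0 : 0 ≤ expo n q := by rw [hexp]; positivity
  have hc := cst_ge
  by_cases hsm : lam < 1
  · refine le_trans (X_le_one T _) (one_le_pow₀ ?_)
    have h1 : exp (-1) < q := by
      rw [← exp_log hq, exp_lt_exp]
      rw [hlamdef, one_div, log_inv] at hsm
      linarith
    have h3 : 3 * exp (-1) ≥ 1 := by
      rw [exp_neg, ge_iff_le, le_mul_inv_iff₀ (exp_pos 1)]
      linarith [exp_one_lt_d9]
    calc (1 : ℝ) ≤ 3 * 1 * q := by linarith
      _ ≤ cst * exp (expo n q) * q := by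
        refine mul_le_mul_of_nonneg_right ?_ hq.le
        exact mul_le_mul (by linarith) (one_le_exp hx0) zero_le_one cst_pos.le
  rw [not_lt] at hsm
  by_cases hbig : L < 2 * lam
  · refine le_trans (spread_edges hk H hE hq hs T)
      (pow_le_pow_left₀ (mul_nonneg (loss_pos hE).le hq.le) ?_ _)
    refine mul_le_mul_of_nonneg_right ?_ hq.le
    have h1 : log (((edgesIn hk H).card : ℝ) + 1) ≤ 2 * L := log_edges_le hn hk H
    have h2 : L ≤ exp (expo n q) := by
      refine le_trans (le_of_le_of_eq (by linarith : L ≤ L + 3) (exp_log (by linarith)).symm) ?_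
      rw [← hLL, exp_le_exp, hexp, le_div_iff₀ hL0]
      calc LL * L ≤ LL * (8 * lam) := mul_le_mul_of_nonneg_left (by linarith) hLL0.le
        _ = _ := by ring
    calc loss (edgesIn hk H).card ≤ 6000000000 * L := by rw [loss]; linarith
      _ ≤ cst * exp (expo n q) := mul_le_mul hc h2 hL0.le cst_pos.le
  rw [not_lt] at hbig
  set r := ⌊L / (2 * lam)⌋₊ with hr
  have hr1 : L / (2 * lam) < (r : ℝ) + 1 := Nat.lt_floor_add_one _
  have hr2 : (r : ℝ) ≤ L / (2 * lam) := Nat.floor_le (by positivity)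
  have h2lam : 0 < 2 * lam := by linarith
  rw [div_lt_iff₀ h2lam] at hr1
  rw [le_div_iff₀ h2lam] at hr2
  have hlr : L ≤ 2 * ((r : ℝ) + 1) * lam := by linarith
  have hsmall : ∀ i ≤ r, exp 2 * ((n : ℝ) * q ^ i) + i * log (n : ℝ) + 1
      ≤ 30 * ((n : ℝ) * q ^ i) := by
    intro i hi
    have hiR : (i : ℝ) ≤ r := Nat.cast_le.2 hi
    have h1 : exp (L / 2) ≤ (n : ℝ) * q ^ i := by
      have e : (n : ℝ) * q ^ i = exp (L - i * lam) := by
        rw [sub_eq_add_neg, exp_add, hL, exp_log (by exact_mod_cast (by omega : 0 < n)), hlamdef,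
          one_div, log_inv, mul_neg, neg_neg, exp_nat_mul, exp_log hq]
      rw [e, exp_le_exp]
      have : (i : ℝ) * lam ≤ r * lam := mul_le_mul_of_nonneg_right hiR hlam0
      linarith
    have h2 : (i : ℝ) * L ≤ L * L / 2 := by
      have h3 : (r : ℝ) * (2 * 1) ≤ r * (2 * lam) :=
        mul_le_mul_of_nonneg_left (by linarith) (Nat.cast_nonneg _)
      have h4 : (i : ℝ) * L ≤ L / 2 * L := mul_le_mul_of_nonneg_right (by linarith) hL0.le
      linarith
    have h3 : (L / 2) ^ 2 / 2 ≤ exp (L / 2) := by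
      have := Real.pow_div_factorial_le_exp (L / 2) (by linarith) 2
      simpa using this
    have h4 : 1 ≤ exp (L / 2) := one_le_exp (by linarith)
    have h5 : exp 2 ≤ 8 := by
      rw [show exp (2 : ℝ) = exp 1 * exp 1 by rw [← exp_add]; norm_num]
      calc exp 1 * exp 1 ≤ 2.72 * 2.72 := by
            gcongr <;> linarith [exp_one_lt_d9]
        _ ≤ 8 := by norm_num
    have h6 : exp 2 * ((n : ℝ) * q ^ i) ≤ 8 * ((n : ℝ) * q ^ i) :=
      mul_le_mul_of_nonneg_right h5 (by positivity)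
    linarith
  refine le_trans (spread_dense hq hsm hs (edgesIn_subset hk H) hlr hsmall T)
    (pow_le_pow_left₀ (mul_nonneg (mul_nonneg (sq_nonneg _)
      (zero_le_one.trans (one_le_denseFactor n r))) hq.le) ?_ _)
  refine mul_le_mul_of_nonneg_right ?_ hq.le
  set K : ℝ := (Nat.log 2 n : ℝ) + 2 with hK
  have hK0 : 0 < K := by positivity
  have hKlog : log K ≤ 2 * LL := by
    have h1 : (Nat.log 2 n : ℝ) * log 2 ≤ L := by
      have h1 : ((2 ^ Nat.log 2 n : ℕ) : ℝ) ≤ (n : ℝ) :=
        Nat.cast_le.2 (Nat.pow_log_le_self 2 (by omega))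
      have h2 := log_le_log (by positivity) h1
      push_cast at h2
      rwa [log_pow] at h2
    have h0 : (0 : ℝ) ≤ Nat.log 2 n := Nat.cast_nonneg _
    have h2 : K ≤ (L + 3) ^ 2 := by
      have : 0.69 * (Nat.log 2 n : ℝ) ≤ L := by
        refine le_trans ?_ h1
        rw [mul_comm]
        exact mul_le_mul_of_nonneg_left (by linarith [log_two_gt_d9]) h0
      rw [hK, sq]
      nlinarith
    calc log K ≤ log ((L + 3) ^ 2) := log_le_log hK0 h2
      _ = 2 * LL := by rw [log_pow, hLL]; norm_num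
  have hlogK : 0 ≤ log K := log_nonneg (by
    have : (0 : ℝ) ≤ Nat.log 2 n := Nat.cast_nonneg _
    rw [hK]; linarith)
  have hfac : 2 * log K / ((r : ℝ) + 1) ≤ expo n q := by
    rw [hexp, div_le_div_iff₀ (by positivity) hL0]
    calc 2 * log K * L ≤ 2 * (2 * LL) * (2 * ((r : ℝ) + 1) * lam) :=
          mul_le_mul (by linarith) hlr hL0.le (by positivity)
      _ = _ := by ring
  calc (30 * exp 1) ^ 2 * denseFactor n r
      = (30 * exp 1) ^ 2 * exp 170 * exp (2 * log K / ((r : ℝ) + 1)) := by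
        rw [denseFactor, exp_add, hK]; ring
    _ ≤ cst * exp (expo n q) :=
        mul_le_mul (le_add_of_nonneg_left (by norm_num)) (exp_le_exp.2 hfac) (exp_pos _).le
          cst_pos.le

/-- An admissible density is at least `1 / (2 n!)`. -/
lemma admissible_ge (hk : k ≤ n) (H : SimpleGraph (Fin k)) (hE : 1 ≤ (edgesIn hk H).card) {q : ℝ}
    (hq : q ∈ Set.Icc (0 : ℝ) 1) (hs : Sparse (Equiv.Perm (Fin n)) (edgesIn hk H) q) :
    1 / (2 * (n.factorial : ℝ)) ≤ q := by
  have h := hs _ (subset_refl (edgesIn hk H))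
  rw [X, Fintype.card_perm, Fintype.card_fin, div_le_iff₀ (by positivity)] at h
  have h1 : (1 : ℝ) ≤ ((univ.filter fun g : Equiv.Perm (Fin n) =>
      img g (edgesIn hk H) ⊆ edgesIn hk H).card : ℝ) :=
    Nat.one_le_cast.2 (card_pos.2 ⟨1, by simp [img_one]⟩)
  have h2 : q ^ (edgesIn hk H).card ≤ q := pow_le_of_le_one hq.1 hq.2 (by omega)
  rw [div_le_iff₀ (by positivity)]
  calc (1 : ℝ) ≤ 2 * q ^ (edgesIn hk H).card * n.factorial := h1.trans h
    _ ≤ 2 * q * n.factorial := by gcongr
    _ = _ := by ring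

/-- The bounds that are good when the expectation threshold is large. -/
theorem threshold_dense : ∃ C : ℝ, 0 < C ∧ ∀ n k : ℕ, 2 ≤ n → k ≤ n →
    ∀ H : SimpleGraph (Fin k), H ≠ ⊥ →
      pEFrac n H ≤ C * pE n H *
        exp (8 * log (1 / pE n H) * log (log (n : ℝ) + 3) / log (n : ℝ)) ∧
      pc n H ≤ C * pE n H * log (n : ℝ) *
        exp (8 * log (1 / pE n H) * log (log (n : ℝ) + 3) / log (n : ℝ)) ∧
      ∀ A : ℝ, exp (-(A * log (n : ℝ) / log (log (n : ℝ) + 3))) ≤ pE n H →
        pc n H ≤ C * exp (8 * A) * pE n H * log (n : ℝ) := by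
  refine ⟨1536 * cst, by linarith [cst_pos], fun n k hn hk H hH => ?_⟩
  have hE := one_le_edges hk hH
  set S : Set ℝ := {p : ℝ | ∃ h : p ∈ Set.Icc (0 : ℝ) 1, ∀ F : H.Subgraph,
    1 / 2 ≤ ∫ G, (G.copyCount F.coe : ℝ) ∂SimpleGraph.binomialRandom (Fin n) ⟨p, h⟩} with hS
  have hne : S.Nonempty := ⟨1, ⟨zero_le_one, le_rfl⟩, fun F => by
    have := mean_one_pos hk F
    rw [show (⟨1, _⟩ : unitInterval) = 1 from rfl]
    linarith⟩
  have hbdd : BddBelow S := ⟨0, fun p hp => hp.1.1⟩
  have hpos : 0 < pE n H := by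
    refine lt_of_lt_of_le (show (0:ℝ) < 1 / (2 * (n.factorial : ℝ)) by positivity)
      (le_csInf hne fun p hp => ?_)
    obtain ⟨hp, hpF⟩ := hp
    exact admissible_ge hk H hE hp (sparse_of_mean hk H ⟨p, hp⟩ hpF)
  have hL := log_n_pos hn
  have hLL := ll_pos n
  set M : ℝ := exp (8 * log (1 / pE n H) * log (log (n : ℝ) + 3) / log (n : ℝ)) with hM
  have hM0 : 0 < M := exp_pos _
  have key : ∀ p ∈ S, pEFrac n H ≤ cst * M * p ∧
      pc n H ≤ 1536 * log (n : ℝ) * (cst * M * p) := by
    intro p hpS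
    obtain ⟨hp, hpF⟩ := id hpS
    have hs := sparse_of_mean hk H ⟨p, hp⟩ hpF
    have hq := admissible_pos hk hH hp hs
    have hle : pE n H ≤ p := csInf_le hbdd hpS
    set R := cst * exp (expo n p) * p with hR
    have hR0 : 0 < R := mul_pos (mul_pos cst_pos (exp_pos _)) hq
    have hmono : R ≤ cst * M * p := by
      refine mul_le_mul_of_nonneg_right (mul_le_mul_of_nonneg_left ?_ cst_pos.le) hq.le
      rw [hM, exp_le_exp, expo]
      refine div_le_div_of_nonneg_right (mul_le_mul_of_nonneg_right ?_ hLL.le) hL.le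
      refine mul_le_mul_of_nonneg_left (log_le_log (by positivity) ?_) (by norm_num)
      exact div_le_div_of_nonneg_left zero_le_one hpos hle
    refine ⟨(frac_le_of_spread hk H hR0.le (spread_all hn hk H hE hq hp.2 hs)).trans hmono, ?_⟩
    refine (pc_le_of_spread hk H hE hR0 (spread_all hn hk H hE hq hp.2 hs)).trans ?_
    have hlog := log_edges_le hn hk H
    have hlE := log_E_ge hE
    calc 768 * log (((edgesIn hk H).card : ℝ) + 1) * R
        ≤ 768 * (2 * log (n : ℝ)) * (cst * M * p) := by gcongr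
      _ = _ := by ring
  have h1 : pEFrac n H / (cst * M) ≤ pE n H := le_csInf hne fun p hp => by
    rw [div_le_iff₀ (mul_pos cst_pos hM0)]
    linarith [(key p hp).1]
  have h2 : pc n H / (1536 * log (n : ℝ) * (cst * M)) ≤ pE n H := le_csInf hne fun p hp => by
    rw [div_le_iff₀ (mul_pos (by positivity) (mul_pos cst_pos hM0))]
    linarith [(key p hp).2]
  rw [div_le_iff₀ (mul_pos cst_pos hM0)] at h1
  rw [div_le_iff₀ (mul_pos (by positivity) (mul_pos cst_pos hM0))] at h2
  have hb0 : 0 ≤ pE n H * (cst * M) := mul_nonneg hpos.le (mul_pos cst_pos hM0).le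
  have hpc : pc n H ≤ 1536 * cst * pE n H * log (n : ℝ) * M := le_of_le_of_eq h2 (by ring)
  refine ⟨by linarith, hpc, fun A hA => ?_⟩
  have h3 : log (1 / pE n H) ≤ A * log (n : ℝ) / log (log (n : ℝ) + 3) := by
    have := log_le_log (exp_pos _) hA
    rw [log_exp] at this
    rw [one_div, log_inv]
    linarith
  have h4 : M ≤ exp (8 * A) := by
    rw [hM, exp_le_exp, div_le_iff₀ hL]
    rw [le_div_iff₀ hLL] at h3
    linarith
  refine hpc.trans ?_
  calc 1536 * cst * pE n H * log (n : ℝ) * M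
      ≤ 1536 * cst * pE n H * log (n : ℝ) * exp (8 * A) :=
        mul_le_mul_of_nonneg_left h4 (mul_nonneg (mul_nonneg (by linarith [cst_pos]) hpos.le) hL.le)
    _ = _ := by ring

end Vale.Agent.P064
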