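import Vale.Agent.P064.Levels
import Mathlib.Logic.Equiv.Fin.Basic

/-!
# Repeated doubling with a general price

Tuples of copies are glued pairwise. If the price of gluing two of them pays for all their relative
positions, the copies number at most `q^e` times the exponential of the mean price per copy.
-/

open Finset Real
open scoped Classical

namespace Vale.Agent.P064

variable {Γ Ω α : Type} [Group Γ] [Fintype Γ] [DecidableEq Ω] [MulAction Γ Ω] [Fintype α]

/-- The points covered by a tuple. -/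
noncomputable def tpts (A : α → Finset Ω) {k : ℕ} (t : Fin k → α) : Finset Ω :=
  univ.biUnion fun i => A (t i)

/-- A tuple of twice the length is a pair of tuples. -/
def halves (l : ℕ) : (Fin (2 ^ (l + 1)) → α) ≃ (Fin (2 ^ l) → α) × (Fin (2 ^ l) → α) :=
  ((finSumFinEquiv.trans (finCongr (by rw [pow_succ]; omega))).symm.arrowCongr
    (Equiv.refl α)).trans (Equiv.sumArrowEquivProdArrow _ _ _)

omit [Fintype α] in
lemma tpts_halves (A : α → Finset Ω) (l : ℕ) (t : Fin (2 ^ (l + 1)) → α) :
    tpts A t = tpts A (halves l t).1 ∪ tpts A (halves l t).2 := by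
  ext y
  simp only [tpts, mem_union, mem_biUnion, mem_univ, true_and]
  constructor
  · rintro ⟨i, hi⟩
    obtain ⟨s, rfl⟩ := (finSumFinEquiv.trans
      (finCongr (show 2 ^ l + 2 ^ l = 2 ^ (l + 1) by rw [pow_succ]; omega))).surjective i
    rcases s with j | j
    · exact Or.inl ⟨j, hi⟩
    · exact Or.inr ⟨j, hi⟩
  · rintro (⟨j, hj⟩ | ⟨j, hj⟩) <;> exact ⟨_, hj⟩

/-- The price accumulated over all stages. -/
noncomputable def accum (price : ∀ k, (Fin k → α) → (Fin k → α) → ℝ) :
    ∀ l, (Fin (2 ^ l) → α) → ℝ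
  | 0, _ => 0
  | l + 1, t => accum price l (halves l t).1 + accum price l (halves l t).2
      + price (2 ^ l) (halves l t).1 (halves l t).2

/-- The mean price of a stage. -/
noncomputable def meanPrice (S : Finset α) (price : ∀ k, (Fin k → α) → (Fin k → α) → ℝ) (j : ℕ) :
    ℝ :=
  (∑ t ∈ Fintype.piFinset fun _ : Fin (2 ^ j) => S,
    ∑ u ∈ Fintype.piFinset fun _ : Fin (2 ^ j) => S, price (2 ^ j) t u)
    / ((S.card : ℝ) ^ 2 ^ j) ^ 2

omit [Fintype α] in
lemma sum_tuples_succ (S : Finset α) (l : ℕ) (f : (Fin (2 ^ (l + 1)) → α) → ℝ) :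
    ∑ t ∈ Fintype.piFinset (fun _ : Fin (2 ^ (l + 1)) => S), f t
      = ∑ t ∈ Fintype.piFinset (fun _ : Fin (2 ^ l) => S),
          ∑ u ∈ Fintype.piFinset (fun _ : Fin (2 ^ l) => S), f ((halves l).symm (t, u)) := by
  rw [← sum_product']
  refine sum_equiv (halves l) (fun t => ?_) fun t _ => by
    rw [Prod.mk.eta, Equiv.symm_apply_apply]
  simp only [mem_product, Fintype.mem_piFinset]
  constructor
  · exact fun h => ⟨fun i => h _, fun i => h _⟩
  · intro h i
    obtain ⟨s, rfl⟩ := (finSumFinEquiv.trans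
      (finCongr (show 2 ^ l + 2 ^ l = 2 ^ (l + 1) by rw [pow_succ]; omega))).surjective i
    rcases s with j | j
    · exact h.1 j
    · exact h.2 j

omit [Fintype α] in
/-- The mean of the accumulated price. -/
lemma accum_mean (S : Finset α) (hS : S.Nonempty)
    (price : ∀ k, (Fin k → α) → (Fin k → α) → ℝ) (l : ℕ) :
    ∑ t ∈ Fintype.piFinset (fun _ : Fin (2 ^ l) => S), accum price l t
      = (S.card : ℝ) ^ 2 ^ l * 2 ^ l * ∑ j ∈ range l, meanPrice S price j / 2 ^ (j + 1) := by
  have hS0 : (0 : ℝ) < S.card := Nat.cast_pos.2 (card_pos.2 hS)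
  induction l with
  | zero => simp [accum]
  | succ l ih =>
    have e : ∑ t ∈ Fintype.piFinset (fun _ : Fin (2 ^ l) => S),
        ∑ u ∈ Fintype.piFinset (fun _ : Fin (2 ^ l) => S), price (2 ^ l) t u
          = meanPrice S price l * ((S.card : ℝ) ^ 2 ^ l) ^ 2 := by
      rw [meanPrice, div_mul_cancel₀]
      positivity
    rw [sum_tuples_succ S l, sum_range_succ]
    simp only [accum, Equiv.apply_symm_apply, sum_add_distrib, sum_const, Fintype.card_piFinset,
      prod_const, card_univ, Fintype.card_fin, nsmul_eq_mul, ← mul_sum, e, ih, Nat.cast_pow]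
    rw [pow_succ (2 : ℕ) l, pow_mul, pow_succ]
    field_simp
    ring

variable (Γ) in
/-- The weighted number of tuples with a translate in `H`. -/
noncomputable def Zsum (A : α → Finset Ω) (H : Finset Ω)
    (price : ∀ k, (Fin k → α) → (Fin k → α) → ℝ) (q : ℝ) (l : ℕ) : ℝ :=
  ∑ t ∈ univ.filter (fun t : Fin (2 ^ l) → α => Fit Γ H (tpts A t)),
    exp (-accum price l t) * q ^ (tpts A t).card

omit [Fintype Γ] [Fintype α] in
lemma tpts_move (A : α → Finset Ω) (d : Γ) (f : α ≃ α) (hf : ∀ a, A (f a) = img d (A a)) {k : ℕ}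
    (t : Fin k → α) : tpts A (f ∘ t) = img d (tpts A t) := by
  rw [tpts, tpts, img, biUnion_image]
  exact biUnion_congr rfl fun i _ => hf _

omit [Fintype Γ] [DecidableEq Ω] [MulAction Γ Ω] [Fintype α] in
lemma accum_move (price : ∀ k, (Fin k → α) → (Fin k → α) → ℝ) (f : α → α)
    (hinv : ∀ k (t u : Fin k → α), price k (f ∘ t) (f ∘ u) = price k t u) :
    ∀ l (t : Fin (2 ^ l) → α), accum price l (f ∘ t) = accum price l t
  | 0, _ => rfl
  | l + 1, t => by
    show accum price l (f ∘ (halves l t).1) + accum price l (f ∘ (halves l t).2)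
      + price (2 ^ l) (f ∘ (halves l t).1) (f ∘ (halves l t).2) = _
    rw [accum_move price f hinv l, accum_move price f hinv l, hinv]
    rfl

variable {A : α → Finset Ω} {H : Finset Ω} {price : ∀ k, (Fin k → α) → (Fin k → α) → ℝ}

/-- The weighted count squares from one stage to the next. -/
lemma Zsum_le {q : ℝ} {e : ℕ} (hq : 0 < q) (mvα : Γ → (α ≃ α))
    (hmv : ∀ d a, A (mvα d a) = img d (A a)) (hcard : ∀ a, (A a).card = e)
    (hinv : ∀ d k (t u : Fin k → α), price k (mvα d ∘ t) (mvα d ∘ u) = price k t u)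
    (hkey : ∀ k (t u : Fin k → α), Fit Γ H (tpts A t) → Fit Γ H (tpts A u) →
      ∑ d : Γ, (if Fit Γ H (tpts A t ∪ tpts A (mvα d ∘ u)) then
        exp (-price k t (mvα d ∘ u)) * q ^ (tpts A t ∪ tpts A (mvα d ∘ u)).card else 0)
      ≤ 2 * Fintype.card Γ * q ^ ((tpts A t).card + (tpts A u).card)) (l : ℕ) :
    Zsum Γ A H price q l ≤ ((Fintype.card α : ℝ) * q ^ e) ^ 2 ^ l * 2 ^ (2 ^ l - 1) := by
  induction l with
  | zero =>
    refine le_trans (sum_le_univ_sum_of_nonneg fun t => by positivity) (le_of_eq ?_)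
    simp only [pow_zero, accum, neg_zero, exp_zero, one_mul, pow_one, Nat.sub_self, mul_one]
    have : ∀ t : Fin 1 → α, (tpts A t).card = e := fun t => by
      rw [tpts, univ_unique, singleton_biUnion]; exact hcard _
    simp [this]
  | succ l ih =>
    set F := univ.filter fun t : Fin (2 ^ l) → α => Fit Γ H (tpts A t) with hF
    set W : (Fin (2 ^ l) → α) → ℝ := fun t => exp (-accum price l t) with hW
    set G : (Fin (2 ^ l) → α) → (Fin (2 ^ l) → α) → ℝ := fun t u =>
      W t * W u * (if Fit Γ H (tpts A t ∪ tpts A u) then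
        exp (-price (2 ^ l) t u) * q ^ (tpts A t ∪ tpts A u).card else 0) with hG
    have fitU : ∀ {U V : Finset Ω}, Fit Γ H (U ∪ V) → Fit Γ H U ∧ Fit Γ H V := by
      rintro U V ⟨g, hg⟩
      exact ⟨⟨g, (image_subset_image subset_union_left).trans hg⟩,
        ⟨g, (image_subset_image subset_union_right).trans hg⟩⟩
    have h1 : Zsum Γ A H price q (l + 1) ≤ ∑ t ∈ F, ∑ u ∈ F, G t u := by
      rw [Zsum, ← sum_product']
      refine le_of_eq (sum_bij_ne_zero (fun t _ _ => halves l t) ?_ ?_ ?_ ?_)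
      · intro t ht _
        have hf := (mem_filter.1 ht).2
        rw [tpts_halves A l t] at hf
        exact mem_product.2 ⟨mem_filter.2 ⟨mem_univ _, (fitU hf).1⟩,
          mem_filter.2 ⟨mem_univ _, (fitU hf).2⟩⟩
      · intro t _ _ t' _ _ h
        exact (halves l).injective h
      · intro x hx hne
        have hf : Fit Γ H (tpts A x.1 ∪ tpts A x.2) := by
          by_contra h
          simp [hG, h] at hne
        refine ⟨(halves l).symm x, mem_filter.2 ⟨mem_univ _, ?_⟩, ?_, Equiv.apply_symm_apply _ _⟩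
        · rw [tpts_halves, Equiv.apply_symm_apply]; exact hf
        · positivity
      · intro t ht _
        have hf := (mem_filter.1 ht).2
        rw [tpts_halves A l t] at hf ⊢
        simp only [hG, hW, if_pos hf, accum, neg_add, exp_add]
        ring
    have hfitmv : ∀ d (u : Fin (2 ^ l) → α),
        Fit Γ H (tpts A (mvα d ∘ u)) ↔ Fit Γ H (tpts A u) := by
      intro d u
      rw [tpts_move A d (mvα d) (hmv d)]
      refine ⟨fun ⟨g, hg⟩ => ⟨g * d, ?_⟩, fun ⟨g, hg⟩ => ⟨g * d⁻¹, ?_⟩⟩
      · rwa [img_mul]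
      · rwa [← img_mul, inv_mul_cancel_right]
    have havg : ∀ t, (Fintype.card Γ : ℝ) * ∑ u ∈ F, G t u
        = ∑ u ∈ F, ∑ d : Γ, G t (mvα d ∘ u) := by
      intro t
      rw [sum_comm]
      have : ∀ d : Γ, ∑ u ∈ F, G t (mvα d ∘ u) = ∑ u ∈ F, G t u := by
        intro d
        refine sum_equiv ((Equiv.refl (Fin (2 ^ l))).arrowCongr (mvα d)) (fun u => ?_)
          fun u _ => rfl
        simp only [hF, mem_filter, mem_univ, true_and]
        exact (hfitmv d u).symm
      rw [sum_congr rfl fun d _ => this d, sum_const, card_univ, nsmul_eq_mul]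
    have h2 : ∀ t ∈ F, ∑ u ∈ F, G t u
        ≤ ∑ u ∈ F, W t * q ^ (tpts A t).card * (W u * q ^ (tpts A u).card) * 2 := by
      intro t ht
      refine le_of_mul_le_mul_left (le_of_eq_of_le (havg t) ?_) (card_pos' (Γ := Γ))
      rw [mul_sum]
      refine sum_le_sum fun u hu => ?_
      have hWm : ∀ d, W (mvα d ∘ u) = W u := fun d => by
        simp only [hW, accum_move price (mvα d) (hinv d) l u]
      simp only [hG, hWm, ← mul_sum]
      refine le_trans (mul_le_mul_of_nonneg_left (hkey _ t u (mem_filter.1 ht).2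
        (mem_filter.1 hu).2) (mul_nonneg (exp_pos _).le (exp_pos _).le)) (le_of_eq ?_)
      rw [pow_add]; ring
    refine (h1.trans (sum_le_sum h2)).trans ?_
    have eZ : ∑ t ∈ F, ∑ u ∈ F, W t * q ^ (tpts A t).card * (W u * q ^ (tpts A u).card) * 2
        = Zsum Γ A H price q l * Zsum Γ A H price q l * 2 := by
      rw [Zsum, sum_mul_sum, sum_mul]
      exact sum_congr rfl fun t _ => by rw [sum_mul]
    rw [eZ]
    have hZ0 : 0 ≤ Zsum Γ A H price q l := sum_nonneg fun t _ => by positivity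
    calc Zsum Γ A H price q l * Zsum Γ A H price q l * 2
        ≤ ((Fintype.card α : ℝ) * q ^ e) ^ 2 ^ l * 2 ^ (2 ^ l - 1)
            * (((Fintype.card α : ℝ) * q ^ e) ^ 2 ^ l * 2 ^ (2 ^ l - 1)) * 2 := by gcongr
      _ = _ := by
        have : 1 ≤ 2 ^ l := Nat.one_le_two_pow
        rw [show 2 ^ (l + 1) - 1 = (2 ^ l - 1) + (2 ^ l - 1) + 1 by rw [pow_succ]; omega,
          pow_succ 2 l, pow_mul, pow_succ, pow_add]
        ring

/-- Counting by repeated doubling. -/
theorem doubling {q : ℝ} {e : ℕ} (hq : 0 < q) (hs : Sparse Γ H q) (mvα : Γ → (α ≃ α))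
    (hmv : ∀ d a, A (mvα d a) = img d (A a)) (hcard : ∀ a, (A a).card = e)
    (hinv : ∀ d k (t u : Fin k → α), price k (mvα d ∘ t) (mvα d ∘ u) = price k t u)
    (hkey : ∀ k (t u : Fin k → α), Fit Γ H (tpts A t) → Fit Γ H (tpts A u) →
      ∑ d : Γ, (if Fit Γ H (tpts A t ∪ tpts A (mvα d ∘ u)) then
        exp (-price k t (mvα d ∘ u)) * q ^ (tpts A t ∪ tpts A (mvα d ∘ u)).card else 0)
      ≤ 2 * Fintype.card Γ * q ^ ((tpts A t).card + (tpts A u).card))
    {S : Finset α} (hS : ∀ a ∈ S, A a ⊆ H) {B : ℝ}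
    (hB : ∀ l, ∑ j ∈ range l, meanPrice S price j / 2 ^ (j + 1) ≤ B) :
    (S.card : ℝ) ≤ Fintype.card α * q ^ e * exp (2 + B) := by
  rcases S.eq_empty_or_nonempty with h0 | h0
  · subst h0
    simp only [card_empty, Nat.cast_zero]
    positivity
  set M := H.card + 1 with hM
  set N : ℝ := (S.card : ℝ) with hN
  have hN0 : 0 < N := Nat.cast_pos.2 (card_pos.2 h0)
  set k : ℕ := 2 ^ M with hk
  set T := Fintype.piFinset fun _ : Fin k => S with hT
  have hTc : ((T.card : ℕ) : ℝ) = N ^ k := by simp [hT, hN]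
  set m := (k : ℝ) * B with hm
  have hlow : N ^ k * exp (-m) ≤ ∑ t ∈ T, exp (-accum price M t) := by
    have hpt : ∀ c : ℝ, exp (-m) * (1 + m - c) ≤ exp (-c) := by
      intro c
      rw [show -c = -m + (m - c) by ring, exp_add]
      exact mul_le_mul_of_nonneg_left (by linarith [add_one_le_exp (m - c)]) (exp_pos _).le
    refine le_trans ?_ (sum_le_sum fun t _ => hpt (accum price M t))
    rw [← mul_sum, sum_sub_distrib, sum_const, nsmul_eq_mul, hTc, mul_comm]
    refine mul_le_mul_of_nonneg_left ?_ (exp_pos _).le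
    have h := accum_mean S h0 price M
    have h' : ∑ t ∈ T, accum price M t ≤ N ^ k * m := by
      rw [h, hm, hk, Nat.cast_pow, Nat.cast_ofNat, mul_assoc]
      exact mul_le_mul_of_nonneg_left (mul_le_mul_of_nonneg_left (hB M) (by positivity))
        (pow_nonneg hN0.le _)
    linarith
  have hup : ∑ t ∈ T, exp (-accum price M t) ≤ 2 * 2 ^ H.card * Zsum Γ A H price q M := by
    have hTH : T ⊆ univ.filter fun t : Fin k → α => tpts A t ⊆ H := fun t ht =>
      mem_filter.2 ⟨mem_univ _, biUnion_subset.2 fun i _ => hS _ (Fintype.mem_piFinset.1 ht i)⟩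
    refine (sum_le_sum_of_subset_of_nonneg hTH fun t _ _ => (exp_pos _).le).trans ?_
    refine le_of_mul_le_mul_left ?_ (card_pos' (Γ := Γ))
    have e : (Fintype.card Γ : ℝ) * ∑ t ∈ univ.filter (fun t : Fin k → α => tpts A t ⊆ H),
          exp (-accum price M t)
        = ∑ t : Fin k → α, exp (-accum price M t) *
            ((univ.filter fun d : Γ => img d (tpts A t) ⊆ H).card : ℝ) := by
      have : ∀ d : Γ, ∑ t ∈ univ.filter (fun t : Fin k → α => tpts A t ⊆ H),
          exp (-accum price M t)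
          = ∑ t : Fin k → α, if img d (tpts A t) ⊆ H then exp (-accum price M t) else 0 := by
        intro d
        rw [← sum_filter]
        symm
        refine sum_equiv ((Equiv.refl (Fin k)).arrowCongr (mvα d)) (fun t => ?_) fun t _ => ?_
        · simp only [mem_filter, mem_univ, true_and]
          show _ ↔ tpts A (mvα d ∘ t) ⊆ H
          rw [tpts_move A d (mvα d) (hmv d)]
        · show _ = exp (-accum price M (mvα d ∘ t))
          rw [accum_move price (mvα d) (hinv d) M t]
      rw [← nsmul_eq_mul, ← card_univ, ← sum_const, sum_congr rfl fun d _ => this d, sum_comm]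
      refine sum_congr rfl fun t _ => ?_
      rw [← sum_filter, sum_const, nsmul_eq_mul, mul_comm]
    rw [e, Zsum, mul_sum, mul_sum, sum_filter]
    refine sum_le_sum fun t _ => ?_
    by_cases hf : Fit Γ H (tpts A t)
    · rw [if_pos hf]
      have hX := hs.X_le_choose hq.le (S := tpts A t) (subset_refl H)
      rw [X, div_le_iff₀ card_pos'] at hX
      have hc : ((H.card.choose (tpts A t).card : ℕ) : ℝ) ≤ 2 ^ H.card := by
        exact_mod_cast Nat.choose_le_two_pow _ _
      calc exp (-accum price M t) *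
            ((univ.filter fun d : Γ => img d (tpts A t) ⊆ H).card : ℝ)
          ≤ exp (-accum price M t) *
              (2 * 2 ^ H.card * q ^ (tpts A t).card * Fintype.card Γ) := by
            refine mul_le_mul_of_nonneg_left (le_trans hX ?_) (exp_pos _).le
            gcongr
        _ = _ := by ring
    · rw [if_neg hf, filter_false_of_mem fun d _ h => hf ⟨d, h⟩]
      simp
  have hZ := Zsum_le (H := H) hq mvα hmv hcard hinv hkey M
  set Pr : ℝ := (Fintype.card α : ℝ) * q ^ e with hPr
  have hE : (2 : ℝ) * 2 ^ H.card * 2 ^ (k - 1) ≤ exp 2 ^ k := by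
    have h2 : (2 : ℝ) ≤ exp 1 := by linarith [exp_one_gt_d9]
    calc (2 : ℝ) * 2 ^ H.card * 2 ^ (k - 1) = 2 ^ M * 2 ^ (k - 1) := by rw [hM, pow_succ]; ring
      _ ≤ exp 1 ^ M * exp 1 ^ (k - 1) := by gcongr
      _ ≤ exp 1 ^ k * exp 1 ^ k := by
        gcongr <;> first
          | exact one_le_exp (by norm_num)
          | exact Nat.lt_two_pow_self.le
          | exact Nat.sub_le _ _
      _ = _ := by rw [← mul_pow, ← exp_add]; norm_num
  have h3 : N ^ k ≤ (exp B * exp 2 * Pr) ^ k := by
    have h := hlow.trans (hup.trans (mul_le_mul_of_nonneg_left hZ (by positivity)))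
    rw [exp_neg, mul_inv_le_iff₀ (exp_pos _)] at h
    refine h.trans ?_
    rw [mul_pow (exp B * exp 2) Pr, mul_pow (exp B) (exp 2), hm, exp_nat_mul, ← hk]
    have hP0 : 0 ≤ Pr := by positivity
    calc 2 * 2 ^ H.card * (Pr ^ k * 2 ^ (k - 1)) * exp B ^ k
        = (2 * 2 ^ H.card * 2 ^ (k - 1)) * (Pr ^ k * exp B ^ k) := by ring
      _ ≤ exp 2 ^ k * (Pr ^ k * exp B ^ k) := by gcongr
      _ = _ := by ring
  have h4 := (pow_le_pow_iff_left₀ hN0.le (by positivity) (by positivity)).1 h3
  refine h4.trans (le_of_eq ?_)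
  rw [exp_add]
  ring

end Vale.Agent.P064
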