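import Vale.Agent.P064.Key
import Vale.Agent.P064.Doubling
import Vale.Agent.P064.Bound
import Vale.Agent.P064.Mean
import Vale.Agent.P064.DenseMain

/-!
# Spreadness up to a power of `log log n` for every graph

The copies of an edge set are split by the marked ends of their edges. Each class is counted by
repeated doubling, the price of a gluing being the price of describing the common part.
-/

open Finset Real
open scoped Classical

namespace Vale.Agent.P064

variable {n k : ℕ}

/-- The exponential of minus a mean is at most the mean exponential. -/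
lemma exp_neg_mean_le {ι : Type*} [Fintype ι] [Nonempty ι] (a : ι → ℝ) :
    exp (-((∑ i, a i) / Fintype.card ι)) ≤ (∑ i, exp (-a i)) / Fintype.card ι := by
  set N := (Fintype.card ι : ℝ) with hN
  have hN0 : 0 < N := Nat.cast_pos.2 Fintype.card_pos
  set m := (∑ i, a i) / N with hm
  rw [le_div_iff₀ hN0]
  refine le_trans (le_of_eq ?_) (sum_le_sum (f := fun i => exp (-m) * (1 + m - a i))
    fun i _ => ?_)
  · rw [← mul_sum, sum_sub_distrib, sum_const, card_univ, nsmul_eq_mul, ← hN,
      show (∑ i, a i) = m * N by rw [hm, div_mul_cancel₀ _ hN0.ne']]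
    ring
  · rw [show -a i = -m + (m - a i) by ring, exp_add]
    exact mul_le_mul_of_nonneg_left (by linarith [add_one_le_exp (m - a i)]) (exp_pos _).le

lemma ell_one (n : ℕ) : 1 ≤ log (log (n : ℝ) + 3) := by
  rw [le_log_iff_exp_le (by linarith [log_natCast_nonneg n])]
  linarith [exp_one_lt_d9, log_natCast_nonneg n]

lemma fit_move (g : Equiv.Perm (Fin n)) (H S : Finset (Sym2 (Fin n))) :
    Fit (Equiv.Perm (Fin n)) H (img g S) ↔ Fit (Equiv.Perm (Fin n)) H S := by
  refine ⟨fun ⟨a, ha⟩ => ⟨a * g, by rwa [img_mul]⟩, fun ⟨a, ha⟩ => ⟨a * g⁻¹, ?_⟩⟩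
  rwa [← img_mul, inv_mul_cancel_right]

lemma sell_low (n : ℕ) : 24 ≤ sell n := by
  have := ell_one n
  rw [sell]; linarith

lemma sell_le (n : ℕ) : sell n ≤ 25 * log (log (n : ℝ) + 3) := by
  have := ell_one n
  rw [sell]; linarith

namespace Pat

variable (P : Pat n)

/-- The price, averaged over translations. -/
noncomputable def meanCost (lam : ℝ) {j : ℕ} (t u : Fin j → Equiv.Perm (Fin n)) : ℝ :=
  (∑ g : Equiv.Perm (Fin n), P.cost0 lam (moveT g t) (moveT g u))
    / Fintype.card (Equiv.Perm (Fin n))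

lemma moveT_mul (g d : Equiv.Perm (Fin n)) {j : ℕ} (t : Fin j → Equiv.Perm (Fin n)) :
    moveT g (moveT d t) = moveT (g * d) t := by
  funext i; simp only [moveT, mul_assoc]

lemma meanCost_move (lam : ℝ) (d : Equiv.Perm (Fin n)) {j : ℕ}
    (t u : Fin j → Equiv.Perm (Fin n)) :
    P.meanCost lam (moveT d t) (moveT d u) = P.meanCost lam t u := by
  have h : ∑ g : Equiv.Perm (Fin n), P.cost0 lam (moveT g (moveT d t)) (moveT g (moveT d u))
      = ∑ g : Equiv.Perm (Fin n), P.cost0 lam (moveT g t) (moveT g u) := by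
    simp only [moveT_mul]
    exact Equiv.sum_comp (Equiv.mulRight d) fun g => P.cost0 lam (moveT g t) (moveT g u)
  rw [meanCost, meanCost, h]

/-- The averaged price pays for all relative positions. -/
lemma key_mean {H : Finset (Sym2 (Fin n))} {q : ℝ} (hn : 2 ≤ n) (hq : 0 < q)
    (hs : Sparse (Equiv.Perm (Fin n)) H q) {j : ℕ} (t u : Fin j → Equiv.Perm (Fin n)) :
    ∑ d : Equiv.Perm (Fin n),
        (if Fit (Equiv.Perm (Fin n)) H (P.edges t ∪ P.edges (moveT d u)) then
          exp (-P.meanCost (log (1 / q)) t (moveT d u))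
            * q ^ (P.edges t ∪ P.edges (moveT d u)).card else 0)
      ≤ 2 * (Fintype.card (Equiv.Perm (Fin n)) : ℝ)
        * q ^ ((P.edges t).card + (P.edges u).card) := by
  set lam := log (1 / q) with hlam
  set N := (Fintype.card (Equiv.Perm (Fin n)) : ℝ) with hN
  have hN0 : 0 < N := Nat.cast_pos.2 Fintype.card_pos
  set T := fun (g d : Equiv.Perm (Fin n)) =>
    if Fit (Equiv.Perm (Fin n)) H (P.edges (moveT g t) ∪ P.edges (moveT d u)) then
      exp (-P.cost0 lam (moveT g t) (moveT d u))
        * q ^ (P.edges (moveT g t) ∪ P.edges (moveT d u)).card else 0 with hT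
  have h1 : ∀ d, (if Fit (Equiv.Perm (Fin n)) H (P.edges t ∪ P.edges (moveT d u)) then
      exp (-P.meanCost lam t (moveT d u)) * q ^ (P.edges t ∪ P.edges (moveT d u)).card else 0)
      ≤ (∑ g, T g (g * d)) / N := by
    intro d
    have e : ∀ g, P.edges (moveT g t) ∪ P.edges (moveT (g * d) u)
        = img g (P.edges t ∪ P.edges (moveT d u)) := fun g => by
      rw [edges_move, edges_move, edges_move, img_union, img_mul]
    have e2 : ∀ g, moveT (g * d) u = moveT g (moveT d u) := fun g => by
      funext i; simp [moveT, mul_assoc]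
    by_cases hf : Fit (Equiv.Perm (Fin n)) H (P.edges t ∪ P.edges (moveT d u))
    · simp only [hT, e, fit_move, if_pos hf, card_img]
      simp only [e2]
      rw [← sum_mul, mul_div_right_comm]
      exact mul_le_mul_of_nonneg_right (exp_neg_mean_le _) (by positivity)
    · rw [if_neg hf]
      refine div_nonneg (sum_nonneg fun g _ => ?_) hN0.le
      simp only [hT]
      split_ifs <;> positivity
  refine (sum_le_sum fun d _ => h1 d).trans ?_
  rw [← sum_div, sum_comm, div_le_iff₀ hN0]
  have h2 : ∀ g, ∑ d, T g (g * d) ≤ 2 * N * q ^ ((P.edges t).card + (P.edges u).card) := by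
    intro g
    show ∑ d, T g (Equiv.mulLeft g d) ≤ _
    rw [Equiv.sum_comp (Equiv.mulLeft g) (T g)]
    refine (P.key_le (moveT g t) u hn hq hs).trans (le_of_eq ?_)
    rw [edges_move, card_img, hN, Fintype.card_perm, Fintype.card_fin]
  refine (sum_le_card_nsmul _ _ _ fun g _ => h2 g).trans (le_of_eq ?_)
  rw [card_univ, nsmul_eq_mul, hN]
  ring

/-- The copies with the marks of `H` are few. -/
theorem good_copies_le {H : Finset (Sym2 (Fin n))} {q : ℝ} (hn : 2 ≤ n) (hq : 0 < q)
    (hq1 : q ≤ 1) (hs : Sparse (Equiv.Perm (Fin n)) H q) (M : Marks H (log (1 / q))) :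
    ((P.goodCopies H M.rich).card : ℝ) ≤ (n.factorial : ℝ) * q ^ P.T.card
      * exp (2 + 500000000 * log (sell n) * P.T.card) := by
  set S := P.goodCopies H M.rich with hSdef
  rcases S.eq_empty_or_nonempty with h0 | hne
  · rw [h0]; simp only [card_empty, Nat.cast_zero]; positivity
  have hlam0 : 0 ≤ log (1 / q) := log_nonneg (one_le_one_div hq hq1)
  set N := (Fintype.card (Equiv.Perm (Fin n)) : ℝ) with hN
  have hN0 : 0 < N := Nat.cast_pos.2 Fintype.card_pos
  have hl : 0 ≤ log (sell n) := log_nonneg (by linarith [sell_low n])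
  have key := doubling (Γ := Equiv.Perm (Fin n)) (A := fun g => img g P.T) (H := H)
    (price := fun _ t u => P.meanCost (log (1 / q)) t u) (e := P.T.card) hq hs
    (fun d => Equiv.mulLeft d) (fun d g => img_mul d g P.T) (fun g => card_img g P.T)
    (fun d _ t u => P.meanCost_move (log (1 / q)) d t u) (fun _ t u _ _ => P.key_mean hn hq hs t u)
    (S := S) (fun g hg => (mem_filter.1 hg).2.1)
    (B := 500000000 * log (sell n) * P.T.card) fun l => ?_
  · refine key.trans (le_of_eq ?_)
    rw [Fintype.card_perm, Fintype.card_fin]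
  -- the mean price
  set L := fun (g : Equiv.Perm (Fin n)) (R : Sym2 (Fin n) → Fin n → Prop) (j : ℕ) =>
    avgT (S.image (g * ·)) (fun t : Fin (2 ^ j) → Equiv.Perm (Fin n) =>
      avgT (S.image (g * ·)) (fun u : Fin (2 ^ j) → Equiv.Perm (Fin n) =>
        P.stageLoad (log (1 / q)) R t u)) with hL
  choose M' hM' using fun g => M.translate g
  have hgood : ∀ g, ∀ a ∈ S.image (g * ·), a ∈ P.goodCopies (img g H) (M' g).rich := by
    intro g a ha
    obtain ⟨b, hb, rfl⟩ := mem_image.1 ha
    obtain ⟨hb1, hb2⟩ := (mem_filter.1 hb).2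
    refine mem_filter.2 ⟨mem_univ _, ?_, fun z hz x hx => ?_⟩
    · rw [img_mul]; exact image_subset_image hb1
    · rw [mul_smul, Equiv.Perm.mul_apply, hM' g, hb2 z hz x hx]
  have hmove : ∀ (g : Equiv.Perm (Fin n)) {j : ℕ} (f : (Fin j → Equiv.Perm (Fin n)) → ℝ),
      avgT S (fun t => f (moveT g t)) = avgT (S.image (g * ·)) f := by
    intro g j f
    have e : Fintype.piFinset (fun _ : Fin j => S.image (g * ·))
        = (Fintype.piFinset fun _ : Fin j => S).image (moveT g) := by
      ext t
      simp only [Fintype.mem_piFinset, mem_image]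
      constructor
      · intro h
        choose b hb hbt using h
        exact ⟨b, hb, funext fun i => hbt i⟩
      · rintro ⟨b, hb, rfl⟩ i
        exact ⟨b i, hb i, rfl⟩
    rw [avgT, avgT, e, sum_image, card_image_of_injective _ (mul_right_injective g)]
    intro a _ b _ h
    exact funext fun i => mul_left_cancel (congrFun h i)
  have hstage : ∀ j, meanPrice S (fun _ t u => P.meanCost (log (1 / q)) t u) j
      ≤ 10000 * log (sell n) * ((∑ g, L g (M' g).rich j) / N) := by
    intro j
    have e : meanPrice S (fun _ t u => P.meanCost (log (1 / q)) t u) j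
        = avgT S (fun t : Fin (2 ^ j) → Equiv.Perm (Fin n) =>
            avgT S (fun u : Fin (2 ^ j) → Equiv.Perm (Fin n) => P.meanCost (log (1 / q)) t u)) := by
      simp only [meanPrice, avgT, ← sum_div, div_div, sq]
    have e2 : avgT S (fun t : Fin (2 ^ j) → Equiv.Perm (Fin n) =>
          avgT S (fun u : Fin (2 ^ j) → Equiv.Perm (Fin n) => P.meanCost (log (1 / q)) t u))
        = (∑ g, avgT S (fun t : Fin (2 ^ j) → Equiv.Perm (Fin n) =>
            avgT S (fun u : Fin (2 ^ j) → Equiv.Perm (Fin n) =>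
              P.cost0 (log (1 / q)) (moveT g t) (moveT g u)))) / N := by
      simp only [meanCost, ← hN, div_eq_inv_mul, avgT_const_mul, avgT_sum]
    rw [e, e2, ← mul_div_assoc, mul_sum]
    refine div_le_div_of_nonneg_right (sum_le_sum fun g _ => ?_) hN0.le
    have e3 : avgT S (fun t : Fin (2 ^ j) → Equiv.Perm (Fin n) =>
        avgT S (fun u : Fin (2 ^ j) → Equiv.Perm (Fin n) =>
          P.cost0 (log (1 / q)) (moveT g t) (moveT g u)))
        = avgT (S.image (g * ·)) (fun t : Fin (2 ^ j) → Equiv.Perm (Fin n) =>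
            avgT (S.image (g * ·)) (fun u : Fin (2 ^ j) → Equiv.Perm (Fin n) =>
              P.cost0 (log (1 / q)) t u)) := by
      have h1 : ∀ t : Fin (2 ^ j) → Equiv.Perm (Fin n),
          avgT S (fun u : Fin (2 ^ j) → Equiv.Perm (Fin n) =>
            P.cost0 (log (1 / q)) (moveT g t) (moveT g u))
            = avgT (S.image (g * ·)) (fun u => P.cost0 (log (1 / q)) (moveT g t) u) :=
        fun t => hmove g fun u => P.cost0 (log (1 / q)) (moveT g t) u
      simp only [h1]
      exact hmove g fun t => avgT (S.image (g * ·)) fun u => P.cost0 (log (1 / q)) t u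
    rw [e3, hL, ← avgT_const_mul]
    refine avgT_mono _ fun t ht => ?_
    rw [← avgT_const_mul]
    exact avgT_mono _ fun u hu => P.cost0_le hn hq hlam0 (hs.translate g) (M' g)
      (fun i => hgood g _ (ht i)) (fun i => hgood g _ (hu i))
  calc ∑ j ∈ range l, meanPrice S (fun _ t u => P.meanCost (log (1 / q)) t u) j / 2 ^ (j + 1)
      ≤ ∑ j ∈ range l, 10000 * log (sell n) * ((∑ g, L g (M' g).rich j) / N) / 2 ^ (j + 1) :=
        sum_le_sum fun j _ => div_le_div_of_nonneg_right (hstage j) (by positivity)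
    _ = 10000 * log (sell n) / (2 * N) * ∑ g, ∑ j ∈ range l, L g (M' g).rich j / 2 ^ j := by
        rw [sum_comm, mul_sum]
        refine sum_congr rfl fun j _ => ?_
        rw [← sum_div, pow_succ]
        field_simp
    _ ≤ 10000 * log (sell n) / (2 * N) * ∑ g : Equiv.Perm (Fin n), 100000 * (P.T.card : ℝ) := by
        refine mul_le_mul_of_nonneg_left (sum_le_sum fun g _ => ?_) (by positivity)
        exact P.sum_load_le hn (log (1 / q)) _ (M' g).rich_mem (hne.image _) l
    _ = _ := by
        rw [sum_const, card_univ, nsmul_eq_mul, ← hN]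
        field_simp
        ring

end Pat

lemma card_ends_edge (y : Sym2 (Fin n)) : ((univ : Finset (Fin n)).filter (· ∈ y)).card ≤ 2 := by
  induction y using Sym2.ind with
  | _ a b =>
    refine le_trans (card_le_card (t := {a, b}) fun x hx => ?_) card_le_two
    simpa using hx

/-- Spreadness up to a power of `log log n`. -/
theorem spread_loglog : ∃ C : ℝ, 0 < C ∧ ∃ A : ℕ, ∀ n : ℕ, 2 ≤ n →
    ∀ (H : Finset (Sym2 (Fin n))) (q : ℝ), H ⊆ allEdges n → 0 < q → q ≤ 1 →
      Sparse (Equiv.Perm (Fin n)) H q → ∀ T : Finset (Sym2 (Fin n)),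
        X (Equiv.Perm (Fin n)) T H ≤ (C * log (log (n : ℝ) + 3) ^ A * q) ^ T.card := by
  obtain ⟨A, hA⟩ : ∃ A : ℕ, (500000000 : ℝ) ≤ A := exists_nat_ge _
  refine ⟨4 * exp 8 * 25 ^ A, by positivity, A, fun n hn H q hH hq hq1 hs T => ?_⟩
  set ell := log (log (n : ℝ) + 3) with hell
  have hell1 : 1 ≤ ell := ell_one n
  rcases T.eq_empty_or_nonempty with hT0 | hT0
  · subst hT0
    rw [X_empty, card_empty, pow_zero]
  by_cases hlam : log (1 / q) < 8
  · refine (X_le_one T H).trans (one_le_pow₀ ?_)
    have h1 : 1 ≤ exp 8 * q := by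
      rw [one_div, log_inv] at hlam
      have h : exp (-8) ≤ q := by rw [← exp_log hq, exp_le_exp]; linarith
      rw [exp_neg, inv_le_iff_one_le_mul₀ (exp_pos _)] at h
      linarith
    calc (1 : ℝ) = 1 * 1 * 1 * 1 := by ring
      _ ≤ 4 * 25 ^ A * ell ^ A * (exp 8 * q) :=
        mul_le_mul (mul_le_mul (mul_le_mul (by norm_num) (one_le_pow₀ (by norm_num)) zero_le_one
          (by norm_num)) (one_le_pow₀ hell1) zero_le_one (by positivity)) h1 zero_le_one
          (by positivity)
      _ = _ := by ring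
  obtain ⟨M⟩ := exists_marks hn hH hq hs (le_of_not_gt hlam)
  set G := (univ : Finset (Equiv.Perm (Fin n))).filter fun g => img g T ⊆ H with hG
  set code : Equiv.Perm (Fin n) → {y // y ∈ T} → Finset (Fin n) :=
    fun g y => univ.filter fun x => x ∈ y.1 ∧ M.rich (g • y.1) (g x) with hcode
  set codes := Fintype.piFinset fun y : {y // y ∈ T} =>
    ((univ : Finset (Fin n)).filter (· ∈ y.1)).powerset with hcodes
  have hTA : ∀ g ∈ G, T ⊆ allEdges n := by
    intro g hg y hy
    have := mem_allEdges.1 (hH ((mem_filter.1 hg).2 (mem_image_of_mem _ hy)))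
    rw [smul_sym2, Sym2.isDiag_map g.injective] at this
    exact mem_allEdges.2 this
  set bd : ℝ := (n.factorial : ℝ) * q ^ T.card
    * exp (2 + 500000000 * log (sell n) * T.card) with hbd
  have hcls : ∀ c ∈ codes, ((G.filter fun g => code g = c).card : ℝ) ≤ bd := by
    intro c _
    rcases (G.filter fun g => code g = c).eq_empty_or_nonempty with h0 | ⟨g₀, hg₀⟩
    · rw [h0]; simp only [card_empty, Nat.cast_zero]; positivity
    obtain ⟨hg₀, hc⟩ := mem_filter.1 hg₀
    let P : Pat n :=
      { T := T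
        mark := fun y => univ.filter fun x => x ∈ y ∧ M.rich (g₀ • y) (g₀ x)
        T_sub := hTA g₀ hg₀
        mark_sub := fun y _ x hx => (mem_filter.1 hx).2.1
        mark_ne := fun y hy => by
          obtain ⟨x, hx⟩ := M.rich_exists _ ((mem_filter.1 hg₀).2 (mem_image_of_mem _ hy))
          obtain ⟨z, rfl⟩ := g₀.surjective x
          exact ⟨z, mem_filter.2 ⟨mem_univ _, mem_smul_edge.1 (M.rich_mem _ _ hx), hx⟩⟩ }
    refine le_trans (Nat.cast_le.2 (card_le_card fun g hg => ?_))
      (P.good_copies_le hn hq hq1 hs M)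
    obtain ⟨hgG, hgc⟩ := mem_filter.1 hg
    refine mem_filter.2 ⟨mem_univ _, (mem_filter.1 hgG).2, fun z hz x hx => ?_⟩
    have h := congrFun (hgc.trans hc.symm) ⟨z, hz⟩
    have h2 : (x ∈ univ.filter fun a => a ∈ z ∧ M.rich (g • z) (g a))
        ↔ x ∈ univ.filter fun a => a ∈ z ∧ M.rich (g₀ • z) (g₀ a) := by
      simp only [hcode] at h
      rw [h]
    simp only [mem_filter, mem_univ, true_and] at h2
    show M.rich (g • z) (g x) ↔ x ∈ univ.filter fun a => a ∈ z ∧ M.rich (g₀ • z) (g₀ a)
    simp only [mem_filter, mem_univ, true_and]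
    exact ⟨fun hr => h2.1 ⟨hx, hr⟩, fun hr => (h2.2 hr).2⟩
  have hcount : (G.card : ℝ) ≤ 4 ^ T.card * bd := by
    have hmaps : ∀ g ∈ G, code g ∈ codes := fun g _ => by
      refine Fintype.mem_piFinset.2 fun y => mem_powerset.2 fun x hx => ?_
      exact mem_filter.2 ⟨mem_univ _, (mem_filter.1 hx).2.1⟩
    rw [card_eq_sum_card_fiberwise (f := code) (t := codes) (fun g hg => hmaps g hg)]
    push_cast
    refine (sum_le_card_nsmul _ _ _ hcls).trans ?_
    rw [nsmul_eq_mul]
    refine mul_le_mul_of_nonneg_right ?_ (by positivity)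
    have h4 : codes.card ≤ 4 ^ T.card := by
      rw [hcodes, Fintype.card_piFinset]
      refine (prod_le_pow_card _ _ 4 fun y _ => ?_).trans (le_of_eq ?_)
      · rw [card_powerset]
        exact (Nat.pow_le_pow_right (by norm_num) (card_ends_edge y.1)).trans (by norm_num)
      · rw [card_univ, Fintype.card_coe]
    exact_mod_cast h4
  rw [X, Fintype.card_perm, Fintype.card_fin, div_le_iff₀ (by positivity)]
  refine hcount.trans ?_
  have hs0 : 0 < sell n := by linarith [sell_low n]
  have he : exp (2 + 500000000 * log (sell n) * T.card)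
      ≤ (exp 8 * (25 * ell) ^ A) ^ T.card := by
    have h1 : exp (A * log (sell n)) ≤ (25 * ell) ^ A := by
      rw [exp_nat_mul, exp_log hs0]
      exact pow_le_pow_left₀ hs0.le (sell_le n) A
    have h2 : 500000000 * log (sell n) * T.card ≤ (T.card : ℝ) * (A * log (sell n)) := by
      have : 0 ≤ log (sell n) := log_nonneg (by linarith [sell_low n])
      calc _ ≤ (A : ℝ) * log (sell n) * T.card := by gcongr
        _ = _ := by ring
    have h3 : (1 : ℝ) ≤ T.card := by exact_mod_cast hT0.card_pos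
    calc _ ≤ exp ((T.card : ℝ) * (8 + A * log (sell n))) := exp_le_exp.2 (by linarith)
      _ = (exp 8 * exp (A * log (sell n))) ^ T.card := by rw [exp_nat_mul, exp_add]
      _ ≤ _ := pow_le_pow_left₀ (by positivity) (mul_le_mul_of_nonneg_left h1 (exp_pos _).le) _
  calc (4 : ℝ) ^ T.card * bd
      ≤ 4 ^ T.card * ((n.factorial : ℝ) * q ^ T.card * (exp 8 * (25 * ell) ^ A) ^ T.card) := by
        rw [hbd]; gcongr
    _ = _ := by simp only [mul_pow]; ring

/-- The thresholds of every graph, up to a power of `log log n`, in terms of the number of edges. -/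
theorem threshold_loglog : ∃ C : ℝ, 0 < C ∧ ∃ A : ℕ, ∀ n k : ℕ, 2 ≤ n → k ≤ n →
    ∀ H : SimpleGraph (Fin k), H ≠ ⊥ →
      pEFrac n H ≤ C * pE n H * log (log (n : ℝ) + 3) ^ A ∧
      pc n H ≤ C * pE n H * log ((H.edgeSet.ncard : ℝ) + 1) * log (log (n : ℝ) + 3) ^ A ∧
      pc n H ≤ C * pE n H * log (n : ℝ) * log (log (n : ℝ) + 3) ^ A ∧
      (log ((H.edgeSet.ncard : ℝ) + 1) * log (log (n : ℝ) + 3) ^ A ≤ log (n : ℝ) →
        pc n H ≤ C * pE n H * log (n : ℝ)) := by
  obtain ⟨C, hC, A, hA⟩ := spread_loglog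
  refine ⟨1536 * C, by positivity, A, fun n k hn hk H hH => ?_⟩
  have hE := one_le_edges hk hH
  set S : Set ℝ := {p : ℝ | ∃ h : p ∈ Set.Icc (0 : ℝ) 1, ∀ F : H.Subgraph,
    1 / 2 ≤ ∫ G, (G.copyCount F.coe : ℝ) ∂SimpleGraph.binomialRandom (Fin n) ⟨p, h⟩} with hS
  have hne : S.Nonempty := ⟨1, ⟨zero_le_one, le_rfl⟩, fun F => by
    have := mean_one_pos hk F
    rw [show (⟨1, _⟩ : unitInterval) = 1 from rfl]
    linarith⟩
  have hcard : (edgesIn hk H).card = H.edgeSet.ncard := by
    rw [card_edgesIn, ← SimpleGraph.coe_edgeFinset, Set.ncard_coe_finset]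
  have hl0 := log_E_ge hE
  have hl2 := log_edges_le hn hk H
  rw [hcard] at hl0 hl2
  set le := log ((H.edgeSet.ncard : ℝ) + 1) with hle
  set L := log (n : ℝ) with hLdef
  have hL : 0 < L := log_n_pos hn
  set ell := log (L + 3) with hell
  have hell1 : 1 ≤ ell := ell_one n
  set M := C * ell ^ A with hM
  have hM0 : 0 < M := by positivity
  have hle0 : 0 < le := by linarith
  have key : ∀ p ∈ S, pEFrac n H ≤ M * p ∧ pc n H ≤ 768 * le * M * p := by
    intro p hpS
    obtain ⟨hp, hpF⟩ := id hpS
    have hs := sparse_of_mean hk H ⟨p, hp⟩ hpF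
    have hq := admissible_pos hk hH hp hs
    have hsp := fun T => hA n hn _ p (edgesIn_subset hk H) hq hp.2 hs T
    have hMp : 0 < M * p := mul_pos hM0 hq
    refine ⟨frac_le_of_spread hk H hMp.le hsp,
      (pc_le_of_spread hk H hE hMp hsp).trans_eq ?_⟩
    rw [hcard]
    ring
  have approx : ∀ c x : ℝ, 0 < c → (∀ p ∈ S, x ≤ c * p) → x ≤ c * pE n H := fun c x hc hx => by
    rw [← div_le_iff₀' hc]
    exact le_csInf hne fun p hp => (div_le_iff₀' hc).2 (hx p hp)
  have f1 := approx M _ hM0 fun p hp => (key p hp).1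
  have f2 := approx (768 * le * M) _ (by positivity) fun p hp => (key p hp).2
  have hp0 : 0 ≤ pE n H := Real.sInf_nonneg fun p hp => hp.1.1
  have hMp : 0 ≤ C * pE n H := mul_nonneg hC.le hp0
  have f3 : pc n H ≤ 768 * (C * pE n H) * (le * ell ^ A) := le_of_le_of_eq f2 (by rw [hM]; ring)
  refine ⟨?_, ?_, ?_, fun h => ?_⟩
  · rw [show 1536 * C * pE n H * ell ^ A = 1536 * (M * pE n H) by rw [hM]; ring]
    have : 0 ≤ M * pE n H := by positivity
    linarith
  · refine f3.trans (le_trans (mul_le_mul_of_nonneg_right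
      (show 768 * (C * pE n H) ≤ 1536 * (C * pE n H) by linarith) (by positivity)) (le_of_eq ?_))
    ring
  · refine f3.trans ?_
    calc 768 * (C * pE n H) * (le * ell ^ A)
        ≤ 768 * (C * pE n H) * (2 * L * ell ^ A) := by gcongr
      _ = _ := by ring
  · refine f3.trans ?_
    calc 768 * (C * pE n H) * (le * ell ^ A)
        ≤ 768 * (C * pE n H) * L := by gcongr
      _ ≤ _ := by nlinarith [mul_nonneg hMp hL.le]

end Vale.Agent.P064
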