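import Vale.Agent.P064.Neighbour

/-!
# Extensions by a rigid set of vertices

If the image of any one vertex of `Z` determines the images of all of `Z`, many extensions contain
many disjoint ones, and the union of these has the permutations of the blocks as automorphisms.
-/

open Finset Real
open scoped Classical

namespace Vale.Agent.P064

variable {n : ℕ}

/-- A factorial below `2 n^r B^p` bounds `p`. -/
lemma le_of_factorial {p r : ℕ} {B : ℝ} (hn : 1 ≤ n) (hB : 0 < B)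
    (h : (p.factorial : ℝ) ≤ 2 * (n : ℝ) ^ r * B ^ p) :
    (p : ℝ) ≤ exp 2 * B + r * log (n : ℝ) + 1 := by
  have hr : 0 ≤ (r : ℝ) * log (n : ℝ) := mul_nonneg (Nat.cast_nonneg _) (log_natCast_nonneg n)
  by_cases hbig : (p : ℝ) ≤ exp 2 * B
  · linarith
  have h4 : (p : ℝ) ^ p ≤ exp p * (2 * (n : ℝ) ^ r * B ^ p) := by
    have := Real.pow_div_factorial_le_exp _ (Nat.cast_nonneg (α := ℝ) p) p
    rw [div_le_iff₀ (by positivity)] at this
    exact this.trans (mul_le_mul_of_nonneg_left h (exp_pos _).le)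
  have h5 : exp p * exp p * B ^ p ≤ (p : ℝ) ^ p := by
    rw [← exp_add, show (p : ℝ) + p = p * 2 by ring, exp_nat_mul, ← mul_pow]
    exact pow_le_pow_left₀ (by positivity) (le_of_not_ge hbig) _
  have h6 : exp (p : ℝ) ≤ 2 * (n : ℝ) ^ r := by
    refine le_of_mul_le_mul_left ?_ (show 0 < exp (p : ℝ) * B ^ p by positivity)
    calc _ = exp (p : ℝ) * exp p * B ^ p := by ring
      _ ≤ _ := h5.trans h4
      _ = _ := by ring
  have hn0 : (0 : ℝ) < n := Nat.cast_pos.2 hn
  have h7 : (p : ℝ) ≤ log (2 * (n : ℝ) ^ r) := by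
    rw [← log_exp (p : ℝ)]
    exact log_le_log (exp_pos _) h6
  rw [log_mul (by norm_num) (by positivity), log_pow] at h7
  have : 0 ≤ exp 2 * B := by positivity
  linarith [log_two_lt_d9]

/-- Permutations of disjoint blocks. -/
lemma stab_blocks {H : Finset (Sym2 (Fin n))} {q : ℝ} (hs : Sparse (Equiv.Perm (Fin n)) H q)
    {Z R : Finset (Fin n)} {TZ : Finset (Sym2 (Fin n))}
    (hTZ : ∀ e ∈ TZ, (∀ x ∈ e, x ∈ Z ∪ R) ∧ ∃ x ∈ e, x ∈ Z) (hd : Disjoint Z R)
    (hZ : Z.Nonempty) {Q : Finset (Equiv.Perm (Fin n))} (hS : ∀ g ∈ Q, img g TZ ⊆ H)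
    (hR : ∀ g ∈ Q, ∀ g' ∈ Q, ∀ x ∈ R, g x = g' x)
    (hQ : ∀ g ∈ Q, ∀ g' ∈ Q, g ≠ g' → ∀ x ∈ Z, ∀ x' ∈ Z, g x ≠ g' x') :
    R.card + Q.card * Z.card ≤ n ∧
      (Q.card.factorial : ℝ) * (n - (R.card + Q.card * Z.card)).factorial
        ≤ 2 * q ^ (Q.card * TZ.card) * n.factorial := by
  rcases Q.eq_empty_or_nonempty with h0 | ⟨g₀, hg₀⟩
  · subst h0
    have hR' : R.card ≤ n := by simpa using card_le_univ R
    refine ⟨by simpa using hR', ?_⟩
    simp only [card_empty, Nat.factorial_zero, Nat.cast_one, one_mul, zero_mul, add_zero, pow_zero,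
      mul_one]
    have : ((n - R.card).factorial : ℝ) ≤ n.factorial :=
      Nat.cast_le.2 (Nat.factorial_le (Nat.sub_le _ _))
    have : (0 : ℝ) ≤ n.factorial := Nat.cast_nonneg _
    linarith
  let j : {g // g ∈ Q} × {x // x ∈ Z} → Fin n := fun i => i.1.1 i.2.1
  have hj : Function.Injective j := by
    rintro ⟨g, x⟩ ⟨g', x'⟩ (e : g.1 x.1 = g'.1 x'.1)
    by_cases hg : g = g'
    · subst hg
      exact Prod.ext rfl (Subtype.ext (g.1.injective e))
    · exact absurd e (hQ _ g.2 _ g'.2 (fun h => hg (Subtype.ext h)) _ x.2 _ x'.2)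
  set W := univ.image j with hW
  set R' := R.image g₀ with hR'
  have hdisj : Disjoint R' W := by
    rw [disjoint_left]
    intro v hv hvW
    obtain ⟨x, hx, rfl⟩ := mem_image.1 hv
    obtain ⟨⟨g, z⟩, -, e⟩ := mem_image.1 hvW
    change g.1 z.1 = g₀ x at e
    rw [hR g₀ hg₀ g.1 g.2 x hx] at e
    exact disjoint_left.1 hd z.2 (g.1.injective e ▸ hx)
  have hWc : W.card = Q.card * Z.card := by
    rw [hW, card_image_of_injective _ hj, card_univ, Fintype.card_prod, Fintype.card_coe,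
      Fintype.card_coe]
  have hR'c : R'.card = R.card := card_image_of_injective _ g₀.injective
  refine ⟨?_, ?_⟩
  · rw [← hWc, ← hR'c, ← card_union_of_disjoint hdisj]
    simpa using card_le_univ (R' ∪ W)
  set T := Q.biUnion fun g => img g TZ with hT
  have hTH : T ⊆ H := biUnion_subset.2 hS
  have hTc : T.card = Q.card * TZ.card := by
    rw [hT, card_biUnion, sum_congr rfl fun g _ => card_img g TZ, sum_const, smul_eq_mul]
    intro g hg g' hg' hne
    simp only [Function.onFun, disjoint_left]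
    intro y hy hy'
    obtain ⟨e, he, rfl⟩ := mem_image.1 hy
    obtain ⟨e', he', h⟩ := mem_image.1 hy'
    obtain ⟨x, hxe, hxZ⟩ := (hTZ e he).2
    rw [smul_sym2, smul_sym2] at h
    have hgx : g x ∈ Sym2.map g' e' := h ▸ Sym2.mem_map.2 ⟨x, hxe, rfl⟩
    obtain ⟨x', hxe', hx'⟩ := Sym2.mem_map.1 hgx
    rcases mem_union.1 ((hTZ e' he').1 x' hxe') with h' | h'
    · exact hQ g' hg' g hg hne.symm x' h' x hxZ hx'
    · rw [hR g' hg' g hg x' h'] at hx'
      exact disjoint_left.1 hd hxZ (g.injective hx' ▸ h')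
  have hstab : Q.card.factorial * (n - (R.card + Q.card * Z.card)).factorial
      ≤ (univ.filter fun (ρ : Equiv.Perm (Fin n)) => img ρ T ⊆ T).card := by
    let e : {g // g ∈ Q} × {x // x ∈ Z} ≃ {w // w ∈ W} :=
      Equiv.ofBijective (fun i => ⟨j i, mem_image_of_mem _ (mem_univ i)⟩)
        ⟨fun a b h => hj (congrArg Subtype.val h), fun w => by
          obtain ⟨i, -, hi⟩ := mem_image.1 w.2
          exact ⟨i, Subtype.ext hi⟩⟩
    let blk : Equiv.Perm {g // g ∈ Q} → Equiv.Perm {w // w ∈ W} :=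
      fun σ => e.symm.trans ((σ.prodCongr (Equiv.refl _)).trans e)
    have hcard : (univ : Finset (Equiv.Perm {g // g ∈ Q})).card = Q.card.factorial := by
      rw [card_univ, Fintype.card_perm, Fintype.card_coe]
    rw [← hWc, ← hR'c, ← card_union_of_disjoint hdisj, ← card_fix (R' ∪ W), ← hcard,
      ← card_product]
    refine card_le_card_of_injOn
      (fun x : Equiv.Perm {g // g ∈ Q} × Equiv.Perm (Fin n) =>
        Equiv.Perm.ofSubtype (blk x.1) * x.2) ?_ ?_
    · rintro ⟨σ, b⟩ hab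
      simp only [mem_coe, mem_product, mem_univ, true_and, mem_filter] at hab ⊢
      intro y hy
      obtain ⟨z, hz, rfl⟩ := mem_image.1 hy
      obtain ⟨g, hg, hz⟩ := mem_biUnion.1 hz
      obtain ⟨t, ht, rfl⟩ := mem_image.1 hz
      refine mem_biUnion.2 ⟨(σ ⟨g, hg⟩).1, (σ ⟨g, hg⟩).2, mem_image.2 ⟨t, ht, ?_⟩⟩
      rw [smul_sym2, smul_sym2, smul_sym2, Sym2.map_map]
      refine Sym2.map_congr fun x hx => ?_
      simp only [Function.comp_apply, Equiv.Perm.mul_apply]
      rcases mem_union.1 ((hTZ t ht).1 x hx) with h | h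
      · have hw : j (⟨g, hg⟩, ⟨x, h⟩) ∈ W := mem_image_of_mem _ (mem_univ _)
        rw [hab (g x) (mem_union_right _ hw)]
        have : Equiv.Perm.ofSubtype (blk σ) (g x)
            = (blk σ (e (⟨g, hg⟩, ⟨x, h⟩)) : {w // w ∈ W}).1 :=
          Equiv.Perm.ofSubtype_apply_of_mem (blk σ) hw
        rw [this]
        simp only [blk, Equiv.trans_apply, Equiv.symm_apply_apply, Equiv.prodCongr_apply, Prod.map]
        rfl
      · have hv : g x ∈ R' := mem_image.2 ⟨x, h, hR g₀ hg₀ g hg x h⟩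
        rw [hab (g x) (mem_union_left _ hv),
          Equiv.Perm.ofSubtype_apply_of_not_mem (blk σ) (disjoint_left.1 hdisj hv)]
        exact hR _ (σ ⟨g, hg⟩).2 g hg x h
    · rintro ⟨σ, b⟩ hab ⟨σ', b'⟩ hab' h
      simp only [mem_coe, mem_product, mem_univ, true_and, mem_filter] at hab hab'
      obtain ⟨x₀, hx₀⟩ := hZ
      have hσ : σ = σ' := by
        refine Equiv.ext fun g => ?_
        set w := e (g, ⟨x₀, hx₀⟩) with hw
        have := congrArg (fun ρ : Equiv.Perm (Fin n) => ρ w.1) h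
        simp only [Equiv.Perm.mul_apply, hab w.1 (mem_union_right _ w.2),
          hab' w.1 (mem_union_right _ w.2), Equiv.Perm.ofSubtype_apply_of_mem _ w.2] at this
        have h2 : blk σ w = blk σ' w := Subtype.ext this
        simp only [blk, hw, Equiv.trans_apply, Equiv.symm_apply_apply, Equiv.prodCongr_apply,
          Prod.map, EmbeddingLike.apply_eq_iff_eq] at h2
        exact congrArg Prod.fst h2
      subst hσ
      exact Prod.ext rfl (mul_left_cancel h)
  have h1 := hs T hTH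
  rw [X, div_le_iff₀ card_pos', Fintype.card_perm, Fintype.card_fin, hTc] at h1
  exact le_trans (by exact_mod_cast hstab) h1

/-- The number of extensions by a rigid set of vertices. -/
theorem ext_le {H : Finset (Sym2 (Fin n))} {q : ℝ} (hq : 0 < q)
    (hs : Sparse (Equiv.Perm (Fin n)) H q) {Z R : Finset (Fin n)} {TZ : Finset (Sym2 (Fin n))}
    (hTZ : ∀ e ∈ TZ, (∀ x ∈ e, x ∈ Z ∪ R) ∧ ∃ x ∈ e, x ∈ Z) (hd : Disjoint Z R) (hZ : Z.Nonempty)
    {S : Finset (Equiv.Perm (Fin n))} (hS : ∀ g ∈ S, img g TZ ⊆ H)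
    (hR : ∀ g ∈ S, ∀ g' ∈ S, ∀ x ∈ R, g x = g' x)
    (hrig : ∀ g ∈ S, ∀ g' ∈ S, ∀ z ∈ Z, g z = g' z → ∀ x ∈ Z, g x = g' x) :
    ((S.image fun g => fun x : {x // x ∈ Z} => g x.1).card : ℝ)
      ≤ (Z.card : ℝ) ^ 2 * (exp 2 * ((n : ℝ) ^ Z.card * q ^ TZ.card) + R.card * log (n : ℝ) + 1) := by
  let apart : Finset (Equiv.Perm (Fin n)) → Prop := fun Q =>
    ∀ g ∈ Q, ∀ g' ∈ Q, g ≠ g' → ∀ x ∈ Z, ∀ x' ∈ Z, g x ≠ g' x'
  obtain ⟨Q, hQ, hmax⟩ := exists_max_image (S.powerset.filter apart) card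
    ⟨∅, mem_filter.2 ⟨empty_mem_powerset _, fun g hg => absurd hg (notMem_empty g)⟩⟩
  obtain ⟨hQS, hQa⟩ := mem_filter.1 hQ
  rw [mem_powerset] at hQS
  have hmeet : ∀ g ∈ S, ∃ g₀ ∈ Q, ∃ x ∈ Z, ∃ x' ∈ Z, g x = g₀ x' := by
    intro g hg
    by_contra hc
    simp only [not_exists, not_and] at hc
    obtain ⟨z, hz⟩ := hZ
    have hgQ : g ∉ Q := fun h => hc g h z hz z hz rfl
    have h2 : insert g Q ∈ S.powerset.filter apart := by
      refine mem_filter.2 ⟨mem_powerset.2 (insert_subset hg hQS), ?_⟩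
      intro g₁ m₁ g₂ m₂ hne x hx x' hx'
      rcases mem_insert.1 m₁ with e₁ | k₁ <;> rcases mem_insert.1 m₂ with e₂ | k₂
      · exact absurd (e₁.trans e₂.symm) hne
      · rw [e₁]; exact hc g₂ k₂ x hx x' hx'
      · rw [e₂]; exact Ne.symm (hc g₁ k₁ x' hx' x hx)
      · exact hQa g₁ k₁ g₂ k₂ hne x hx x' hx'
    have := hmax _ h2
    rw [card_insert_of_notMem hgQ] at this
    omega
  set res : Equiv.Perm (Fin n) → {x // x ∈ Z} → Fin n := fun g x => g x.1 with hres
  have hle : (S.image res).card ≤ Q.card * (Z.card * Z.card) := by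
    refine (card_le_card (t := (Q ×ˢ (Z ×ˢ Z)).biUnion fun i =>
      (S.filter fun g => g i.2.1 = i.1 i.2.2).image res) fun f hf => ?_).trans ?_
    · obtain ⟨g, hg, rfl⟩ := mem_image.1 hf
      obtain ⟨g₀, h₀, x, hx, x', hx', e⟩ := hmeet g hg
      exact mem_biUnion.2 ⟨(g₀, x, x'), mem_product.2 ⟨h₀, mem_product.2 ⟨hx, hx'⟩⟩,
        mem_image_of_mem _ (mem_filter.2 ⟨hg, e⟩)⟩
    · refine (card_biUnion_le_card_mul _ _ 1 fun i hi => card_le_one.2 ?_).trans (le_of_eq ?_)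
      · intro f hf f' hf'
        obtain ⟨g, hg, rfl⟩ := mem_image.1 hf
        obtain ⟨g', hg', rfl⟩ := mem_image.1 hf'
        obtain ⟨hgS, h1⟩ := mem_filter.1 hg
        obtain ⟨hgS', h2⟩ := mem_filter.1 hg'
        exact funext fun y => hrig g hgS g' hgS' _ (mem_product.1 (mem_product.1 hi).2).1
          (h1.trans h2.symm) y.1 y.2
      · rw [card_product, card_product, mul_one]
  rcases Nat.eq_zero_or_pos n with hn | hn
  · subst hn
    obtain ⟨z, -⟩ := hZ
    exact z.elim0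
  have hn0 : (0 : ℝ) < n := Nat.cast_pos.2 hn
  obtain ⟨hsize, hfac⟩ := stab_blocks hs hTZ hd hZ (fun g hg => hS g (hQS hg))
    (fun g hg g' hg' => hR g (hQS hg) g' (hQS hg')) hQa
  set p := Q.card
  set B : ℝ := (n : ℝ) ^ Z.card * q ^ TZ.card with hB
  have hB0 : 0 < B := by positivity
  have h3 : (p.factorial : ℝ) ≤ 2 * (n : ℝ) ^ R.card * B ^ p := by
    refine le_of_mul_le_mul_right (hfac.trans ?_)
      (show (0 : ℝ) < (n - (R.card + p * Z.card)).factorial by positivity)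
    refine le_trans (mul_le_mul_of_nonneg_left (factorial_le_pow hsize) (by positivity))
      (le_of_eq ?_)
    rw [hB, mul_pow, ← pow_mul, ← pow_mul, pow_add, mul_comm Z.card, mul_comm TZ.card]
    ring
  calc ((S.image res).card : ℝ) ≤ (Z.card : ℝ) ^ 2 * p := by
        refine le_of_le_of_eq (Nat.cast_le.2 hle) ?_
        push_cast
        ring
    _ ≤ _ := mul_le_mul_of_nonneg_left (le_of_factorial hn hB0 h3) (by positivity)

end Vale.Agent.P064
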