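import Vale.Agent.P064.Parts

/-!
# Codes of one side

A code records what one side knows of a common part.
-/

open Finset Real
open scoped Classical

namespace Vale.Agent.P064

variable {n : ℕ}

/-- What one side knows of a common part. -/
structure SCode (n : ℕ) where
  mid : Finset (Fin n)
  mI : Finset (Sym2 (Fin n))
  G : Finset (Fin n × Sym2 (Fin n))
  Z : Finset (Fin n)
  K : Piece n
  Lp : Finset (Piece n)

namespace SCode

/-- The ends of the selected edges. -/
noncomputable def sel (c : SCode n) : Finset (Fin n) := ends (c.mI ∪ c.G.image Prod.snd)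

/-- The vertices described. -/
noncomputable def verts (c : SCode n) : Finset (Fin n) :=
  c.mid ∪ c.K.1 ∪ c.Lp.biUnion Prod.fst

/-- The edges described. -/
noncomputable def kept (c : SCode n) : Finset (Sym2 (Fin n)) :=
  (c.mI ∪ c.G.image Prod.snd ∪ c.K.2 ∪ c.Lp.biUnion Prod.snd).filter fun y =>
    ∀ v ∈ y, v ∈ c.verts

/-- A moved code. -/
noncomputable def move (g : Equiv.Perm (Fin n)) (c : SCode n) : SCode n :=
  ⟨c.mid.image g, img g c.mI, c.G.image (fun x => (g x.1, g • x.2)), c.Z.image g,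
    movePiece g c.K, c.Lp.image (movePiece g)⟩

end SCode

namespace Pat

variable (P : Pat n) {k : ℕ}

/-- A possible code of a side. -/
structure CodeValid (s : Fin k → Equiv.Perm (Fin n)) (c : SCode n) : Prop where
  mid_sub : c.mid ⊆ P.metV s
  mI_sub : c.mI ⊆ P.metE s
  G_sub : ∀ x ∈ c.G, x.1 ∈ c.mid ∧ x.2 ∈ P.richAt s x.1
  Z_sub : c.Z ⊆ c.sel
  K_span : c.Z ⊆ c.K.1 ∧ c.K.2 ⊆ inc (P.edges s) c.K.1 ∧ Linked c.K.1 c.K.2 c.Z
  Lp_sub : c.Lp ⊆ units (P.edges s)

/-- The weight of the marked edges chosen at one vertex. -/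
noncomputable def markW (c g : ℕ) : ℝ := exp (-(2 * (g : ℝ) + 1)) / (c.choose g : ℕ)

/-- The weight of the pieces chosen in one class. -/
noncomputable def looseW (U : Finset (Sym2 (Fin n))) (κ : Finset (Piece n))
    (A : Finset (Piece n)) : ℝ :=
  if A = ∅ then 1 else exp (-(2 * (A.card : ℝ) + 3 * sell n
      + ((A.card : ℝ) - 1) * log (classWgt U κ) - log (A.card.factorial : ℝ)))
    * ∏ p ∈ A, wgt U p.1

/-- The weight of a code. -/
noncomputable def codeW (s : Fin k → Equiv.Perm (Fin n)) (c : SCode n) : ℝ :=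
  exp (-((P.metV s).card + (P.metE s).card + (ends (P.edges s)).card / log (n : ℝ) ^ 3))
    * (∏ x ∈ c.mid, markW (P.richAt s x).card (c.G.filter (·.1 = x)).card)
    * (2⁻¹ : ℝ) ^ c.sel.card * wgt (P.edges s) c.K.1
    * ∏ κ ∈ c.Lp.image pieceClass, looseW (P.edges s) κ (c.Lp.filter (pieceClass · = κ))

end Pat

lemma markW_nonneg (c g : ℕ) : 0 ≤ Pat.markW c g := by unfold Pat.markW; positivity

lemma wgt_pos (U : Finset (Sym2 (Fin n))) (K : Finset (Fin n)) : 0 < wgt U K := by
  unfold wgt; positivity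

lemma looseW_nonneg (U : Finset (Sym2 (Fin n))) (κ A : Finset (Piece n)) :
    0 ≤ Pat.looseW U κ A := by
  unfold Pat.looseW
  split_ifs
  · exact zero_le_one
  · exact mul_nonneg (exp_pos _).le (prod_nonneg fun p _ => (wgt_pos U _).le)

lemma wgt_le_classWgt {U : Finset (Sym2 (Fin n))} {p : Piece n} (hp : p ∈ units U) :
    wgt U p.1 ≤ classWgt U (pieceClass p) :=
  single_le_sum (f := fun p : Piece n => wgt U p.1) (fun _ _ => (wgt_pos U _).le)
    (mem_filter.2 ⟨hp, self_mem_pieceClass p⟩)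

end Vale.Agent.P064
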