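import Vale.Agent.P064.Code

/-!
# The code of a common part seen from one side
-/

open Finset Real
open scoped Classical

namespace Vale.Agent.P064

variable {n : ℕ}

namespace Pat

variable (P : Pat n) {k : ℕ} (lam : ℝ) (t u : Fin k → Equiv.Perm (Fin n))

/-- The union of the seeded pieces. -/
noncomputable def seedPiece : Piece n :=
  ((P.seededParts t u).biUnion Prod.fst, (P.seededParts t u).biUnion Prod.snd)

/-- The code of the common part on the side `s`. -/
noncomputable def codeOf (s : Fin k → Equiv.Perm (Fin n)) : SCode n where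
  mid := P.mid t u
  mI := P.common t u ∩ P.metE s
  G := (P.mid t u).biUnion fun x => (P.richAt s x ∩ P.common t u).image fun y => (x, y)
  Z := ends (P.common t u ∩ P.metE s ∪
      ((P.mid t u).biUnion fun x => (P.richAt s x ∩ P.common t u).image fun y => (x, y)).image
        Prod.snd) ∩ (P.seedPiece t u).1
  K := P.seedPiece t u
  Lp := P.looseParts lam t u

variable {P lam t u}

lemma mem_codeOf_G {s : Fin k → Equiv.Perm (Fin n)} {x : Fin n × Sym2 (Fin n)} :
    x ∈ (P.codeOf lam t u s).G ↔
      x.1 ∈ P.mid t u ∧ x.2 ∈ P.richAt s x.1 ∧ x.2 ∈ P.common t u := by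
  obtain ⟨a, y⟩ := x
  simp [codeOf, mem_biUnion, mem_inter, and_assoc]

lemma codeOf_sel_subset (s : Fin k → Equiv.Perm (Fin n)) :
    (P.codeOf lam t u s).sel ⊆ ends (P.common t u) := by
  intro v hv
  obtain ⟨y, hy, hvy⟩ := (mem_filter.1 hv).2
  refine common_end ?_ hvy
  rcases mem_union.1 hy with h | h
  · exact (mem_inter.1 h).1
  · obtain ⟨x, hx, rfl⟩ := mem_image.1 h
    exact (mem_codeOf_G.1 hx).2.2

/-- The code of a common part is possible. -/
lemma codeOf_valid {s : Fin k → Equiv.Perm (Fin n)} (hsub : P.common t u ⊆ P.edges s)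
    (hmid : P.mid t u ⊆ P.metV s)
    (hseed : ∀ p ∈ P.parts t u, P.Seeded t u p →
      ∃ y ∈ p.2, ∃ x ∈ att p, x ∈ y ∧ P.SeedOK s y x) :
    P.CodeValid s (P.codeOf lam t u s) where
  mid_sub := hmid
  mI_sub := inter_subset_right
  G_sub x hx := ⟨(mem_codeOf_G.1 hx).1, (mem_codeOf_G.1 hx).2.1⟩
  Z_sub := inter_subset_left
  K_span := by
    refine ⟨inter_subset_right, ?_, ?_⟩
    · intro y hy
      obtain ⟨p, hp, hyp⟩ := mem_biUnion.1 hy
      rw [part_snd (mem_filter.1 hp).1] at hyp
      obtain ⟨hyc, w, hw, hwy⟩ := mem_filter.1 hyp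
      exact mem_filter.2 ⟨hsub hyc, w, mem_biUnion.2 ⟨p, hp, hw⟩, hwy⟩
    · intro Q hQ hZ hne
      obtain ⟨v, hv, hvQ⟩ := not_subset.1 fun h => hne (Subset.antisymm hQ h)
      obtain ⟨p, hp, hvp⟩ := mem_biUnion.1 hv
      obtain ⟨hpp, hps⟩ := mem_filter.1 hp
      -- a seed of this piece lies in `Q`
      obtain ⟨y, hy, x, hx, hxy, hok⟩ := hseed p hpp hps
      have hy' := hy
      rw [part_snd hpp] at hy'
      obtain ⟨hyc, w, hw, hwy⟩ := mem_filter.1 hy'
      have hxm : x ∈ P.mid t u := att_subset_mid hpp hx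
      have hwsel : w ∈ (P.codeOf lam t u s).sel := by
        refine mem_filter.2 ⟨mem_univ _, y, ?_, hwy⟩
        by_cases hm : 2 ≤ P.copE s y
        · exact mem_union_left _ (mem_inter.2 ⟨hyc, mem_filter.2 ⟨hsub hyc, hm⟩⟩)
        · refine mem_union_right _ (mem_image.2 ⟨(x, y), mem_codeOf_G.2 ⟨hxm, ?_, hyc⟩, rfl⟩)
          exact mem_filter.2 ⟨hsub hyc, hxy, Nat.lt_of_not_ge hm, hok.resolve_left hm⟩
      have hwQ : w ∈ Q := hZ (mem_inter.2 ⟨hwsel, mem_biUnion.2 ⟨p, hp, hw⟩⟩)
      obtain ⟨a, ha, b, hb, hbQ, hab⟩ := part_linked hpp hw (Q ∩ p.1) inter_subset_right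
        (singleton_subset_iff.2 (mem_inter.2 ⟨hwQ, hw⟩))
        (fun e => hvQ (mem_inter.1 (show v ∈ Q ∩ p.1 by rw [e]; exact hvp)).1)
      exact ⟨a, (mem_inter.1 ha).1, b, mem_biUnion.2 ⟨p, hp, hb⟩,
        fun h => hbQ (mem_inter.2 ⟨h, hb⟩), mem_biUnion.2 ⟨p, hp, hab⟩⟩
  Lp_sub p hp := part_mem_units (mem_filter.1 hp).1 hsub

lemma looseClass_filter {p : Piece n} {κ : Finset (Piece n)}
    (hκ : κ ∈ P.looseClasses lam t u) (heq : ∀ a b : Piece n, b ∈ pieceClass a →
      pieceClass b = pieceClass a) : p ∈ κ ↔ pieceClass p = κ := by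
  obtain ⟨r, -, rfl⟩ := mem_image.1 hκ
  exact ⟨fun h => heq r p h, fun h => h ▸ self_mem_pieceClass p⟩

/-- The price of a side pays for the weight of its code. -/
lemma codeW_codeOf {s : Fin k → Equiv.Perm (Fin n)}
    (heq : ∀ a b : Piece n, b ∈ pieceClass a → pieceClass b = pieceClass a) :
    exp (-P.sideCost lam t u s) ≤ P.codeW s (P.codeOf lam t u s) := by
  set c := P.codeOf lam t u s with hc
  have hG : ∀ x ∈ P.mid t u, (c.G.filter (·.1 = x)).card = (P.richAt s x ∩ P.common t u).card := by
    intro x hx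
    have e : c.G.filter (·.1 = x) = (P.richAt s x ∩ P.common t u).image fun y => (x, y) := by
      ext ⟨a, y⟩
      simp only [mem_filter, mem_image, mem_inter, Prod.mk.injEq, hc, mem_codeOf_G]
      constructor
      · rintro ⟨⟨-, h2, h3⟩, rfl⟩
        exact ⟨y, ⟨h2, h3⟩, rfl, rfl⟩
      · rintro ⟨z, ⟨h2, h3⟩, rfl, rfl⟩
        exact ⟨⟨hx, h2, h3⟩, rfl⟩
    rw [e, card_image_of_injective _ fun a b h => (Prod.mk.injEq .. ▸ h).2]
  have hmark : exp (-∑ x ∈ P.mid t u, P.markCost t u s x)
      = ∏ x ∈ c.mid, markW (P.richAt s x).card (c.G.filter (·.1 = x)).card := by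
    rw [← sum_neg_distrib, exp_sum]
    refine prod_congr rfl fun x hx => ?_
    rw [markCost, markW, hG x hx, neg_add, exp_add, div_eq_mul_inv, exp_neg (log _), exp_log]
    exact Nat.cast_pos.2 (Nat.choose_pos (card_le_card inter_subset_left))
  have hseeded : exp (∑ p ∈ P.seededParts t u, log (wgt (P.edges s) p.1))
      = wgt (P.edges s) c.K.1 := by
    rw [exp_sum]
    show _ = wgt (P.edges s) ((P.seededParts t u).biUnion Prod.fst)
    have e : ∀ p : Piece n, exp (log (wgt (P.edges s) p.1)) = wgt (P.edges s) p.1 :=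
      fun p => exp_log (wgt_pos _ _)
    simp only [e]
    have hdj : ((P.seededParts t u : Finset (Piece n)) : Set (Piece n)).PairwiseDisjoint
        Prod.fst :=
      parts_disjoint.subset (coe_subset.2 (filter_subset _ _))
    rw [wgt, sum_biUnion hdj, ← prod_pow_eq_pow_sum]
    rfl
  have hloose : exp (-∑ κ ∈ P.looseClasses lam t u, P.looseCost lam t u s κ)
      = ∏ κ ∈ c.Lp.image pieceClass,
          looseW (P.edges s) κ (c.Lp.filter (pieceClass · = κ)) := by
    rw [← sum_neg_distrib, exp_sum]
    refine prod_congr rfl fun κ hκ => ?_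
    have e : (P.looseParts lam t u).filter (pieceClass · = κ)
        = (P.looseParts lam t u).filter (· ∈ κ) :=
      filter_congr fun p _ => (looseClass_filter hκ heq).symm
    have hne : ((P.looseParts lam t u).filter (· ∈ κ)) ≠ ∅ := by
      obtain ⟨r, hr, rfl⟩ := mem_image.1 hκ
      exact (nonempty_iff_ne_empty.1 ⟨r, mem_filter.2 ⟨hr, self_mem_pieceClass r⟩⟩)
    show _ = looseW (P.edges s) κ ((P.looseParts lam t u).filter (pieceClass · = κ))
    rw [e, looseW, if_neg hne, looseCost, neg_sub, sub_eq_add_neg, exp_add, exp_sum, mul_comm]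
    congr 1
    exact prod_congr rfl fun p _ => exp_log (wgt_pos _ _)
  have hsel : exp (-((ends (P.common t u)).card : ℝ)) ≤ (2⁻¹ : ℝ) ^ c.sel.card := by
    have h1 : (c.sel.card : ℝ) ≤ (ends (P.common t u)).card :=
      Nat.cast_le.2 (card_le_card (codeOf_sel_subset s))
    calc exp (-((ends (P.common t u)).card : ℝ)) ≤ exp (-(c.sel.card : ℝ)) := by
          rw [exp_le_exp]; linarith
      _ = exp (-1) ^ c.sel.card := by rw [← exp_nat_mul]; ring_nf
      _ ≤ _ := by
          refine pow_le_pow_left₀ (exp_pos _).le ?_ _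
          rw [exp_neg]
          exact inv_anti₀ two_pos (by linarith [exp_one_gt_d9])
  rw [sideCost, codeW, show
      -((P.metV s).card + (P.metE s).card + ((ends (P.common t u)).card : ℝ)
        + ∑ x ∈ P.mid t u, P.markCost t u s x
        - ∑ p ∈ P.seededParts t u, log (wgt (P.edges s) p.1)
        + ∑ κ ∈ P.looseClasses lam t u, P.looseCost lam t u s κ
        + (ends (P.edges s)).card / log (n : ℝ) ^ 3)
      = -((P.metV s).card + (P.metE s).card + (ends (P.edges s)).card / log (n : ℝ) ^ 3)
        + -(∑ x ∈ P.mid t u, P.markCost t u s x) + -((ends (P.common t u)).card : ℝ)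
        + ∑ p ∈ P.seededParts t u, log (wgt (P.edges s) p.1)
        + -(∑ κ ∈ P.looseClasses lam t u, P.looseCost lam t u s κ) by ring,
    exp_add, exp_add, exp_add, exp_add, hmark, hseeded, hloose]
  refine mul_le_mul_of_nonneg_right (mul_le_mul_of_nonneg_right
    (mul_le_mul_of_nonneg_left hsel ?_) (wgt_pos _ _).le) (prod_nonneg fun κ _ => looseW_nonneg _ _ _)
  exact mul_nonneg (exp_pos _).le (prod_nonneg fun x _ => markW_nonneg _ _)

variable (P)

lemma moveT_inv (g : Equiv.Perm (Fin n)) (s : Fin k → Equiv.Perm (Fin n)) :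
    moveT g⁻¹ (moveT g s) = s := by
  funext i
  simp [moveT]

lemma sel_move (g : Equiv.Perm (Fin n)) (c : SCode n) : (c.move g).sel = c.sel.image g := by
  rw [SCode.sel, SCode.sel, ← ends_move, img, image_union, image_image]
  congr 1
  simp only [SCode.move, img, image_image]
  rfl

lemma valid_move {g : Equiv.Perm (Fin n)} {s : Fin k → Equiv.Perm (Fin n)} {c : SCode n}
    (h : P.CodeValid s c) : P.CodeValid (moveT g s) (c.move g) where
  mid_sub := by rw [metV_move]; exact image_subset_image h.mid_sub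
  mI_sub := by rw [metE_move]; exact image_subset_image h.mI_sub
  G_sub x hx := by
    obtain ⟨z, hz, rfl⟩ := mem_image.1 hx
    obtain ⟨h1, h2⟩ := h.G_sub z hz
    exact ⟨mem_image_of_mem _ h1, by rw [richAt_move]; exact mem_image_of_mem _ h2⟩
  Z_sub := by rw [sel_move]; exact image_subset_image h.Z_sub
  K_span := by
    obtain ⟨h1, h2, h3⟩ := h.K_span
    refine ⟨image_subset_image h1, ?_, linked_move g h3⟩
    show img g c.K.2 ⊆ inc (P.edges (moveT g s)) (c.K.1.image g)
    rw [edges_move, inc_move]
    exact image_subset_image h2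
  Lp_sub := by
    rw [edges_move, units_move]
    exact image_subset_image h.Lp_sub

lemma looseW_move (g : Equiv.Perm (Fin n)) (U : Finset (Sym2 (Fin n))) (κ A : Finset (Piece n)) :
    looseW (img g U) (κ.image (movePiece g)) (A.image (movePiece g)) = looseW U κ A := by
  unfold looseW
  rw [card_image_of_injective _ (movePiece_injective g), classWgt_move,
    prod_image fun a _ b _ h => movePiece_injective g h]
  simp only [image_eq_empty]
  split_ifs with h
  · rfl
  · congr 1
    exact prod_congr rfl fun p _ => wgt_move g U p.1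

lemma codeW_move (g : Equiv.Perm (Fin n)) (s : Fin k → Equiv.Perm (Fin n)) (c : SCode n) :
    P.codeW (moveT g s) (c.move g) = P.codeW s c := by
  unfold codeW
  rw [metV_move, metE_move, edges_move, ends_move, card_img,
    card_image_of_injective _ g.injective, card_image_of_injective _ g.injective, sel_move,
    card_image_of_injective _ g.injective]
  have e1 : ∏ x ∈ (c.move g).mid,
      markW (P.richAt (moveT g s) x).card ((c.move g).G.filter (·.1 = x)).card
        = ∏ x ∈ c.mid, markW (P.richAt s x).card (c.G.filter (·.1 = x)).card := by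
    show ∏ x ∈ c.mid.image g, _ = _
    rw [prod_image fun a _ b _ h => g.injective h]
    refine prod_congr rfl fun x _ => ?_
    rw [richAt_move, card_img]
    congr 1
    show ((c.G.image fun z => (g z.1, g • z.2)).filter (fun z => z.1 = g x)).card = _
    rw [filter_image, card_image_of_injective]
    · exact congrArg _ (filter_congr fun z _ => g.injective.eq_iff)
    · intro a b h
      simp only [Prod.mk.injEq] at h
      exact Prod.ext (g.injective h.1) (MulAction.injective g h.2)
  have e2 : ∏ κ ∈ (c.move g).Lp.image pieceClass,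
      looseW (img g (P.edges s)) κ ((c.move g).Lp.filter (pieceClass · = κ))
        = ∏ κ ∈ c.Lp.image pieceClass,
          looseW (P.edges s) κ (c.Lp.filter (pieceClass · = κ)) := by
    show ∏ κ ∈ (c.Lp.image (movePiece g)).image pieceClass,
      looseW _ κ ((c.Lp.image (movePiece g)).filter (pieceClass · = κ)) = _
    have hi : Function.Injective fun κ : Finset (Piece n) => κ.image (movePiece g) :=
      image_injective (movePiece_injective g)
    rw [show (c.Lp.image (movePiece g)).image pieceClass
        = (c.Lp.image pieceClass).image (fun κ => κ.image (movePiece g)) by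
      rw [image_image, image_image]
      exact image_congr fun p _ => pieceClass_move g p,
      prod_image fun a _ b _ h => hi h]
    refine prod_congr rfl fun κ _ => ?_
    have e : c.Lp.filter (fun p => pieceClass (movePiece g p) = κ.image (movePiece g))
        = c.Lp.filter (fun p => pieceClass p = κ) :=
      filter_congr fun p _ => by rw [pieceClass_move]; exact hi.eq_iff
    rw [filter_image, e, looseW_move]
  rw [e1, e2]
  congr 2
  exact wgt_move g _ c.K.1

end Pat

end Vale.Agent.P064
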