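import Mathlib.Combinatorics.SimpleGraph.Copy
import Mathlib.Probability.Combinatorics.BinomialRandomGraph.Defs
import Mathlib.MeasureTheory.Integral.Bochner.Basic
import Mathlib.Algebra.Order.Archimedean.Real.Basic

/-!
# Thresholds of a fixed graph in the binomial random graph
-/

open MeasureTheory SimpleGraph

namespace Vale.Agent.P064

/-- The least `p` with probability at least `1/2` that `G(n,p)` has a copy of `H`. -/
noncomputable def pc (n : ℕ) {k : ℕ} (H : SimpleGraph (Fin k)) : ℝ :=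
  sInf {p : ℝ | ∃ h : p ∈ Set.Icc (0 : ℝ) 1,
    1 / 2 ≤ (binomialRandom (Fin n) ⟨p, h⟩).real {G | 0 < G.copyCount H}}

/-- The least `p` at which every subgraph of `H` has expected number of copies at least `1/2`. -/
noncomputable def pE (n : ℕ) {k : ℕ} (H : SimpleGraph (Fin k)) : ℝ :=
  sInf {p : ℝ | ∃ h : p ∈ Set.Icc (0 : ℝ) 1, ∀ F : H.Subgraph,
    1 / 2 ≤ ∫ G, (G.copyCount F.coe : ℝ) ∂binomialRandom (Fin n) ⟨p, h⟩}

/-- The least `p` at which every subgraph `F` of `H` has expected number of copies at least half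
the number of copies of `F` in `H`. -/
noncomputable def pEFrac (n : ℕ) {k : ℕ} (H : SimpleGraph (Fin k)) : ℝ :=
  sInf {p : ℝ | ∃ h : p ∈ Set.Icc (0 : ℝ) 1, ∀ F : H.Subgraph,
    (H.copyCount F.coe : ℝ) / 2 ≤ ∫ G, (G.copyCount F.coe : ℝ) ∂binomialRandom (Fin n) ⟨p, h⟩}

end Vale.Agent.P064
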