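import Vale.Agent.P064.Main

/-!
# Graphs of bounded degree

If `H` has maximum degree `Δ` then `p̃_E ≤ C Δ p_E` and `p_c ≤ C Δ p_E log n`.

The proof counts embeddings of a connected edge set `K` on vertex set `V`: a maximal family of
vertex-disjoint images spans a subgraph of `H` whose sparsity bounds its size by `2e n^|V| q^|K|`,
every image meets this family, and at most `Δ^(|V|-1)` embeddings extend a given rooted vertex.
-/

open Finset Real
open scoped Classical

namespace Vale.Agent.P064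

variable {n : ℕ}

/-- The endpoints of a set of edges. -/
noncomputable def endsOf (T : Finset (Sym2 (Fin n))) : Finset (Fin n) :=
  univ.filter fun x => ∃ e ∈ T, x ∈ e

lemma mem_endsOf {T : Finset (Sym2 (Fin n))} {x : Fin n} : x ∈ endsOf T ↔ ∃ e ∈ T, x ∈ e := by
  simp [endsOf]

lemma card_endsOf_le (T : Finset (Sym2 (Fin n))) : (endsOf T).card ≤ 2 * T.card := by
  have h : endsOf T = T.biUnion fun e => (univ : Finset (Fin n)).filter (· ∈ e) := by
    ext x; simp [endsOf]
  rw [h, mul_comm]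
  refine card_biUnion_le_card_mul _ _ _ fun e _ => ?_
  induction e using Sym2.ind with
  | h a b =>
    refine le_trans (card_le_card (t := {a, b}) fun z hz => ?_) (card_le_two)
    simpa using hz

/-- Maps that are the identity off `V`, injective on `V`, and send `T` into `H`. -/
noncomputable def embs (H : Finset (Sym2 (Fin n))) (V : Finset (Fin n))
    (T : Finset (Sym2 (Fin n))) : Finset (Fin n → Fin n) :=
  univ.filter fun f => (∀ x, x ∉ V → f x = x) ∧ Set.InjOn f V ∧ ∀ e ∈ T, Sym2.map f e ∈ H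

lemma mem_embs {H : Finset (Sym2 (Fin n))} {V : Finset (Fin n)} {T : Finset (Sym2 (Fin n))}
    {f : Fin n → Fin n} :
    f ∈ embs H V T ↔ (∀ x, x ∉ V → f x = x) ∧ Set.InjOn f V ∧ ∀ e ∈ T, Sym2.map f e ∈ H := by
  simp [embs]

lemma map_congr_of_mem {f g : Fin n → Fin n} {e : Sym2 (Fin n)} (h : ∀ x ∈ e, f x = g x) :
    Sym2.map f e = Sym2.map g e := Sym2.map_congr h

/-- The number of permutations fixing `V` pointwise. -/
lemma card_fixing (V : Finset (Fin n)) :
    (univ.filter fun s : Equiv.Perm (Fin n) => ∀ x ∈ V, s x = x).card = (n - V.card).factorial := by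
  have h : Fintype.card {f : Equiv.Perm (Fin n) // ∀ a, ¬ a ∉ V → f a = a}
      = Fintype.card (Equiv.Perm {a : Fin n // a ∉ V}) :=
    Fintype.card_congr (Equiv.Perm.subtypeEquivSubtypePerm (fun a => a ∉ V)).symm
  rw [Fintype.card_perm, Fintype.card_subtype] at h
  have h2 : Fintype.card {a : Fin n // a ∉ V} = n - V.card := by
    rw [Fintype.card_subtype]
    have : (univ.filter fun a => a ∉ V) = univ \ V := by ext; simp
    rw [this, card_sdiff_of_subset (subset_univ V)]
    simp
  rw [h2] at h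
  rw [← h]
  congr 1
  ext s
  simp

/-- Permutations sending `T` into `H` restrict to embeddings. -/
lemma hits_le_embs (H T : Finset (Sym2 (Fin n))) :
    (univ.filter fun s : Equiv.Perm (Fin n) => img s T ⊆ H).card
      ≤ (embs H (endsOf T) T).card * (n - (endsOf T).card).factorial := by
  rw [mul_comm]
  refine card_le_mul_card_image_of_maps_to
    (f := fun s : Equiv.Perm (Fin n) => fun x => if x ∈ endsOf T then s x else x) ?_ _ ?_
  · intro s hs
    simp only [mem_filter, mem_univ, true_and] at hs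
    rw [mem_embs]
    refine ⟨fun x hx => if_neg hx, fun a ha b hb hab => ?_, fun e he => ?_⟩
    · simp only [mem_coe] at ha hb
      simpa [ha, hb] using hab
    · have : Sym2.map (fun x => if x ∈ endsOf T then s x else x) e = Sym2.map s e :=
        map_congr_of_mem fun x hx => if_pos (mem_endsOf.2 ⟨e, he, hx⟩)
      rw [this, ← smul_sym2]
      exact hs (mem_image_of_mem _ he)
  · intro f _
    by_cases hex : ∃ s0 : Equiv.Perm (Fin n), (fun x => if x ∈ endsOf T then s0 x else x) = f
    · obtain ⟨s0, hs0⟩ := hex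
      rw [← card_fixing (endsOf T)]
      refine card_le_card_of_injOn (fun s => s0⁻¹ * s) ?_ ?_
      · intro s hs
        simp only [mem_coe, mem_filter, mem_univ, true_and] at hs ⊢
        intro x hx
        have e1 := congrFun (hs.2.trans hs0.symm) x
        simp only [hx, if_true] at e1
        simp [Equiv.Perm.mul_apply, e1]
      · exact fun a _ b _ hab => mul_left_cancel hab
    · refine le_trans (le_of_eq ?_) (Nat.zero_le _)
      rw [card_eq_zero, filter_eq_empty_iff]
      exact fun s _ hs => hex ⟨s, hs⟩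

/-- Embeddings of a disjoint union factor. -/
lemma embs_union (H : Finset (Sym2 (Fin n))) {T K L : Finset (Sym2 (Fin n))} (hT : T = K ∪ L) :
    (embs H (endsOf T) T).card
      ≤ (embs H (endsOf K) K).card * (embs H (endsOf L) L).card := by
  subst hT
  rw [← card_product]
  refine card_le_card_of_injOn
    (fun f => (fun x => if x ∈ endsOf K then f x else x,
      fun x => if x ∈ endsOf L then f x else x)) ?_ ?_
  · intro f hf
    simp only [mem_coe, mem_embs] at hf
    simp only [mem_coe, mem_product, mem_embs]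
    obtain ⟨_, h2, h3⟩ := hf
    have hK : endsOf K ⊆ endsOf (K ∪ L) := fun x hx => by
      obtain ⟨e, he, hx⟩ := mem_endsOf.1 hx
      exact mem_endsOf.2 ⟨e, mem_union_left _ he, hx⟩
    have hL : endsOf L ⊆ endsOf (K ∪ L) := fun x hx => by
      obtain ⟨e, he, hx⟩ := mem_endsOf.1 hx
      exact mem_endsOf.2 ⟨e, mem_union_right _ he, hx⟩
    refine ⟨⟨fun x hx => if_neg hx, fun a ha b hb hab => ?_, fun e he => ?_⟩,
      ⟨fun x hx => if_neg hx, fun a ha b hb hab => ?_, fun e he => ?_⟩⟩
    · simp only [mem_coe] at ha hb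
      exact h2 (hK ha) (hK hb) (by simpa [ha, hb] using hab)
    · rw [map_congr_of_mem (g := f) fun x hx => if_pos (mem_endsOf.2 ⟨e, he, hx⟩)]
      exact h3 e (mem_union_left _ he)
    · simp only [mem_coe] at ha hb
      exact h2 (hL ha) (hL hb) (by simpa [ha, hb] using hab)
    · rw [map_congr_of_mem (g := f) fun x hx => if_pos (mem_endsOf.2 ⟨e, he, hx⟩)]
      exact h3 e (mem_union_right _ he)
  · intro f hf g hg hfg
    simp only [mem_coe, mem_embs] at hf hg
    simp only [Prod.mk.injEq] at hfg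
    funext x
    by_cases hxK : x ∈ endsOf K
    · simpa [hxK] using congrFun hfg.1 x
    by_cases hxL : x ∈ endsOf L
    · simpa [hxL] using congrFun hfg.2 x
    have hx : x ∉ endsOf (K ∪ L) := by
      intro h
      obtain ⟨e, he, hx⟩ := mem_endsOf.1 h
      rcases mem_union.1 he with he | he
      · exact hxK (mem_endsOf.2 ⟨e, he, hx⟩)
      · exact hxL (mem_endsOf.2 ⟨e, he, hx⟩)
    rw [hf.1 x hx, hg.1 x hx]

/-- At most `Δ` choices for the other end of an edge of `H` at a given vertex. -/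
def DegLE (H : Finset (Sym2 (Fin n))) (Δ : ℕ) : Prop :=
  ∀ v : Fin n, ((univ : Finset (Fin n)).filter fun w => s(v, w) ∈ H).card ≤ Δ

/-- `K` cannot be split into two vertex-disjoint parts. -/
def Linked (K : Finset (Sym2 (Fin n))) : Prop :=
  ∀ S ⊆ endsOf K, S.Nonempty → S ≠ endsOf K → ∃ e ∈ K, ∃ a ∈ e, ∃ b ∈ e, a ∈ S ∧ b ∉ S

/-- Embeddings of a linked set with one prescribed value. -/
lemma rooted_le {H K : Finset (Sym2 (Fin n))} {Δ : ℕ} (hd : DegLE H Δ) (hK : Linked K)
    {r z : Fin n} (hr : r ∈ endsOf K) :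
    ((embs H (endsOf K) K).filter fun f => f r = z).card ≤ Δ ^ ((endsOf K).card - 1) := by
  have key : ∀ m, m + 1 ≤ (endsOf K).card → ∃ S ⊆ endsOf K, S.card = m + 1 ∧ r ∈ S ∧
      (univ.filter fun f : Fin n → Fin n => (∀ x, x ∉ S → f x = x) ∧ f r = z ∧
        ∀ e ∈ K, (∀ x ∈ e, x ∈ S) → Sym2.map f e ∈ H).card ≤ Δ ^ m := by
    intro m
    induction m with
    | zero =>
      intro _
      refine ⟨{r}, by simpa using hr, by simp, by simp, ?_⟩
      rw [pow_zero]
      refine card_le_one.2 fun f hf g hg => ?_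
      simp only [mem_filter, mem_univ, true_and, mem_singleton] at hf hg
      funext x
      by_cases hx : x = r
      · subst hx; rw [hf.2.1, hg.2.1]
      · rw [hf.1 x hx, hg.1 x hx]
    | succ m ih =>
      intro hm
      obtain ⟨S, hS, hSc, hrS, hcard⟩ := ih (by omega)
      obtain ⟨e, he, a, hae, b, hbe, haS, hbS⟩ :=
        hK S hS ⟨r, hrS⟩ (fun h => by rw [h] at hSc; omega)
      have hab : a ≠ b := fun h => hbS (h ▸ haS)
      have hes : e = s(a, b) := ((Sym2.mem_and_mem_iff hab).1 ⟨hae, hbe⟩)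
      refine ⟨insert b S, insert_subset (mem_endsOf.2 ⟨e, he, hbe⟩) hS,
        by rw [card_insert_of_notMem hbS, hSc], mem_insert_of_mem hrS, ?_⟩
      set A := univ.filter fun f : Fin n → Fin n => (∀ x, x ∉ S → f x = x) ∧ f r = z ∧
        ∀ e ∈ K, (∀ x ∈ e, x ∈ S) → Sym2.map f e ∈ H with hA
      calc _ ≤ (A.biUnion fun g => ((univ : Finset (Fin n)).filter fun w => s(g a, w) ∈ H).image
              fun w => Function.update g b w).card := by
            refine card_le_card fun f hf => ?_
            simp only [mem_filter, mem_univ, true_and] at hf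
            obtain ⟨h1, h2, h3⟩ := hf
            refine mem_biUnion.2 ⟨Function.update f b b, ?_, mem_image.2 ⟨f b, ?_, ?_⟩⟩
            · simp only [hA, mem_filter, mem_univ, true_and]
              refine ⟨fun x hx => ?_, ?_, fun d hd hdS => ?_⟩
              · by_cases hxb : x = b
                · subst hxb; simp
                · rw [Function.update_of_ne hxb]
                  exact h1 x (by simp [hxb, hx])
              · rw [Function.update_of_ne (show r ≠ b from fun h => hbS (by rw [← h]; exact hrS))]; exact h2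
              · rw [map_congr_of_mem (g := f) fun x hx =>
                  Function.update_of_ne (show x ≠ b from fun h => hbS (by rw [← h]; exact hdS x hx)) _ _]
                exact h3 d hd fun x hx => mem_insert_of_mem (hdS x hx)
            · simp only [mem_filter, mem_univ, true_and]
              rw [Function.update_of_ne hab]
              have := h3 e he (by
                rw [hes]
                intro x hx
                rcases Sym2.mem_iff.1 hx with rfl | rfl
                · exact mem_insert_of_mem haS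
                · exact mem_insert_self _ _)
              rwa [hes, Sym2.map_mk] at this
            · simp
        _ ≤ A.card * Δ := by
            refine card_biUnion_le_card_mul _ _ _ fun g _ => le_trans card_image_le (hd _)
        _ ≤ Δ ^ m * Δ := Nat.mul_le_mul_right _ hcard
        _ = Δ ^ (m + 1) := by rw [pow_succ]
  have h1 : 0 < (endsOf K).card := card_pos.2 ⟨r, hr⟩
  obtain ⟨S, hS, hSc, -, hcard⟩ := key ((endsOf K).card - 1) (by omega)
  have hSe : S = endsOf K := eq_of_subset_of_card_le hS (by omega)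
  subst hSe
  refine le_trans (card_le_card fun f hf => ?_) hcard
  simp only [mem_filter, mem_univ, true_and, mem_embs] at hf ⊢
  exact ⟨hf.1.1, hf.2, fun e he _ => hf.1.2.2 e he⟩

/-- Sparsity bounds a family of vertex-disjoint images of `K`. -/
lemma disjoint_family_le {H K : Finset (Sym2 (Fin n))} {q : ℝ} (hq : 0 < q)
    (hs : Sparse (Equiv.Perm (Fin n)) H q) (hK : K.Nonempty)
    (P : Finset (Fin n → Fin n)) (hP : P ⊆ embs H (endsOf K) K)
    (hdis : ∀ f ∈ P, ∀ g ∈ P, f ≠ g → Disjoint ((endsOf K).image f) ((endsOf K).image g)) :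
    (P.card : ℝ) ≤ 2 * exp 1 * ((n : ℝ) ^ (endsOf K).card * q ^ K.card) := by
  set V := endsOf K with hV
  obtain ⟨e0, he0⟩ := hK
  have hVne : V.Nonempty := by
    induction e0 using Sym2.ind with
    | h a b => exact ⟨a, mem_endsOf.2 ⟨_, he0, Sym2.mem_mk_left a b⟩⟩
  rcases P.eq_empty_or_nonempty with hP0 | hP0
  · subst hP0; simp; positivity
  set ν := P.card with hν
  set W := P.biUnion fun f => V.image f with hW
  have hinj : ∀ f ∈ P, Set.InjOn f V := fun f hf => (mem_embs.1 (hP hf)).2.1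
  have hWc : W.card = ν * V.card := by
    rw [hW, card_biUnion hdis, sum_congr rfl fun f hf => card_image_of_injOn (hinj f hf),
      sum_const, smul_eq_mul]
  set F := P.biUnion fun f => K.image (Sym2.map f) with hF
  have hFH : F ⊆ H := fun d hd => by
    obtain ⟨f, hf, hd⟩ := mem_biUnion.1 hd
    obtain ⟨e, he, rfl⟩ := mem_image.1 hd
    exact (mem_embs.1 (hP hf)).2.2 e he
  have hFc : F.card = ν * K.card := by
    rw [hF, card_biUnion, sum_congr rfl, sum_const, smul_eq_mul]
    · intro f hf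
      refine card_image_of_injOn fun d hd e he hde => ?_
      induction d using Sym2.ind with
      | h a b =>
      induction e using Sym2.ind with
      | h x y =>
        have hh : ∀ {u v : Fin n}, s(u, v) ∈ (K : Set (Sym2 (Fin n))) → u ∈ V ∧ v ∈ V :=
          fun h => ⟨mem_endsOf.2 ⟨_, h, Sym2.mem_mk_left _ _⟩,
            mem_endsOf.2 ⟨_, h, Sym2.mem_mk_right _ _⟩⟩
        obtain ⟨ha, hb⟩ := hh hd
        obtain ⟨hx, hy⟩ := hh he
        simp only [Sym2.map_mk, Sym2.eq_iff] at hde
        rcases hde with ⟨h1, h2⟩ | ⟨h1, h2⟩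
        · rw [hinj f hf ha hx h1, hinj f hf hb hy h2]
        · rw [hinj f hf ha hy h1, hinj f hf hb hx h2, Sym2.eq_swap]
    · intro f hf g hg hfg
      rw [Function.onFun, disjoint_left]
      intro d hd hd'
      obtain ⟨d1, h1, rfl⟩ := mem_image.1 hd
      obtain ⟨d2, h2, e2⟩ := mem_image.1 hd'
      induction d1 using Sym2.ind with
      | h a b =>
        have hmem : f a ∈ Sym2.map g d2 := by rw [e2, Sym2.map_mk]; exact Sym2.mem_mk_left _ _
        obtain ⟨c, hc, hca⟩ := Sym2.mem_map.1 hmem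
        exact disjoint_left.1 (hdis f hf g hg hfg)
          (mem_image_of_mem f (mem_endsOf.2 ⟨_, h1, Sym2.mem_mk_left a b⟩))
          (hca ▸ mem_image_of_mem g (mem_endsOf.2 ⟨_, h2, hc⟩))
  -- permutations of the family give stabilisers of its union
  have hWmem : ∀ p : ↥P × ↥V, (p.1 : Fin n → Fin n) p.2 ∈ W := fun p =>
    mem_biUnion.2 ⟨p.1, p.1.2, mem_image_of_mem _ p.2.2⟩
  have hbij : Function.Bijective
      (fun p : ↥P × ↥V => (⟨(p.1 : Fin n → Fin n) p.2, hWmem p⟩ : ↥W)) := by
    constructor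
    · rintro ⟨⟨f, hf⟩, ⟨x, hx⟩⟩ ⟨⟨g, hg⟩, ⟨y, hy⟩⟩ h
      have h' : f x = g y := congrArg Subtype.val h
      have hfg : f = g := by
        by_contra hne
        exact disjoint_left.1 (hdis f hf g hg hne) (mem_image_of_mem f hx)
          (h' ▸ mem_image_of_mem g hy)
      subst hfg
      have := hinj f hf hx hy h'
      subst this
      rfl
    · rintro ⟨w, hw⟩
      obtain ⟨f, hf, hw'⟩ := mem_biUnion.1 hw
      obtain ⟨x, hx, rfl⟩ := mem_image.1 hw'
      exact ⟨(⟨f, hf⟩, ⟨x, hx⟩), rfl⟩
  set ε := Equiv.ofBijective _ hbij with hε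
  set prm : Equiv.Perm ↥P → Equiv.Perm (Fin n) := fun σ =>
    Equiv.Perm.ofSubtype (ε.permCongr (Equiv.prodCongr σ (Equiv.refl _))) with hprm
  have hprmapp : ∀ σ (f : ↥P) (x : ↥V),
      prm σ ((f : Fin n → Fin n) x) = (σ f : Fin n → Fin n) x := by
    intro σ f x
    have hm := hWmem (f, x)
    simp only [hprm]
    rw [Equiv.Perm.ofSubtype_apply_of_mem _ hm, Equiv.permCongr_apply]
    have : ε.symm ⟨(f : Fin n → Fin n) x, hm⟩ = (f, x) := by
      rw [Equiv.symm_apply_eq, hε]; rfl
    rw [this, hε]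
    rfl
  have hstab : ν.factorial * (n - W.card).factorial
      ≤ (univ.filter fun s : Equiv.Perm (Fin n) => img s F ⊆ F).card := by
    have h1 : ν.factorial * (n - W.card).factorial
        = ((univ : Finset (Equiv.Perm ↥P)) ×ˢ
          (univ.filter fun s : Equiv.Perm (Fin n) => ∀ x ∈ W, s x = x)).card := by
      rw [card_product, card_fixing, card_univ, Fintype.card_perm, Fintype.card_coe]
    rw [h1]
    refine card_le_card_of_injOn (fun p => prm p.1 * p.2) ?_ ?_
    · rintro ⟨σ, τ⟩ hp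
      simp only [mem_coe, mem_product, mem_univ, mem_filter, true_and] at hp ⊢
      intro d hd
      obtain ⟨d0, hd0, rfl⟩ := mem_image.1 hd
      obtain ⟨f, hf, hd0⟩ := mem_biUnion.1 hd0
      obtain ⟨e, he, rfl⟩ := mem_image.1 hd0
      refine mem_biUnion.2 ⟨σ ⟨f, hf⟩, (σ ⟨f, hf⟩).2, mem_image.2 ⟨e, he, ?_⟩⟩
      rw [smul_sym2, Sym2.map_map]
      refine map_congr_of_mem fun x hx => ?_
      have hxV : x ∈ V := mem_endsOf.2 ⟨e, he, hx⟩
      have hτ : τ (f x) = f x := hp _ (hWmem (⟨f, hf⟩, ⟨x, hxV⟩))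
      simp only [Function.comp_apply, Equiv.Perm.mul_apply, hτ]
      exact (hprmapp σ ⟨f, hf⟩ ⟨x, hxV⟩).symm
    · rintro ⟨σ, τ⟩ hp ⟨σ', τ'⟩ hp' h
      simp only [mem_coe, mem_product, mem_univ, mem_filter, true_and] at hp hp'
      have hσ : σ = σ' := by
        refine Equiv.ext fun f => ?_
        obtain ⟨x, hx⟩ := hVne
        have hm := hWmem (f, ⟨x, hx⟩)
        have e1 := Equiv.Perm.congr_fun h ((f : Fin n → Fin n) x)
        simp only [Equiv.Perm.mul_apply, hp _ hm, hp' _ hm] at e1
        rw [hprmapp σ f ⟨x, hx⟩, hprmapp σ' f ⟨x, hx⟩] at e1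
        by_contra hne
        have hne' : (σ f : Fin n → Fin n) ≠ (σ' f : Fin n → Fin n) :=
          fun e => hne (Subtype.ext e)
        exact disjoint_left.1 (hdis _ (σ f).2 _ (σ' f).2 hne') (mem_image_of_mem _ hx)
          (e1 ▸ mem_image_of_mem _ hx)
      subst hσ
      simpa using h
  have hsp := hs F hFH
  rw [X, div_le_iff₀ card_pos', hFc, Fintype.card_perm, Fintype.card_fin] at hsp
  have hle : W.card ≤ n := by simpa using card_le_univ W
  have hnf : n.factorial ≤ (n - W.card).factorial * n ^ W.card := by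
    rw [← Nat.factorial_mul_descFactorial hle]
    exact Nat.mul_le_mul_left _ (Nat.descFactorial_le_pow _ _)
  have h2 : (ν.factorial : ℝ) * ((n - W.card).factorial : ℝ)
      ≤ 2 * q ^ (ν * K.card) * n.factorial :=
    le_trans (by exact_mod_cast hstab) hsp
  have h3 : (ν.factorial : ℝ) ≤ 2 * q ^ (ν * K.card) * (n : ℝ) ^ W.card := by
    have hpos : (0 : ℝ) < ((n - W.card).factorial : ℝ) := by exact_mod_cast Nat.factorial_pos _
    refine le_of_mul_le_mul_right (le_trans h2 ?_) hpos
    have : (n.factorial : ℝ) ≤ ((n - W.card).factorial : ℝ) * (n : ℝ) ^ W.card := by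
      exact_mod_cast hnf
    calc 2 * q ^ (ν * K.card) * (n.factorial : ℝ)
        ≤ 2 * q ^ (ν * K.card) * (((n - W.card).factorial : ℝ) * (n : ℝ) ^ W.card) := by gcongr
      _ = _ := by ring
  set a : ℝ := (n : ℝ) ^ V.card * q ^ K.card with ha
  have hν1 : 1 ≤ ν := card_pos.2 hP0
  have hn0 : (0 : ℝ) < n := by
    obtain ⟨x, _⟩ := hVne
    exact_mod_cast x.pos
  have ha0 : 0 < a := by rw [ha]; positivity
  have h4 : (ν : ℝ) ^ ν ≤ (2 * exp 1 * a) ^ ν := by
    have e1 : (ν : ℝ) ^ ν / ν.factorial ≤ exp (ν : ℝ) :=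
      pow_div_factorial_le_exp (ν : ℝ) (Nat.cast_nonneg _) _
    rw [div_le_iff₀ (by exact_mod_cast Nat.factorial_pos ν)] at e1
    refine le_trans e1 ?_
    calc exp (ν : ℝ) * ν.factorial ≤ exp (ν : ℝ) * (2 * q ^ (ν * K.card) * (n : ℝ) ^ W.card) :=
          mul_le_mul_of_nonneg_left h3 (exp_pos _).le
      _ = 2 * exp 1 ^ ν * a ^ ν := by
          rw [← exp_nat_mul, mul_one, ha, mul_pow, ← pow_mul, ← pow_mul, hWc,
            mul_comm ν V.card, mul_comm ν K.card]
          ring
      _ ≤ 2 ^ ν * exp 1 ^ ν * a ^ ν := by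
          gcongr
          exact le_self_pow₀ (by norm_num) (by omega)
      _ = _ := by simp only [ha, mul_pow]
  exact le_of_pow_le_pow_left₀ (by omega) (by positivity) h4

/-- Embeddings of a linked edge set. -/
lemma linked_le {H K : Finset (Sym2 (Fin n))} {q : ℝ} {Δ : ℕ} (hq : 0 < q)
    (hs : Sparse (Equiv.Perm (Fin n)) H q) (hd : DegLE H Δ) (hΔ : 1 ≤ Δ) (hK : K.Nonempty)
    (hl : Linked K) :
    ((embs H (endsOf K) K).card : ℝ) ≤ (n : ℝ) ^ (endsOf K).card * (100 * Δ * q) ^ K.card := by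
  set V := endsOf K with hV
  set Em := embs H V K with hEm
  set good := Em.powerset.filter fun P =>
    ∀ f ∈ P, ∀ g ∈ P, f ≠ g → Disjoint (V.image f) (V.image g) with hgood
  obtain ⟨P, hP, hmax⟩ :=
    exists_max_image good card ⟨∅, by simp [hgood]⟩
  simp only [hgood, mem_filter, mem_powerset] at hP
  set Z := P.biUnion fun f => V.image f with hZ
  have hhit : Em ⊆ (V ×ˢ Z).biUnion fun p => Em.filter fun f => f p.1 = p.2 := by
    intro f hf
    have hex : ∃ r ∈ V, f r ∈ Z := by
      by_contra hno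
      push Not at hno
      have hVne : V.Nonempty := by
        obtain ⟨e0, he0⟩ := hK
        induction e0 using Sym2.ind with
        | h a b => exact ⟨a, mem_endsOf.2 ⟨_, he0, Sym2.mem_mk_left a b⟩⟩
      have hfP : f ∉ P := fun h => by
        obtain ⟨r, hr⟩ := hVne
        exact hno r hr (mem_biUnion.2 ⟨f, h, mem_image_of_mem f hr⟩)
      have hins : insert f P ∈ good := by
        simp only [hgood, mem_filter, mem_powerset]
        have hout : ∀ g ∈ P, Disjoint (V.image f) (V.image g) := fun g hg => by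
          rw [disjoint_left]
          intro y hy hy'
          obtain ⟨r, hr, rfl⟩ := mem_image.1 hy
          exact hno r hr (mem_biUnion.2 ⟨g, hg, hy'⟩)
        refine ⟨insert_subset hf hP.1, fun a ha b hb hab => ?_⟩
        rcases mem_insert.1 ha with rfl | ha' <;> rcases mem_insert.1 hb with rfl | hb'
        · exact absurd rfl hab
        · exact hout b hb'
        · exact (hout a ha').symm
        · exact hP.2 a ha' b hb' hab
      have := hmax _ hins
      rw [card_insert_of_notMem hfP] at this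
      omega
    obtain ⟨r, hr, hrZ⟩ := hex
    exact mem_biUnion.2 ⟨(r, f r), mem_product.2 ⟨hr, hrZ⟩, mem_filter.2 ⟨hf, rfl⟩⟩
  have hν := disjoint_family_le hq hs hK P hP.1 hP.2
  have hZc : Z.card ≤ P.card * V.card := card_biUnion_le_card_mul _ _ _ fun f _ => card_image_le
  have hv2 : V.card ≤ 2 * K.card := card_endsOf_le K
  have hb : V.card - 1 ≤ K.card := by
    -- a linked set spans at most one vertex more than it has edges
    have key : ∀ m, m + 1 ≤ V.card → ∃ S ⊆ V, S.card = m + 1 ∧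
        m ≤ (K.filter fun e => ∀ x ∈ e, x ∈ S).card := by
      intro m
      induction m with
      | zero =>
        intro h
        obtain ⟨r, hr⟩ := card_pos.1 (show 0 < V.card by omega)
        exact ⟨{r}, by simpa using hr, by simp, Nat.zero_le _⟩
      | succ m ih =>
        intro h
        obtain ⟨S, hS, hSc, hc⟩ := ih (by omega)
        obtain ⟨e, he, a, hae, b, hbe, haS, hbS⟩ :=
          hl S hS (card_pos.1 (by omega)) (fun h' => by rw [h', ← hV] at hSc; omega)
        refine ⟨insert b S, insert_subset (mem_endsOf.2 ⟨e, he, hbe⟩) hS,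
          by rw [card_insert_of_notMem hbS, hSc], ?_⟩
        have hlt : (K.filter fun e => ∀ x ∈ e, x ∈ S).card
            < (K.filter fun e => ∀ x ∈ e, x ∈ insert b S).card := by
          refine card_lt_card ⟨fun d hd => ?_, fun hsub => ?_⟩
          · simp only [mem_filter] at hd ⊢
            exact ⟨hd.1, fun x hx => mem_insert_of_mem (hd.2 x hx)⟩
          · have hab : a ≠ b := fun h => hbS (h ▸ haS)
            have hes : e = s(a, b) := (Sym2.mem_and_mem_iff hab).1 ⟨hae, hbe⟩
            have : e ∈ K.filter fun e => ∀ x ∈ e, x ∈ insert b S := by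
              rw [mem_filter, hes]
              refine ⟨hes ▸ he, fun x hx => ?_⟩
              rcases Sym2.mem_iff.1 hx with rfl | rfl
              · exact mem_insert_of_mem haS
              · exact mem_insert_self _ _
            exact hbS ((mem_filter.1 (hsub this)).2 b hbe)
        omega
    rcases Nat.eq_zero_or_pos V.card with h0 | h0
    · omega
    obtain ⟨S, _, _, hc⟩ := key (V.card - 1) (by omega)
    exact le_trans hc (card_le_card (filter_subset _ _))
  have hcount : Em.card ≤ V.card * (P.card * V.card) * Δ ^ K.card := by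
    calc Em.card ≤ _ := card_le_card hhit
      _ ≤ (V ×ˢ Z).card * Δ ^ (V.card - 1) :=
          card_biUnion_le_card_mul _ _ _ fun p hp => rooted_le hd hl (mem_product.1 hp).1
      _ ≤ V.card * (P.card * V.card) * Δ ^ K.card := by
          rw [card_product]
          exact Nat.mul_le_mul (Nat.mul_le_mul_left _ hZc) (Nat.pow_le_pow_right hΔ hb)
  have hb1 : 1 ≤ K.card := card_pos.2 hK
  have hb4 : (K.card : ℝ) ^ 2 ≤ 4 ^ K.card := by
    have h1 : K.card < 2 ^ K.card := Nat.lt_two_pow_self
    have h2 : (K.card : ℝ) ≤ 2 ^ K.card := by exact_mod_cast h1.le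
    calc (K.card : ℝ) ^ 2 ≤ ((2 : ℝ) ^ K.card) ^ 2 := pow_le_pow_left₀ (Nat.cast_nonneg _) h2 2
      _ = 4 ^ K.card := by rw [← pow_mul, mul_comm, pow_mul]; norm_num
  have he : exp 1 ≤ 2.72 := by have := exp_one_lt_d9; linarith
  have hv2' : (V.card : ℝ) ≤ 2 * K.card := by exact_mod_cast hv2
  calc (Em.card : ℝ) ≤ (V.card : ℝ) * (P.card * V.card) * (Δ : ℝ) ^ K.card := by
        exact_mod_cast hcount
    _ = (V.card : ℝ) ^ 2 * P.card * (Δ : ℝ) ^ K.card := by ring
    _ ≤ (2 * (K.card : ℝ)) ^ 2 * (2 * exp 1 * ((n : ℝ) ^ V.card * q ^ K.card))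
          * (Δ : ℝ) ^ K.card := by
        gcongr
    _ = (n : ℝ) ^ V.card * ((8 * exp 1) * (K.card : ℝ) ^ 2 * (Δ * q) ^ K.card) := by
        rw [mul_pow (Δ : ℝ) q]; ring
    _ ≤ (n : ℝ) ^ V.card * ((25 : ℝ) ^ K.card * 4 ^ K.card * (Δ * q) ^ K.card) := by
        gcongr
        calc 8 * exp 1 ≤ 25 := by linarith
          _ ≤ (25 : ℝ) ^ K.card := le_self_pow₀ (by norm_num) (by omega)
    _ = _ := by rw [← mul_pow, ← mul_pow]; congr 1; ring

/-- Embeddings of any edge set. -/
lemma embs_le {H : Finset (Sym2 (Fin n))} {q : ℝ} {Δ : ℕ} (hq : 0 < q)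
    (hs : Sparse (Equiv.Perm (Fin n)) H q) (hd : DegLE H Δ) (hΔ : 1 ≤ Δ)
    (T : Finset (Sym2 (Fin n))) :
    ((embs H (endsOf T) T).card : ℝ) ≤ (n : ℝ) ^ (endsOf T).card * (100 * Δ * q) ^ T.card := by
  induction T using Finset.strongInduction with
  | H T ih =>
  rcases T.eq_empty_or_nonempty with h0 | h0
  · subst h0
    have h1 : (embs H (endsOf (∅ : Finset (Sym2 (Fin n)))) ∅).card ≤ 1 := by
      refine card_le_one.2 fun f hf g hg => funext fun x => ?_
      rw [mem_embs] at hf hg
      rw [hf.1 x (by simp [endsOf]), hg.1 x (by simp [endsOf])]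
    have h2 : endsOf (∅ : Finset (Sym2 (Fin n))) = ∅ := by ext; simp [endsOf]
    have h3 : ((embs H (endsOf (∅ : Finset (Sym2 (Fin n)))) ∅).card : ℝ) ≤ 1 := by
      exact_mod_cast h1
    rw [h2] at h3 ⊢
    simpa using h3
  set cand := T.powerset.filter fun K => K.Nonempty ∧ Disjoint (endsOf K) (endsOf (T \ K))
    with hcand
  obtain ⟨K, hK, hmin⟩ := exists_min_image cand card ⟨T, by
    simp [hcand, h0, endsOf]⟩
  simp only [hcand, mem_filter, mem_powerset] at hK
  obtain ⟨hKT, hKne, hKd⟩ := hK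
  have hl : Linked K := by
    intro S hS hSne hSK
    by_contra hno
    push Not at hno
    set K' := K.filter fun e => ∀ x ∈ e, x ∈ S with hK'
    have hsub : K' ⊆ K := filter_subset _ _
    have hins : ∀ e ∈ K, ∀ a ∈ e, a ∈ S → e ∈ K' := fun e he a ha haS =>
      mem_filter.2 ⟨he, fun b hb => hno e he a ha b hb haS⟩
    have hK'ne : K'.Nonempty := by
      obtain ⟨x, hx⟩ := hSne
      obtain ⟨e, he, hxe⟩ := mem_endsOf.1 (hS hx)
      exact ⟨e, hins e he x hxe hx⟩
    have hd' : Disjoint (endsOf K') (endsOf (T \ K')) := by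
      rw [disjoint_left]
      intro x hx hx'
      obtain ⟨e, he, hxe⟩ := mem_endsOf.1 hx
      obtain ⟨d, hdT, hxd⟩ := mem_endsOf.1 hx'
      rw [mem_sdiff] at hdT
      by_cases hdK : d ∈ K
      · exact hdT.2 (hins d hdK x hxd ((mem_filter.1 he).2 x hxe))
      · exact disjoint_left.1 hKd (mem_endsOf.2 ⟨e, hsub he, hxe⟩)
          (mem_endsOf.2 ⟨d, mem_sdiff.2 ⟨hdT.1, hdK⟩, hxd⟩)
    have hle := hmin K' (by
      simp only [hcand, mem_filter, mem_powerset]
      exact ⟨hsub.trans hKT, hK'ne, hd'⟩)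
    have hEq : K' = K := eq_of_subset_of_card_le hsub hle
    refine hSK (subset_antisymm hS fun x hx => ?_)
    obtain ⟨e, he, hxe⟩ := mem_endsOf.1 hx
    exact (mem_filter.1 (hEq.symm ▸ he : e ∈ K')).2 x hxe
  have hlt : T \ K ⊂ T := sdiff_ssubset hKT hKne
  have hTu : T = K ∪ (T \ K) := (union_sdiff_of_subset hKT).symm
  have hV : (endsOf T).card = (endsOf K).card + (endsOf (T \ K)).card := by
    rw [← card_union_of_disjoint hKd]
    congr 1
    ext x
    simp only [mem_union, mem_endsOf]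
    constructor
    · rintro ⟨e, he, hx⟩
      by_cases heK : e ∈ K
      · exact Or.inl ⟨e, heK, hx⟩
      · exact Or.inr ⟨e, mem_sdiff.2 ⟨he, heK⟩, hx⟩
    · rintro (⟨e, he, hx⟩ | ⟨e, he, hx⟩)
      · exact ⟨e, hKT he, hx⟩
      · exact ⟨e, (mem_sdiff.1 he).1, hx⟩
  have hTc : T.card = K.card + (T \ K).card := by
    rw [card_sdiff_of_subset hKT]
    have := card_le_card hKT
    omega
  calc ((embs H (endsOf T) T).card : ℝ)
      ≤ ((embs H (endsOf K) K).card : ℝ) * (embs H (endsOf (T \ K)) (T \ K)).card := by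
        exact_mod_cast embs_union H hTu
    _ ≤ ((n : ℝ) ^ (endsOf K).card * (100 * Δ * q) ^ K.card)
          * ((n : ℝ) ^ (endsOf (T \ K)).card * (100 * Δ * q) ^ (T \ K).card) := by
        exact mul_le_mul (linked_le hq hs hd hΔ hKne hl) (ih _ hlt) (Nat.cast_nonneg _)
          (by positivity)
    _ = _ := by rw [hV, hTc, pow_add, pow_add]; ring

/-- `n^v (n-v)! ≤ e^v n!`. -/
lemma pow_mul_factorial_le {v : ℕ} (hv : v ≤ n) :
    (n : ℝ) ^ v * ((n - v).factorial : ℝ) ≤ exp (v : ℝ) * n.factorial := by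
  have h1 : n ^ v * v.factorial ≤ n.descFactorial v * v ^ v := by
    rw [← Nat.descFactorial_self v, Nat.descFactorial_eq_prod_range,
      Nat.descFactorial_eq_prod_range]
    have e1 : n ^ v = ∏ _i ∈ range v, n := by simp
    have e2 : v ^ v = ∏ _i ∈ range v, v := by simp
    rw [e1, e2, ← prod_mul_distrib, ← prod_mul_distrib]
    refine prod_le_prod' fun i hi => ?_
    rw [mem_range] at hi
    rw [Nat.mul_sub, Nat.sub_mul]
    have : i * v ≤ n * i := by rw [mul_comm n i]; exact Nat.mul_le_mul_left _ hv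
    omega
  have h2 : (v : ℝ) ^ v / v.factorial ≤ exp (v : ℝ) :=
    pow_div_factorial_le_exp (v : ℝ) (Nat.cast_nonneg _) _
  have hv0 : (0 : ℝ) < (v.factorial : ℝ) := by exact_mod_cast Nat.factorial_pos v
  rw [div_le_iff₀ hv0] at h2
  have h3 : (n : ℝ) ^ v * v.factorial ≤ (n.descFactorial v : ℝ) * (v : ℝ) ^ v := by
    exact_mod_cast h1
  have h4 : ((n - v).factorial : ℝ) * (n.descFactorial v : ℝ) = n.factorial := by
    exact_mod_cast Nat.factorial_mul_descFactorial hv
  refine le_of_mul_le_mul_right ?_ hv0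
  calc (n : ℝ) ^ v * ((n - v).factorial : ℝ) * v.factorial
      = ((n : ℝ) ^ v * v.factorial) * ((n - v).factorial : ℝ) := by ring
    _ ≤ ((n.descFactorial v : ℝ) * (v : ℝ) ^ v) * ((n - v).factorial : ℝ) := by gcongr
    _ ≤ ((n.descFactorial v : ℝ) * (exp (v : ℝ) * v.factorial)) * ((n - v).factorial : ℝ) := by
        gcongr
    _ = exp (v : ℝ) * n.factorial * v.factorial := by rw [← h4]; ring

/-- Spreadness at density `800 Δ q`. -/
theorem spread_degree {H : Finset (Sym2 (Fin n))} {q : ℝ} {Δ : ℕ} (hq : 0 < q)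
    (hs : Sparse (Equiv.Perm (Fin n)) H q) (hd : DegLE H Δ) (hΔ : 1 ≤ Δ)
    (T : Finset (Sym2 (Fin n))) :
    X (Equiv.Perm (Fin n)) T H ≤ (800 * Δ * q) ^ T.card := by
  set v := (endsOf T).card with hv
  have hvn : v ≤ n := by simpa using card_le_univ (endsOf T)
  rw [X, div_le_iff₀ card_pos', Fintype.card_perm, Fintype.card_fin]
  have he : exp (v : ℝ) ≤ 8 ^ T.card := by
    have h2 : exp 1 ^ 2 ≤ 8 := by nlinarith [exp_one_lt_d9, exp_pos (1 : ℝ)]
    calc exp (v : ℝ) ≤ exp ((2 * T.card : ℕ) : ℝ) :=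
          exp_le_exp.2 (by exact_mod_cast card_endsOf_le T)
      _ = (exp 1 ^ 2) ^ T.card := by rw [← pow_mul, ← exp_nat_mul, mul_one]
      _ ≤ 8 ^ T.card := pow_le_pow_left₀ (by positivity) h2 _
  calc ((univ.filter fun s : Equiv.Perm (Fin n) => img s T ⊆ H).card : ℝ)
      ≤ ((embs H (endsOf T) T).card : ℝ) * ((n - v).factorial : ℝ) := by
        exact_mod_cast hits_le_embs H T
    _ ≤ (n : ℝ) ^ v * (100 * Δ * q) ^ T.card * ((n - v).factorial : ℝ) := by
        gcongr
        exact embs_le hq hs hd hΔ T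
    _ = (100 * Δ * q) ^ T.card * ((n : ℝ) ^ v * ((n - v).factorial : ℝ)) := by ring
    _ ≤ (100 * Δ * q) ^ T.card * (8 ^ T.card * (n.factorial : ℝ)) := by
        refine mul_le_mul_of_nonneg_left (le_trans (pow_mul_factorial_le hvn) ?_) (by positivity)
        exact mul_le_mul_of_nonneg_right he (Nat.cast_nonneg _)
    _ = (800 * Δ * q) ^ T.card * (n.factorial : ℝ) := by
        rw [← mul_assoc, ← mul_pow]; congr 1; ring

/-- The bounds for graphs of maximum degree at most `Δ`. -/
theorem threshold_degree : ∃ C : ℝ, 0 < C ∧ ∀ n k : ℕ, 2 ≤ n → k ≤ n →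
    ∀ H : SimpleGraph (Fin k), H ≠ ⊥ → ∀ Δ : ℕ, (∀ v, (H.neighborSet v).ncard ≤ Δ) →
      pEFrac n H ≤ C * Δ * pE n H ∧ pc n H ≤ C * Δ * pE n H * log (n : ℝ) := by
  refine ⟨10000000, by norm_num, fun n k hn hk H hH Δ hΔ => ?_⟩
  have hE := one_le_edges hk hH
  have hd : DegLE (edgesIn hk H) Δ := by
    intro v
    by_cases hv : ∃ a, Fin.castLE hk a = v
    · obtain ⟨a, rfl⟩ := hv
      refine le_trans ?_ (hΔ a)
      rw [← Set.ncard_coe_finset, ← Set.ncard_image_of_injective (H.neighborSet a)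
        (Fin.castLE_injective hk)]
      refine Set.ncard_le_ncard (fun w hw => ?_) (Set.toFinite _)
      simp only [coe_filter, mem_univ, true_and, Set.mem_ofPred_eq, edgesIn, mem_image] at hw
      obtain ⟨d, hd, hde⟩ := hw
      induction d using Sym2.ind with
      | h x y =>
        simp only [Sym2.map_mk, Sym2.eq_iff] at hde
        rw [SimpleGraph.mem_edgeFinset, SimpleGraph.mem_edgeSet] at hd
        rcases hde with ⟨h1, h2⟩ | ⟨h1, h2⟩
        · exact ⟨y, by rwa [← Fin.castLE_injective hk h1], h2⟩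
        · exact ⟨x, by rw [← Fin.castLE_injective hk h2]; exact hd.symm, h1⟩
    · refine le_trans (le_of_eq ?_) (Nat.zero_le _)
      rw [card_eq_zero, filter_eq_empty_iff]
      intro w _ hw
      obtain ⟨d, -, hde⟩ := mem_image.1 hw
      induction d using Sym2.ind with
      | h x y =>
        simp only [Sym2.map_mk, Sym2.eq_iff] at hde
        rcases hde with ⟨h1, -⟩ | ⟨-, h2⟩
        · exact hv ⟨x, h1⟩
        · exact hv ⟨y, h2⟩
  have hΔ1 : 1 ≤ Δ := by
    obtain ⟨a, b, hab⟩ := SimpleGraph.ne_bot_iff_exists_adj.1 hH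
    exact le_trans ((Set.ncard_pos (Set.toFinite _)).2 ⟨b, hab⟩) (hΔ a)
  have hΔ0 : (1 : ℝ) ≤ Δ := by exact_mod_cast hΔ1
  set S : Set ℝ := {p : ℝ | ∃ h : p ∈ Set.Icc (0 : ℝ) 1, ∀ F : H.Subgraph,
    1 / 2 ≤ ∫ G, (G.copyCount F.coe : ℝ) ∂SimpleGraph.binomialRandom (Fin n) ⟨p, h⟩} with hS
  have hne : S.Nonempty := ⟨1, ⟨zero_le_one, le_rfl⟩, fun F => by
    have := mean_one_pos hk F
    rw [show (⟨1, _⟩ : unitInterval) = 1 from rfl]
    linarith⟩
  have key : ∀ p ∈ S, pEFrac n H ≤ 800 * Δ * p ∧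
      pc n H ≤ 768 * log (((edgesIn hk H).card : ℝ) + 1) * (800 * Δ * p) := by
    rintro p ⟨hp, hpF⟩
    have hs := sparse_of_mean hk H ⟨p, hp⟩ hpF
    have hq := admissible_pos hk hH hp hs
    have hsp := spread_degree hq hs hd hΔ1
    have h0 : (0 : ℝ) < 800 * Δ * p := mul_pos (by linarith) hq
    exact ⟨frac_le_of_spread hk H h0.le hsp, pc_le_of_spread hk H hE h0 hsp⟩
  have hL := log_E_ge hE
  set L := log (((edgesIn hk H).card : ℝ) + 1) with hLdef
  have hpE : pE n H = sInf S := rfl
  have h1 : pEFrac n H / (800 * Δ) ≤ pE n H := le_csInf hne fun p hp => by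
    rw [div_le_iff₀ (by positivity)]; nlinarith [(key p hp).1]
  have h2 : pc n H / (768 * L * (800 * Δ)) ≤ pE n H := le_csInf hne fun p hp => by
    rw [div_le_iff₀ (by positivity)]
    have := (key p hp).2
    linarith
  rw [div_le_iff₀ (by positivity)] at h1
  rw [div_le_iff₀ (by positivity)] at h2
  have hE0 : 0 ≤ pE n H := le_csInf hne fun p hp => hp.1.1
  have hln : L ≤ 2 * log (n : ℝ) := by
    have hle := card_le_card (edgesIn_subset hk H)
    rw [card_allEdges] at hle
    have hc : (edgesIn hk H).card + 1 ≤ n ^ 2 := by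
      have h3 := Nat.choose_le_pow_div 2 n (α := ℝ)
      have hle' : ((edgesIn hk H).card : ℝ) ≤ (n.choose 2 : ℝ) := by exact_mod_cast hle
      have h4 : ((edgesIn hk H).card : ℝ) ≤ (n : ℝ) ^ 2 / 2 := by
        refine le_trans hle' ?_
        simpa using h3
      have h5 : (2 : ℝ) ≤ n := by exact_mod_cast hn
      have : ((edgesIn hk H).card : ℝ) + 1 ≤ (n : ℝ) ^ 2 := by nlinarith
      exact_mod_cast this
    calc L ≤ log ((n : ℝ) ^ 2) := log_le_log (by positivity) (by exact_mod_cast hc)
      _ = 2 * log (n : ℝ) := by rw [log_pow]; norm_num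
  refine ⟨by nlinarith [mul_nonneg hE0 (Nat.cast_nonneg (α := ℝ) Δ)], ?_⟩
  have h0 : 0 ≤ pE n H * (800 * (Δ : ℝ)) := by positivity
  have hl0 : 0 ≤ log (n : ℝ) := log_natCast_nonneg n
  calc pc n H ≤ pE n H * (768 * L * (800 * Δ)) := h2
    _ ≤ pE n H * (768 * (2 * log (n : ℝ)) * (800 * Δ)) := by gcongr
    _ ≤ _ := by
        nlinarith [mul_nonneg (mul_nonneg hE0 hl0) (Nat.cast_nonneg (α := ℝ) Δ)]

end Vale.Agent.P064
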