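import Vale.Agent.P064.Neighbour
import Vale.Agent.P064.Labels

/-!
# Spreadness in dense regimes

Vertices of small degree are removed one by one by counting common neighbours; in what is left a
pattern of edge levels is determined by the levels of few vertices.
-/

open Finset Real
open scoped Classical

namespace Vale.Agent.P064

variable {n : ℕ}

/-- Dyadic levels of frequencies. -/
lemma exists_levels {β : Type*} (c : β → ℕ) {S L : ℕ} (hS : 0 < S) (hc : ∀ y, c y ≤ S) :
    ∃ ℓ : β → Fin (L + 1), (∀ y, c y * 2 ^ (ℓ y : ℕ) ≤ S) ∧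
      ∀ y, (2⁻¹ : ℝ) ^ (ℓ y : ℕ) ≤ 2 * c y / S + 2⁻¹ ^ L := by
  have hex : ∀ y, ∃ a, a = L ∨ S < c y * 2 ^ (a + 1) := fun y => ⟨L, Or.inl rfl⟩
  refine ⟨fun y => ⟨Nat.find (hex y), Nat.lt_succ_of_le (Nat.find_le (Or.inl rfl))⟩,
    fun y => ?_, fun y => ?_⟩
  · show c y * 2 ^ Nat.find (hex y) ≤ S
    rcases Nat.eq_zero_or_pos (Nat.find (hex y)) with h | h
    · rw [h, pow_zero, mul_one]; exact hc y
    · have := Nat.find_min (hex y) (Nat.sub_lt h Nat.one_pos)
      rw [not_or, not_lt, Nat.sub_add_cancel h] at this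
      exact this.2
  · show (2⁻¹ : ℝ) ^ Nat.find (hex y) ≤ _
    have hS0 : (0 : ℝ) < S := Nat.cast_pos.2 hS
    rcases Nat.find_spec (hex y) with h | h
    · rw [h]
      exact le_add_of_nonneg_left (by positivity)
    · refine le_add_of_le_of_nonneg ?_ (by positivity)
      rw [inv_pow, inv_le_iff_one_le_mul₀ (by positivity), div_mul_eq_mul_div,
        le_div_iff₀ hS0, one_mul]
      have h' : (S : ℝ) ≤ c y * 2 ^ (Nat.find (hex y) + 1) := by exact_mod_cast h.le
      refine le_of_le_of_eq h' ?_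
      rw [pow_succ]; ring

/-- The restrictions to `P` of the permutations mapping `T` into `H`. -/
noncomputable def shape (H : Finset (Sym2 (Fin n))) (P : Finset (Fin n))
    (T : Finset (Sym2 (Fin n))) : Finset ({x // x ∈ P} → Fin n) :=
  (univ.filter fun g : Equiv.Perm (Fin n) => img g T ⊆ H).image fun g x => g x.1

variable {H : Finset (Sym2 (Fin n))} {P : Finset (Fin n)} {T : Finset (Sym2 (Fin n))}

lemma good_le_shape :
    (univ.filter fun g : Equiv.Perm (Fin n) => img g T ⊆ H).card
      ≤ (shape H P T).card * (n - P.card).factorial := by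
  rw [shape, mul_comm]
  refine card_le_mul_card_image _ _ fun f hf => ?_
  obtain ⟨g₀, -, rfl⟩ := mem_image.1 hf
  rw [← card_fix_coset P g₀]
  refine card_le_card fun g hg => mem_filter.2 ⟨mem_univ _, fun x hx => ?_⟩
  exact congrFun (mem_filter.1 hg).2 ⟨x, hx⟩

lemma shape_le_good (hP : ∀ y ∈ T, ∀ w ∈ y, w ∈ P) :
    (shape H P T).card * (n - P.card).factorial
      ≤ (univ.filter fun g : Equiv.Perm (Fin n) => img g T ⊆ H).card := by
  rw [card_eq_sum_card_image (fun (g : Equiv.Perm (Fin n)) (x : {x // x ∈ P}) => g x.1)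
    (univ.filter fun g : Equiv.Perm (Fin n) => img g T ⊆ H), ← smul_eq_mul, ← sum_const]
  refine sum_le_sum fun f hf => ?_
  obtain ⟨g₀, hg₀, rfl⟩ := mem_image.1 hf
  rw [← card_fix_coset P g₀]
  refine card_le_card fun g hg => ?_
  simp only [mem_filter, mem_univ, true_and] at hg hg₀ ⊢
  refine ⟨fun y hy => hg₀ ?_, funext fun x => hg x.1 x.2⟩
  obtain ⟨z, hz, rfl⟩ := mem_image.1 hy
  exact mem_image.2 ⟨z, hz, Sym2.map_congr fun x hx => (hg x (hP z hz x hx)).symm⟩

/-- Removing a vertex costs the number of common neighbours of the images of its neighbours. -/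
lemma shape_erase {q B : ℝ} (hq : 0 < q) (hs : Sparse (Equiv.Perm (Fin n)) H q)
    (hT : T ⊆ allEdges n) (hP : ∀ y ∈ T, ∀ u ∈ y, u ∈ P) {w : Fin n}
    (hB : exp 2 * ((n : ℝ) * q ^ (T.filter (w ∈ ·)).card)
      + (T.filter (w ∈ ·)).card * log (n : ℝ) + 1 ≤ B) :
    ((shape H P T).card : ℝ)
      ≤ B * (shape H (P.erase w) (T.filter (w ∉ ·))).card := by
  set ρ : ({x // x ∈ P} → Fin n) → ({x // x ∈ P.erase w} → Fin n) :=
    fun f x => f ⟨x.1, mem_of_mem_erase x.2⟩ with hρ
  have hmaps : ∀ f ∈ shape H P T, ρ f ∈ shape H (P.erase w) (T.filter (w ∉ ·)) := by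
    intro f hf
    obtain ⟨g, hg, rfl⟩ := mem_image.1 hf
    exact mem_image.2 ⟨g, mem_filter.2 ⟨mem_univ _,
      (image_subset_image (filter_subset _ _)).trans (mem_filter.1 hg).2⟩, rfl⟩
  rw [card_eq_sum_card_fiberwise hmaps, Nat.cast_sum, mul_comm, ← nsmul_eq_mul, ← sum_const]
  refine sum_le_sum fun f _ => ?_
  rcases ((shape H P T).filter fun a => ρ a = f).eq_empty_or_nonempty with h0 | ⟨a₀, ha₀⟩
  · have : 0 ≤ log (n : ℝ) := log_natCast_nonneg n
    rw [h0, card_empty, Nat.cast_zero]
    refine le_trans ?_ hB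
    positivity
  obtain ⟨ha₀, hρ₀⟩ := mem_filter.1 ha₀
  obtain ⟨g₀, hg₀, rfl⟩ := mem_image.1 ha₀
  set N : Finset (Fin n) := univ.filter fun u => s(w, u) ∈ T with hN
  have hNc : N.card = (T.filter (w ∈ ·)).card := by
    rw [← card_image_of_injective N (f := fun u => s(w, u)) fun a b h => Sym2.congr_right.1 h]
    congr 1
    ext y
    simp only [mem_image, hN, mem_filter, mem_univ, true_and]
    refine ⟨fun ⟨u, hu, e⟩ => e ▸ ⟨hu, Sym2.mem_mk_left w u⟩, fun ⟨hy, hw⟩ => ?_⟩
    obtain ⟨u, rfl⟩ := Sym2.mem_iff_exists.1 hw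
    exact ⟨u, hy, rfl⟩
  have hNP : ∀ u ∈ N, u ∈ P.erase w := by
    intro u hu
    have hu' := (mem_filter.1 hu).2
    refine mem_erase.2 ⟨fun e => ?_, hP _ hu' u (Sym2.mem_mk_right w u)⟩
    exact mem_allEdges.1 (hT hu') (by rw [e]; simp)
  set R : Finset (Fin n) := N.image g₀ with hR
  set W : Finset (Fin n) := univ.filter fun z => z ∉ R ∧ ∀ u ∈ R, s(u, z) ∈ H with hW
  have hcommon := common_le hq hs R W (disjoint_right.2 fun z hz => (mem_filter.1 hz).2.1)
    fun u hu z hz => (mem_filter.1 hz).2.2 u hu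
  rw [hR, card_image_of_injective _ g₀.injective, hNc] at hcommon
  refine le_trans ?_ (hcommon.trans hB)
  refine Nat.cast_le.2 ?_
  by_cases hwP : w ∈ P
  · refine card_le_card_of_injOn (fun a => a ⟨w, hwP⟩) ?_ ?_
    · intro a ha
      obtain ⟨ha, hρa⟩ := mem_filter.1 (mem_coe.1 ha)
      obtain ⟨g, hg, rfl⟩ := mem_image.1 ha
      have hgg : ∀ u ∈ N, g u = g₀ u := fun u hu =>
        congrFun (hρa.trans hρ₀.symm) ⟨u, hNP u hu⟩
      refine mem_coe.2 (mem_filter.2 ⟨mem_univ _, ?_, ?_⟩)
      · intro hz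
        obtain ⟨u, hu, he⟩ := mem_image.1 hz
        rw [← hgg u hu] at he
        exact (mem_erase.1 (hNP u hu)).1 (g.injective he)
      · intro u' hu'
        obtain ⟨u, hu, rfl⟩ := mem_image.1 hu'
        rw [← hgg u hu]
        refine (mem_filter.1 hg).2 (mem_image.2 ⟨s(w, u), (mem_filter.1 hu).2, ?_⟩)
        rw [smul_sym2, Sym2.map_mk]
        exact Sym2.eq_swap
    · intro a ha b hb h
      refine funext fun x => ?_
      by_cases hx : x.1 = w
      · obtain ⟨x, hxP⟩ := x
        simp only at hx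
        subst hx
        exact h
      · exact congrFun ((mem_filter.1 (mem_coe.1 ha)).2.trans
          (mem_filter.1 (mem_coe.1 hb)).2.symm) ⟨x.1, mem_erase.2 ⟨hx, x.2⟩⟩
  · refine le_trans (card_le_one.2 fun a ha b hb => funext fun x => ?_) (card_pos.2 ⟨g₀ w, ?_⟩)
    · exact congrFun ((mem_filter.1 ha).2.trans (mem_filter.1 hb).2.symm)
        ⟨x.1, mem_erase.2 ⟨fun e => hwP (e ▸ x.2), x.2⟩⟩
    · refine mem_filter.2 ⟨mem_univ _, ?_, ?_⟩
      · intro hz
        obtain ⟨u, hu, he⟩ := mem_image.1 hz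
        exact hwP (g₀.injective he ▸ mem_of_mem_erase (hNP u hu))
      · intro u' hu'
        obtain ⟨u, hu, rfl⟩ := mem_image.1 hu'
        exact absurd (hP _ (mem_filter.1 hu).2 w (Sym2.mem_mk_left w u)) hwP

/-- The levels of vertices determine those of edges. -/
noncomputable def maxLev {L : ℕ} (v : Fin n → Fin (L + 1)) : Sym2 (Fin n) → Fin (L + 1) :=
  Sym2.lift ⟨fun a b => max (v a) (v b), fun _ _ => max_comm _ _⟩

lemma maxLev_mk {L : ℕ} (v : Fin n → Fin (L + 1)) (a b : Fin n) :
    maxLev v s(a, b) = max (v a) (v b) := rfl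

/-- The bound for a set of edges all of whose vertices have large degree. -/
theorem X_le_core {q : ℝ} {r : ℕ} (hq : 0 < q) (hlam : 1 ≤ log (1 / q))
    (hs : Sparse (Equiv.Perm (Fin n)) H q)
    (hr : log (n : ℝ) ≤ 2 * ((r : ℝ) + 1) * log (1 / q))
    (hP : ∀ y ∈ T, ∀ w ∈ y, w ∈ P) (hdeg : (r + 1) * P.card ≤ 2 * T.card) (hne : P.Nonempty) :
    X (Equiv.Perm (Fin n)) T H
      ≤ (exp (170 + 2 * log ((Nat.log 2 n : ℝ) + 2) / ((r : ℝ) + 1)) * q) ^ T.card := by
  rcases eq_or_lt_of_le (X_nonneg (Γ := Equiv.Perm (Fin n)) T H) with h0 | h0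
  · rw [← h0]; positivity
  set S : Finset (Equiv.Perm (Fin n)) := univ.filter fun g => img g T ⊆ H with hS
  have hN : 0 < S.card := by
    obtain ⟨g, hg⟩ := exists_of_X_pos h0
    exact card_pos.2 ⟨g, by simp [hS, hg]⟩
  have hp : 1 ≤ P.card := card_pos.2 hne
  have ht : 1 ≤ T.card := by
    have : 1 * 1 ≤ (r + 1) * P.card := Nat.mul_le_mul (by omega) hp
    omega
  set L := Nat.log 2 n + 1 with hL
  set c : Fin n → ℕ := fun z => (S.filter fun g : Equiv.Perm (Fin n) => z ∈ P.image (⇑g)).card with hc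
  obtain ⟨v, hv1, hv2⟩ := exists_levels (L := L) c hN fun z => card_filter_le _ _
  set ext' : ({x // x ∈ P} → Fin (L + 1)) → Fin n → Fin (L + 1) :=
    fun f x => if h : x ∈ P then f ⟨x, h⟩ else 0 with hext
  set Λ : Finset ({y // y ∈ T} → Fin (L + 1)) :=
    univ.image fun f => fun y => maxLev (ext' f) y.1 with hΛ
  have hpat : ∀ g : Equiv.Perm (Fin n), img g T ⊆ H →
      (fun y : {y // y ∈ T} => maxLev v (g • y.1)) ∈ Λ := by
    intro g _
    refine mem_image.2 ⟨fun x => v (g x.1), mem_univ _, funext fun ⟨y, hy⟩ => ?_⟩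
    induction y using Sym2.ind with
    | _ a b =>
      have ha := hP _ hy a (Sym2.mem_mk_left a b)
      have hb := hP _ hy b (Sym2.mem_mk_right a b)
      simp only [smul_sym2, Sym2.map_mk, maxLev_mk, hext, dif_pos ha, dif_pos hb]
  have hup : ∀ y ∈ H, (S.filter fun g => y ∈ img g T).card * 2 ^ (maxLev v y : ℕ) ≤ S.card := by
    intro y _
    have key : ∀ z ∈ y, (S.filter fun g => y ∈ img g T).card ≤ c z := by
      intro z hz
      refine card_le_card fun g hg => ?_
      obtain ⟨hgS, hgy⟩ := mem_filter.1 hg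
      obtain ⟨x, hx, rfl⟩ := mem_image.1 hgy
      rw [smul_sym2, Sym2.mem_map] at hz
      obtain ⟨u, hu, rfl⟩ := hz
      exact mem_filter.2 ⟨hgS, mem_image_of_mem _ (hP x hx u hu)⟩
    induction y using Sym2.ind with
    | _ a b =>
      rw [maxLev_mk]
      rcases max_choice (v a) (v b) with h | h <;> rw [h]
      · exact (Nat.mul_le_mul_right _ (key a (Sym2.mem_mk_left a b))).trans (hv1 a)
      · exact (Nat.mul_le_mul_right _ (key b (Sym2.mem_mk_right a b))).trans (hv1 b)
  have hmain := X_le_pattern hs hq (maxLev v) Λ hpat hup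
  set B : ℝ := ∑ y ∈ H, (2⁻¹ : ℝ) ^ (maxLev v y : ℕ) with hB
  set lam : ℝ := log (1 / q) with hlamdef
  set W : ℕ → Finset (Fin n) := fun i => univ.filter fun z => (v z : ℕ) ≤ i with hW
  have hBle : B * lam ≤ log (n : ℝ) * (2 * (2 * P.card + 1)) + 2 := by
    have h1 : B ≤ ∑ i ∈ range (L + 1),
        ((H.filter fun y => (maxLev v y : ℕ) ≤ i).card : ℝ) * 2⁻¹ ^ i := by
      simp only [card_filter, Nat.cast_sum, Nat.cast_ite, Nat.cast_one, Nat.cast_zero, sum_mul]
      rw [sum_comm, hB]
      refine sum_le_sum fun y _ => ?_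
      refine le_trans (le_of_eq ?_) (single_le_sum (fun i _ => by positivity)
        (mem_range.2 (maxLev v y).isLt))
      simp
    have h2 : ∀ i : ℕ, ((H.filter fun y => (maxLev v y : ℕ) ≤ i).card : ℝ) * lam
        ≤ (W i).card * log (n : ℝ) + log 2 := by
      intro i
      refine spanned_le hq hs (filter_subset _ _) fun y hy z hz => ?_
      refine mem_filter.2 ⟨mem_univ _, le_trans ?_ (mem_filter.1 hy).2⟩
      obtain ⟨u, rfl⟩ := Sym2.mem_iff_exists.1 hz
      rw [maxLev_mk]
      exact Fin.le_def.1 (le_max_left _ _)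
    have h3 : ∀ a : ℕ, ∑ i ∈ range (L + 1), (if a ≤ i then (1:ℝ) else 0) * 2⁻¹ ^ i
        ≤ 2 * 2⁻¹ ^ a := by
      intro a
      simp only [ite_mul, one_mul, zero_mul]
      rw [← sum_filter]
      refine le_trans (sum_le_sum_of_subset_of_nonneg (t := Ico a (a + (L + 1))) ?_
        fun _ _ _ => by positivity) ?_
      · intro i hi
        simp only [mem_filter, mem_range] at hi
        exact mem_Ico.2 ⟨hi.2, by omega⟩
      · rw [sum_Ico_eq_sum_range, Nat.add_sub_cancel_left]
        simp only [pow_add, ← mul_sum]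
        have := sum_geometric_two_le (L + 1)
        simp only [one_div] at this
        rw [mul_comm (2:ℝ)]
        exact mul_le_mul_of_nonneg_left this (by positivity)
    have h4 : ∑ i ∈ range (L + 1), ((W i).card : ℝ) * 2⁻¹ ^ i ≤ 2 * (2 * P.card + 1) := by
      simp only [hW, card_filter, Nat.cast_sum, Nat.cast_ite, Nat.cast_one, Nat.cast_zero, sum_mul]
      rw [sum_comm]
      refine (sum_le_sum fun z _ => h3 (v z)).trans ?_
      rw [← mul_sum]
      refine mul_le_mul_of_nonneg_left ((sum_le_sum fun z _ => hv2 z).trans ?_) (by norm_num)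
      have hsum : ∑ z : Fin n, c z ≤ S.card * P.card := by
        simp only [hc, card_filter]
        rw [sum_comm, ← smul_eq_mul, ← sum_const]
        refine sum_le_sum fun g _ => ?_
        rw [← card_filter]
        exact (card_le_card fun z hz => (mem_filter.1 hz).2).trans card_image_le
      have h5 : (n : ℝ) * 2⁻¹ ^ L ≤ 1 := by
        rw [inv_pow, ← div_eq_mul_inv, div_le_one (by positivity)]
        exact_mod_cast (Nat.lt_pow_succ_log_self (by norm_num) n).le
      have h6 : ∑ z : Fin n, 2 * (c z : ℝ) / S.card ≤ 2 * P.card := by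
        rw [← sum_div, ← mul_sum, div_le_iff₀ (Nat.cast_pos.2 hN)]
        have : ((∑ z : Fin n, c z : ℕ) : ℝ) ≤ ((S.card * P.card : ℕ) : ℝ) := Nat.cast_le.2 hsum
        push_cast at this
        linarith
      rw [sum_add_distrib, sum_const, nsmul_eq_mul, card_univ, Fintype.card_fin]
      linarith
    have h7 : ∑ i ∈ range (L + 1), (2⁻¹ : ℝ) ^ i ≤ 2 := by
      have := sum_geometric_two_le (L + 1)
      simpa only [one_div] using this
    calc B * lam ≤ (∑ i ∈ range (L + 1),
          ((H.filter fun y => (maxLev v y : ℕ) ≤ i).card : ℝ) * 2⁻¹ ^ i) * lam :=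
          mul_le_mul_of_nonneg_right h1 (by linarith)
      _ ≤ ∑ i ∈ range (L + 1), ((W i).card * log (n : ℝ) + log 2) * 2⁻¹ ^ i := by
          rw [sum_mul]
          refine sum_le_sum fun i _ => ?_
          rw [mul_right_comm]
          exact mul_le_mul_of_nonneg_right (h2 i) (by positivity)
      _ = log (n : ℝ) * ∑ i ∈ range (L + 1), ((W i).card : ℝ) * 2⁻¹ ^ i
          + log 2 * ∑ i ∈ range (L + 1), (2⁻¹ : ℝ) ^ i := by
          simp only [mul_sum, ← sum_add_distrib]
          exact sum_congr rfl fun i _ => by ring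
      _ ≤ log (n : ℝ) * (2 * (2 * P.card + 1)) + log 2 * 2 :=
          add_le_add (mul_le_mul_of_nonneg_left h4 (log_natCast_nonneg n))
            (mul_le_mul_of_nonneg_left h7 (log_nonneg (by norm_num)))
      _ ≤ _ := by linarith [log_two_lt_d9]
  have hpR : (1 : ℝ) ≤ P.card := Nat.one_le_cast.2 hp
  have htR : (1 : ℝ) ≤ T.card := Nat.one_le_cast.2 ht
  have hdR : ((r : ℝ) + 1) * P.card ≤ 2 * T.card := by exact_mod_cast hdeg
  have hB2 : B ≤ 26 * T.card := by
    refine le_of_mul_le_mul_right (hBle.trans ?_) (by linarith : 0 < lam)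
    have a1 : log (n : ℝ) * (2 * (2 * P.card + 1)) ≤ 2 * ((r : ℝ) + 1) * lam * (6 * P.card) :=
      mul_le_mul hr (by linarith) (by positivity) (by positivity)
    have a2 : ((r : ℝ) + 1) * P.card * lam ≤ 2 * T.card * lam :=
      mul_le_mul_of_nonneg_right hdR (by linarith)
    have a3 : (1 : ℝ) ≤ T.card * lam := one_le_mul_of_one_le_of_one_le htR hlam
    linarith
  set K : ℝ := (Nat.log 2 n : ℝ) + 2 with hK
  have hK1 : 1 ≤ K := by
    have : (0 : ℝ) ≤ Nat.log 2 n := Nat.cast_nonneg _
    rw [hK]; linarith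
  have hΛc : (Λ.card : ℝ) ≤ exp (2 * log K / ((r : ℝ) + 1)) ^ T.card := by
    have h1 : (Λ.card : ℝ) ≤ K ^ P.card := by
      have : Λ.card ≤ (L + 1) ^ P.card := card_image_le.trans (by simp [card_univ])
      have := (Nat.cast_le (α := ℝ)).2 this
      push_cast at this
      rw [show (L : ℝ) = (Nat.log 2 n : ℝ) + 1 by simp [hL]] at this
      rw [hK]
      refine le_of_le_of_eq this ?_
      ring
    refine h1.trans ?_
    rw [← exp_nat_mul, ← rpow_natCast K, rpow_def_of_pos (by linarith), exp_le_exp,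
      mul_div_assoc', le_div_iff₀ (by positivity)]
    calc log K * P.card * ((r : ℝ) + 1) = log K * (((r : ℝ) + 1) * P.card) := by ring
      _ ≤ log K * (2 * T.card) := mul_le_mul_of_nonneg_left hdR (log_nonneg hK1)
      _ = _ := by ring
  have hexp : exp (2 + 6 * B) ≤ exp 170 ^ T.card := by
    rw [← exp_nat_mul, exp_le_exp]
    linarith
  calc X (Equiv.Perm (Fin n)) T H ≤ Λ.card * q ^ T.card * exp (2 + 6 * B) := hmain
    _ ≤ exp (2 * log K / ((r : ℝ) + 1)) ^ T.card * q ^ T.card * exp 170 ^ T.card := by gcongr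
    _ = _ := by rw [exp_add, mul_pow, mul_pow]; ring

/-- The factor of `spread_dense`. -/
noncomputable def denseFactor (n r : ℕ) : ℝ :=
  exp (170 + 2 * log ((Nat.log 2 n : ℝ) + 2) / ((r : ℝ) + 1))

lemma one_le_denseFactor (n r : ℕ) : 1 ≤ denseFactor n r := by
  refine one_le_exp ?_
  have : (0 : ℝ) ≤ Nat.log 2 n := Nat.cast_nonneg _
  have : 0 ≤ log ((Nat.log 2 n : ℝ) + 2) := log_nonneg (by linarith)
  positivity

/-- Counting restrictions by removing vertices of small degree. -/
theorem shape_le {q : ℝ} {r : ℕ} (hq : 0 < q) (hlam : 1 ≤ log (1 / q))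
    (hs : Sparse (Equiv.Perm (Fin n)) H q)
    (hr : log (n : ℝ) ≤ 2 * ((r : ℝ) + 1) * log (1 / q))
    (hsmall : ∀ i ≤ r, exp 2 * ((n : ℝ) * q ^ i) + i * log (n : ℝ) + 1 ≤ 30 * ((n : ℝ) * q ^ i)) :
    ∀ (m : ℕ) (P : Finset (Fin n)) (T : Finset (Sym2 (Fin n))), P.card = m → T ⊆ allEdges n →
      (∀ y ∈ T, ∀ u ∈ y, u ∈ P) →
      ((shape H P T).card : ℝ) ≤ (30 * n) ^ m * (denseFactor n r * q) ^ T.card := by
  intro m
  induction m with
  | zero =>
    intro P T hP _ hPT
    rw [card_eq_zero] at hP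
    subst hP
    have hT : T = ∅ := eq_empty_of_forall_notMem fun y hy => by
      induction y using Sym2.ind with
      | _ a b => simpa using hPT _ hy a (Sym2.mem_mk_left a b)
    subst hT
    have : (shape H (∅ : Finset (Fin n)) ∅).card ≤ 1 :=
      card_le_one.2 fun a _ b _ => funext fun x => absurd x.2 (notMem_empty _)
    simpa using (Nat.cast_le (α := ℝ)).2 this
  | succ m ih =>
    intro P T hm hT hPT
    have hQ := one_le_denseFactor n r
    by_cases hlow : ∃ w ∈ P, (T.filter (w ∈ ·)).card ≤ r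
    · obtain ⟨w, hw, hdeg⟩ := hlow
      set i := (T.filter (w ∈ ·)).card with hi
      have hnq : 0 ≤ 30 * ((n : ℝ) * q ^ i) := by positivity
      refine (shape_erase hq hs hT hPT (w := w) (hsmall i hdeg)).trans ?_
      have hrec := ih (P.erase w) (T.filter (w ∉ ·)) (by rw [card_erase_of_mem hw, hm]; omega)
        ((filter_subset _ _).trans hT) fun y hy u hu =>
          mem_erase.2 ⟨fun e => (mem_filter.1 hy).2 (e ▸ hu), hPT y (mem_filter.1 hy).1 u hu⟩
      refine (mul_le_mul_of_nonneg_left hrec hnq).trans ?_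
      have hsplit : T.card = i + (T.filter (w ∉ ·)).card := by
        rw [hi, card_filter_add_card_filter_not]
      rw [hsplit, pow_add (denseFactor n r * q), pow_succ (30 * (n : ℝ)), mul_pow (denseFactor n r) q i]
      have h1 : (1 : ℝ) ≤ denseFactor n r ^ i := one_le_pow₀ hQ
      calc _ = (30 * (n : ℝ)) ^ m * (30 * n) * (1 * q ^ i)
            * (denseFactor n r * q) ^ (T.filter (w ∉ ·)).card := by ring
        _ ≤ (30 * (n : ℝ)) ^ m * (30 * n) * (denseFactor n r ^ i * q ^ i)
            * (denseFactor n r * q) ^ (T.filter (w ∉ ·)).card := by gcongr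
        _ = _ := by ring
    · simp only [not_exists, not_and, not_le] at hlow
      have hne : P.Nonempty := card_pos.1 (by omega)
      have hdeg : (r + 1) * P.card ≤ 2 * T.card := by
        calc (r + 1) * P.card = ∑ _w ∈ P, (r + 1) := by rw [sum_const, smul_eq_mul, mul_comm]
          _ ≤ ∑ w ∈ P, (T.filter (w ∈ ·)).card := sum_le_sum fun w hw => hlow w hw
          _ = ∑ y ∈ T, (P.filter (· ∈ y)).card := by simp only [card_filter]; exact sum_comm
          _ ≤ ∑ _y ∈ T, 2 := sum_le_sum fun y _ => by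
              induction y using Sym2.ind with
              | _ a b =>
                refine (card_le_card (t := {a, b}) fun z hz => ?_).trans card_le_two
                simpa using (mem_filter.1 hz).2
          _ = 2 * T.card := by rw [sum_const, smul_eq_mul, mul_comm]
      have hX := X_le_core hq hlam hs hr hPT hdeg hne
      rw [X, Fintype.card_perm, Fintype.card_fin, div_le_iff₀ (by positivity)] at hX
      have hgood : ((shape H P T).card : ℝ) * (n - P.card).factorial
          ≤ (denseFactor n r * q) ^ T.card * n.factorial :=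
        le_trans (by exact_mod_cast shape_le_good hPT) hX
      have hf := factorial_le_pow (n := n) (m := P.card) (by simpa using card_le_univ P)
      have h2 : ((shape H P T).card : ℝ) * (n - P.card).factorial
          ≤ (30 * (n : ℝ)) ^ P.card * (denseFactor n r * q) ^ T.card
            * (n - P.card).factorial := by
        have hQq : 0 ≤ (denseFactor n r * q) ^ T.card := by positivity
        calc _ ≤ _ := hgood
          _ ≤ (denseFactor n r * q) ^ T.card * ((n : ℝ) ^ P.card * (n - P.card).factorial) :=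
            mul_le_mul_of_nonneg_left hf hQq
          _ ≤ (denseFactor n r * q) ^ T.card
              * ((30 * (n : ℝ)) ^ P.card * (n - P.card).factorial) := by
            gcongr
            linarith [(Nat.cast_nonneg n : (0:ℝ) ≤ _)]
          _ = _ := by ring
      rw [hm] at h2
      exact le_of_mul_le_mul_right h2 (by positivity)

/-- Spreadness in dense regimes. -/
theorem spread_dense {q : ℝ} {r : ℕ} (hq : 0 < q) (hlam : 1 ≤ log (1 / q))
    (hs : Sparse (Equiv.Perm (Fin n)) H q) (hH : H ⊆ allEdges n)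
    (hr : log (n : ℝ) ≤ 2 * ((r : ℝ) + 1) * log (1 / q))
    (hsmall : ∀ i ≤ r, exp 2 * ((n : ℝ) * q ^ i) + i * log (n : ℝ) + 1 ≤ 30 * ((n : ℝ) * q ^ i))
    (T : Finset (Sym2 (Fin n))) :
    X (Equiv.Perm (Fin n)) T H ≤ ((30 * exp 1) ^ 2 * denseFactor n r * q) ^ T.card := by
  rcases eq_or_lt_of_le (X_nonneg (Γ := Equiv.Perm (Fin n)) T H) with h0 | h0
  · rw [← h0]
    have := one_le_denseFactor n r
    positivity
  have hT : T ⊆ allEdges n := by
    obtain ⟨g, hg⟩ := exists_of_X_pos h0
    intro y hy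
    have := mem_allEdges.1 (hH (hg (mem_image_of_mem _ hy)))
    rw [smul_sym2, Sym2.isDiag_map g.injective] at this
    exact mem_allEdges.2 this
  set P : Finset (Fin n) := univ.filter fun w => ∃ y ∈ T, w ∈ y with hP
  have hPT : ∀ y ∈ T, ∀ u ∈ y, u ∈ P := fun y hy u hu =>
    mem_filter.2 ⟨mem_univ _, y, hy, hu⟩
  have hPc : P.card ≤ T.card * 2 := by
    refine (card_le_card (t := T.biUnion fun y => univ.filter (· ∈ y)) ?_).trans
      (card_biUnion_le_card_mul _ _ _ fun y _ => ?_)
    · intro w hw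
      obtain ⟨y, hy, hwy⟩ := (mem_filter.1 hw).2
      exact mem_biUnion.2 ⟨y, hy, mem_filter.2 ⟨mem_univ _, hwy⟩⟩
    · induction y using Sym2.ind with
      | _ a b =>
        refine (card_le_card (t := {a, b}) fun z hz => ?_).trans card_le_two
        simpa using (mem_filter.1 hz).2
  have hPn : P.card ≤ n := by simpa using card_le_univ P
  have hshape := shape_le hq hlam hs hr hsmall _ P T rfl hT hPT
  rw [X, Fintype.card_perm, Fintype.card_fin, div_le_iff₀ (by positivity)]
  have hQ := one_le_denseFactor n r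
  have hQq : 0 ≤ (denseFactor n r * q) ^ T.card := by positivity
  calc ((univ.filter fun g : Equiv.Perm (Fin n) => img g T ⊆ H).card : ℝ)
      ≤ (shape H P T).card * (n - P.card).factorial := by exact_mod_cast good_le_shape
    _ ≤ (30 * (n : ℝ)) ^ P.card * (denseFactor n r * q) ^ T.card * (n - P.card).factorial :=
        mul_le_mul_of_nonneg_right hshape (Nat.cast_nonneg _)
    _ = 30 ^ P.card * (denseFactor n r * q) ^ T.card
          * ((n : ℝ) ^ P.card * (n - P.card).factorial) := by rw [mul_pow]; ring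
    _ ≤ 30 ^ P.card * (denseFactor n r * q) ^ T.card * (exp P.card * n.factorial) :=
        mul_le_mul_of_nonneg_left (pow_le_exp_factorial hPn) (by positivity)
    _ = (30 * exp 1) ^ P.card * ((denseFactor n r * q) ^ T.card * n.factorial) := by
        rw [show exp (P.card : ℝ) = exp 1 ^ P.card by rw [← exp_nat_mul, mul_one],
          mul_pow (30 : ℝ) (exp 1) P.card]
        ring
    _ ≤ (30 * exp 1) ^ (2 * T.card) * ((denseFactor n r * q) ^ T.card * n.factorial) := by
        refine mul_le_mul_of_nonneg_right (pow_le_pow_right₀ ?_ (by omega)) (by positivity)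
        linarith [exp_one_gt_d9]
    _ = _ := by rw [pow_mul, mul_assoc ((30 * exp 1) ^ 2), mul_pow ((30 * exp 1) ^ 2)]; ring

end Vale.Agent.P064
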