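import Vale.Agent.P064.Block

/-!
# Gluing two families of copies

A tuple of copies has met vertices and edges (those in at least two copies). The common part of two
tuples is cut at the vertices met on both sides; the pieces are either reached from there along
marked edges, or chosen by classes: a class is an orbit of pieces under the permutations fixing the
vertices of attachment. `cost0` is the price of describing a common part.
-/

open Finset Real
open scoped Classical

namespace Vale.Agent.P064

variable {n : ℕ}

/-- A vertex set with some edges at it. -/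
abbrev Piece (n : ℕ) := Finset (Fin n) × Finset (Sym2 (Fin n))

/-- The ends of some edges. -/
noncomputable def ends (E : Finset (Sym2 (Fin n))) : Finset (Fin n) :=
  univ.filter fun v => ∃ y ∈ E, v ∈ y

/-- The edges of `U` at a vertex set. -/
noncomputable def inc (U : Finset (Sym2 (Fin n))) (K : Finset (Fin n)) : Finset (Sym2 (Fin n)) :=
  U.filter fun y => ∃ v ∈ K, v ∈ y

/-- The degree of a vertex. -/
noncomputable def degIn (U : Finset (Sym2 (Fin n))) (v : Fin n) : ℕ :=
  (U.filter fun y => v ∈ y).card

/-- The weight of a vertex set in `U`. -/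
noncomputable def wgt (U : Finset (Sym2 (Fin n))) (K : Finset (Fin n)) : ℝ :=
  (4⁻¹ : ℝ) ^ ∑ v ∈ K, degIn U v

/-- Every part of `K` holding `Z` sends an edge of `E` to the rest of `K`. -/
def Linked (K : Finset (Fin n)) (E : Finset (Sym2 (Fin n))) (Z : Finset (Fin n)) : Prop :=
  ∀ P ⊆ K, Z ⊆ P → P ≠ K → ∃ a ∈ P, ∃ b ∈ K, b ∉ P ∧ s(a, b) ∈ E

/-- A connected piece of `U`. -/
structure IsUnit' (U : Finset (Sym2 (Fin n))) (p : Piece n) : Prop where
  nonempty : p.1.Nonempty
  sub : p.2 ⊆ inc U p.1
  covered : ∀ v ∈ p.1, v ∈ ends p.2
  linked : ∀ x ∈ p.1, Linked p.1 p.2 {x}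

/-- The connected pieces of `U`. -/
noncomputable def units (U : Finset (Sym2 (Fin n))) : Finset (Piece n) := univ.filter (IsUnit' U)

/-- The vertices of attachment of a piece. -/
noncomputable def att (p : Piece n) : Finset (Fin n) := ends p.2 \ p.1

/-- Two pieces differ by a permutation fixing their attachments. -/
def SameClass (p p' : Piece n) : Prop :=
  ∃ g : Equiv.Perm (Fin n), (∀ x ∈ att p, g x = x) ∧ p.1.image g = p'.1 ∧ img g p.2 = p'.2

/-- The class of a piece. -/
noncomputable def pieceClass (p : Piece n) : Finset (Piece n) := univ.filter (SameClass p)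

/-- The weight of a class in `U`. -/
noncomputable def classWgt (U : Finset (Sym2 (Fin n))) (κ : Finset (Piece n)) : ℝ :=
  ∑ p ∈ (units U).filter (· ∈ κ), wgt U p.1

/-- The balance of a piece when `q = exp (-lam)`. -/
noncomputable def pot (lam : ℝ) (p : Piece n) : ℝ :=
  (p.1.card : ℝ) * log (n : ℝ) - (p.2.card : ℝ) * lam

/-- The balance of a class. -/
noncomputable def classPot (lam : ℝ) (κ : Finset (Piece n)) : ℝ :=
  if h : κ.Nonempty then pot lam h.choose else 0

/-- The scale `log log n`. -/
noncomputable def sell (n : ℕ) : ℝ := log (log (n : ℝ) + 3) + 24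

/-- The weight of a deviation. -/
noncomputable def devWgt (ell d : ℝ) : ℝ := 1 / (ell + |d|) ^ 2

/-- The matching weight of a class in `U`. -/
noncomputable def matchWgt (lam : ℝ) (U : Finset (Sym2 (Fin n))) (κ : Finset (Piece n)) : ℝ :=
  √(classWgt U κ) * devWgt (sell n) (log (classWgt U κ) - classPot lam κ)

/-- An edge set with a marked end or two on each edge. -/
structure Pat (n : ℕ) where
  T : Finset (Sym2 (Fin n))
  mark : Sym2 (Fin n) → Finset (Fin n)
  T_sub : T ⊆ allEdges n
  mark_sub : ∀ y ∈ T, ∀ x ∈ mark y, x ∈ y
  mark_ne : ∀ y ∈ T, (mark y).Nonempty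

namespace Pat

variable (P : Pat n) {k : ℕ}

/-- The edges covered by some copies. -/
noncomputable def edges (t : Fin k → Equiv.Perm (Fin n)) : Finset (Sym2 (Fin n)) :=
  univ.biUnion fun i => img (t i) P.T

/-- The number of copies at a vertex. -/
noncomputable def copV (t : Fin k → Equiv.Perm (Fin n)) (v : Fin n) : ℕ :=
  (univ.filter fun i => v ∈ ends (img (t i) P.T)).card

/-- The number of copies at an edge. -/
noncomputable def copE (t : Fin k → Equiv.Perm (Fin n)) (y : Sym2 (Fin n)) : ℕ :=
  (univ.filter fun i => y ∈ img (t i) P.T).card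

/-- The vertices in two copies or more. -/
noncomputable def metV (t : Fin k → Equiv.Perm (Fin n)) : Finset (Fin n) :=
  univ.filter fun v => 2 ≤ P.copV t v

/-- The edges in two copies or more. -/
noncomputable def metE (t : Fin k → Equiv.Perm (Fin n)) : Finset (Sym2 (Fin n)) :=
  (P.edges t).filter fun y => 2 ≤ P.copE t y

/-- Some copy marks this end of this edge. -/
def Rich (t : Fin k → Equiv.Perm (Fin n)) (y : Sym2 (Fin n)) (x : Fin n) : Prop :=
  ∃ i, ∃ z ∈ P.T, ∃ w ∈ P.mark z, t i • z = y ∧ t i w = x

/-- An attachment through which a piece can be found from its side. -/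
def SeedOK (t : Fin k → Equiv.Perm (Fin n)) (y : Sym2 (Fin n)) (x : Fin n) : Prop :=
  2 ≤ P.copE t y ∨ P.Rich t y x

/-- The edges of one copy marked at `x`. -/
noncomputable def richAt (t : Fin k → Equiv.Perm (Fin n)) (x : Fin n) : Finset (Sym2 (Fin n)) :=
  (P.edges t).filter fun y => x ∈ y ∧ P.copE t y < 2 ∧ P.Rich t y x

variable (lam : ℝ) (t u : Fin k → Equiv.Perm (Fin n))

/-- The common edges. -/
noncomputable def common : Finset (Sym2 (Fin n)) := P.edges t ∩ P.edges u

/-- The common vertices met on both sides. -/
noncomputable def mid : Finset (Fin n) := ends (P.common t u) ∩ P.metV t ∩ P.metV u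

/-- The other common vertices. -/
noncomputable def outer : Finset (Fin n) := ends (P.common t u) \ P.mid t u

/-- A common edge between two other common vertices. -/
def step (a b : Fin n) : Prop := a ∈ P.outer t u ∧ b ∈ P.outer t u ∧ s(a, b) ∈ P.common t u

/-- The piece of a vertex. -/
noncomputable def part (v : Fin n) : Piece n :=
  ((P.outer t u).filter (Relation.ReflTransGen (P.step t u) v),
    inc (P.common t u) ((P.outer t u).filter (Relation.ReflTransGen (P.step t u) v)))

/-- The pieces. -/
noncomputable def parts : Finset (Piece n) := (P.outer t u).image (P.part t u)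

/-- A piece that both sides find from its attachments. -/
def Seeded (p : Piece n) : Prop :=
  ∃ y ∈ p.2, ∃ x ∈ att p, x ∈ y ∧ P.SeedOK t y x ∧ P.SeedOK u y x

/-- The number of unseeded pieces of the same class. -/
noncomputable def mult (p : Piece n) : ℕ :=
  ((P.parts t u).filter fun r => ¬ P.Seeded t u r ∧ r ∈ pieceClass p).card

/-- A small piece of a class that is not overfull. -/
def Slim (p : Piece n) : Prop :=
  (p.1.card : ℝ) + p.2.card < sell n ∧
    (P.mult t u p : ℝ) ≤ sell n * exp (pot lam p + 3 * ((p.1.card : ℝ) + p.2.card))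

/-- The seeded pieces. -/
noncomputable def seededParts : Finset (Piece n) := (P.parts t u).filter (P.Seeded t u)

/-- The pieces matched jointly. -/
noncomputable def jointParts : Finset (Piece n) :=
  (P.parts t u).filter fun p => ¬ P.Seeded t u p ∧ P.Slim lam t u p

/-- The pieces chosen by classes on each side. -/
noncomputable def looseParts : Finset (Piece n) :=
  (P.parts t u).filter fun p => ¬ P.Seeded t u p ∧ ¬ P.Slim lam t u p

/-- The classes chosen on each side. -/
noncomputable def looseClasses : Finset (Finset (Piece n)) :=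
  (P.looseParts lam t u).image pieceClass

/-- The price of the marked edges of the side `s` at a vertex. -/
noncomputable def markCost (s : Fin k → Equiv.Perm (Fin n)) (x : Fin n) : ℝ :=
  2 * ((P.richAt s x ∩ P.common t u).card : ℝ) + 1
    + log (((P.richAt s x).card.choose (P.richAt s x ∩ P.common t u).card : ℕ) : ℝ)

/-- The price of the chosen pieces of one class on the side `s`. -/
noncomputable def looseCost (s : Fin k → Equiv.Perm (Fin n)) (κ : Finset (Piece n)) : ℝ :=
  let g := ((P.looseParts lam t u).filter (· ∈ κ))
  2 * (g.card : ℝ) + 3 * sell n + ((g.card : ℝ) - 1) * log (classWgt (P.edges s) κ)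
    - log (g.card.factorial : ℝ) - ∑ p ∈ g, log (wgt (P.edges s) p.1)

/-- The price of one side. -/
noncomputable def sideCost (s : Fin k → Equiv.Perm (Fin n)) : ℝ :=
  ((P.metV s).card : ℝ) + (P.metE s).card + (ends (P.common t u)).card
    + ∑ x ∈ P.mid t u, P.markCost t u s x
    - ∑ p ∈ P.seededParts t u, log (wgt (P.edges s) p.1)
    + ∑ κ ∈ P.looseClasses lam t u, P.looseCost lam t u s κ
    + (ends (P.edges s)).card / log (n : ℝ) ^ 3

/-- The price of one jointly matched piece. -/
noncomputable def jointCost (p : Piece n) : ℝ :=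
  log (p.1.card.factorial : ℝ) - pot lam p
    + (log (classWgt (P.edges t) (pieceClass p)) / 2 - log (wgt (P.edges t) p.1)
      - log (devWgt (sell n) (log (classWgt (P.edges t) (pieceClass p)) - pot lam p)))
    + (log (classWgt (P.edges u) (pieceClass p)) / 2 - log (wgt (P.edges u) p.1)
      - log (devWgt (sell n) (log (classWgt (P.edges u) (pieceClass p)) - pot lam p)))

/-- The classes that may be matched. -/
noncomputable def openClasses : Finset (Finset (Piece n)) :=
  ((units (P.edges t)).filter fun p => att p ⊆ P.mid t u).image pieceClass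

/-- The allowance for the matchings. -/
noncomputable def matchSum : ℝ :=
  ∑ κ ∈ P.openClasses t u, matchWgt lam (P.edges t) κ * matchWgt lam (P.edges u) κ

/-- The price of the common part. -/
noncomputable def cost0 : ℝ :=
  P.sideCost lam t u t + P.sideCost lam t u u + ∑ p ∈ P.jointParts lam t u, P.jointCost lam t u p
    + P.matchSum lam t u + (ends (P.common t u)).card

end Pat

end Vale.Agent.P064
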