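import Mathlib.Analysis.SpecificLimits.Basic
import Mathlib.Analysis.Complex.ExponentialBounds
import Mathlib.Algebra.BigOperators.Ring.Finset

/-!
# Sums over subsets

Elementary bounds used when codes are counted.
-/

open Finset Real

namespace Vale.Agent.P064

/-- Subsets split along the fibres of a map. -/
lemma sum_powerset_fibres {α ι : Type} [DecidableEq α] [DecidableEq ι] (R : Finset α) (φ : α → ι)
    (I : Finset ι) (hφ : ∀ a ∈ R, φ a ∈ I) (f : ι → Finset α → ℝ) (hf : ∀ i A, 0 ≤ f i A) :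
    ∑ A ∈ R.powerset, ∏ i ∈ I, f i (A.filter (φ · = i))
      ≤ ∏ i ∈ I, ∑ B ∈ (R.filter (φ · = i)).powerset, f i B := by
  rw [prod_sum]
  set J : Finset α → (∀ i ∈ I, Finset α) := fun A i _ => A.filter (φ · = i) with hJ
  have hinj : Set.InjOn J (R.powerset : Finset (Finset α)) := by
    intro A hA A' hA' h
    ext a
    have key : ∀ B ∈ R.powerset, ∀ B' ∈ R.powerset, J B = J B' → a ∈ B → a ∈ B' := by
      intro B hB B' _ e haB
      have hi := hφ a (mem_powerset.1 hB haB)
      have := congrFun (congrFun e (φ a)) hi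
      have ha : a ∈ B.filter (φ · = φ a) := mem_filter.2 ⟨haB, rfl⟩
      simp only [hJ] at this
      rw [this] at ha
      exact (mem_filter.1 ha).1
    exact ⟨key A hA A' hA' h, key A' hA' A hA h.symm⟩
  have e : ∀ A ∈ R.powerset, ∏ i ∈ I, f i (A.filter (φ · = i))
      = ∏ x ∈ I.attach, f x.1 (J A x.1 x.2) := fun A _ =>
    (prod_attach I fun i => f i (A.filter (φ · = i))).symm
  rw [sum_congr rfl e, ← sum_image (g := J) (f := fun p => ∏ x ∈ I.attach, f x.1 (p x.1 x.2)) hinj]
  refine sum_le_sum_of_subset_of_nonneg (fun p hp => ?_) fun p _ _ => prod_nonneg fun x _ => hf _ _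
  obtain ⟨A, hA, rfl⟩ := mem_image.1 hp
  exact mem_pi.2 fun i _ => mem_powerset.2 (filter_subset_filter _ (mem_powerset.1 hA))

/-- Weighted subsets of one size. -/
lemma sum_powersetCard_prod {α : Type} [DecidableEq α] (R : Finset α) (w : α → ℝ)
    (hw : ∀ a ∈ R, 0 ≤ w a) (g : ℕ) :
    (g.factorial : ℝ) * ∑ A ∈ R.powersetCard g, ∏ a ∈ A, w a ≤ (∑ a ∈ R, w a) ^ g := by
  induction R using Finset.induction_on generalizing g with
  | empty =>
    rcases g with _ | g
    · simp
    · rw [powersetCard_eq_empty.2 (by simp), sum_empty, mul_zero]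
      simp
  | @insert a R ha ih =>
    have hwa := hw a (mem_insert_self a R)
    have hw' : ∀ x ∈ R, 0 ≤ w x := fun x hx => hw x (mem_insert_of_mem hx)
    have hS : 0 ≤ ∑ x ∈ R, w x := sum_nonneg hw'
    rcases g with _ | g
    · simp
    have hd : Disjoint (R.powersetCard (g + 1)) ((R.powersetCard g).image (insert a)) := by
      rw [disjoint_left]
      intro A hA hA'
      obtain ⟨B, -, rfl⟩ := mem_image.1 hA'
      exact ha ((mem_powersetCard.1 hA).1 (mem_insert_self a B))
    rw [powersetCard_succ_insert ha, sum_union hd, sum_insert ha, mul_add]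
    have hinj : Set.InjOn (insert a) (R.powersetCard g : Set (Finset α)) := by
      intro A hA B hB h
      have hA' : a ∉ A := fun h' => ha ((mem_powersetCard.1 hA).1 h')
      have hB' : a ∉ B := fun h' => ha ((mem_powersetCard.1 hB).1 h')
      rw [← erase_insert hA', h, erase_insert hB']
    rw [sum_image hinj, sum_congr rfl fun A hA =>
      prod_insert (fun h' => ha ((mem_powersetCard.1 hA).1 h')), ← mul_sum, Nat.factorial_succ]
    push_cast
    have h1 := ih hw' (g + 1)
    rw [Nat.factorial_succ] at h1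
    push_cast at h1
    have h2 := mul_le_mul_of_nonneg_left (ih hw' g) (mul_nonneg hwa (by positivity : (0:ℝ) ≤ g + 1))
    have h3 : (∑ x ∈ R, w x) ^ (g + 1) + (g + 1) * w a * (∑ x ∈ R, w x) ^ g
        ≤ (w a + ∑ x ∈ R, w x) ^ (g + 1) := by
      generalize ∑ x ∈ R, w x = S at hS
      have hk : ∀ m : ℕ, S ^ (m + 1) + (m + 1) * w a * S ^ m ≤ (w a + S) ^ (m + 1) := by
        intro m
        induction m with
        | zero => simp; linarith
        | succ m ihm =>
          have := mul_le_mul_of_nonneg_right ihm (add_nonneg hwa hS)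
          have e : (w a + S) ^ (m + 1 + 1) = (w a + S) ^ (m + 1) * (w a + S) := pow_succ _ _
          have : 0 ≤ (m + 1) * w a * S ^ m * w a := by positivity
          push_cast
          rw [e]
          calc S ^ (m + 1 + 1) + (↑m + 1 + 1) * w a * S ^ (m + 1)
              ≤ (S ^ (m + 1) + (↑m + 1) * w a * S ^ m) * (w a + S) := by
                rw [pow_succ S (m + 1), pow_succ S m]; nlinarith
            _ ≤ _ := by assumption
      exact hk g
    linarith

/-- A geometric series. -/
lemma sum_exp_two_le (N : ℕ) : ∑ g ∈ range N, exp (-(2 * (g : ℝ) + 1)) ≤ 1 := by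
  have hr : exp (-2 : ℝ) ≤ 1 / 2 := by
    rw [exp_neg, inv_le_comm₀ (exp_pos _) (by norm_num)]
    linarith [add_one_le_exp (2 : ℝ)]
  calc ∑ g ∈ range N, exp (-(2 * (g : ℝ) + 1)) = ∑ g ∈ range N, exp (-1) * exp (-2) ^ g :=
        sum_congr rfl fun g _ => by rw [← exp_nat_mul, ← exp_add]; ring_nf
    _ ≤ ∑ g ∈ range N, (1 / 2) * (1 / 2 : ℝ) ^ g := by
        refine sum_le_sum fun g _ => mul_le_mul ?_ (pow_le_pow_left₀ (exp_pos _).le hr g)
          (by positivity) (by norm_num)
        rw [exp_neg, inv_le_comm₀ (exp_pos _) (by norm_num)]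
        linarith [exp_one_gt_d9]
    _ ≤ 1 := by rw [← mul_sum]; linarith [sum_geometric_two_le N]

/-- Summing along the fibres of a map. -/
lemma sum_le_fibres {α β : Type} [DecidableEq β] {C : Finset α} {w : α → ℝ} (f : α → β)
    (B : Finset β) (bd : β → ℝ) (hf : ∀ a ∈ C, f a ∈ B)
    (h : ∀ b ∈ B, ∑ a ∈ C.filter (f · = b), w a ≤ bd b) : ∑ a ∈ C, w a ≤ ∑ b ∈ B, bd b := by
  rw [← sum_fiberwise_of_maps_to hf]
  exact sum_le_sum h

end Vale.Agent.P064
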