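import Vale.Agent.P064.Parts
import Vale.Agent.P064.Marks
import Vale.Agent.P064.Code
import Vale.Agent.P064.Subsets

/-!
# Matched pieces

The permutations fixing a vertex set that match pieces of two edge sets are counted by summing over
the sets of matched pairs.
-/

open Finset Real
open scoped Classical

namespace Vale.Agent.P064

variable {n : ℕ}

/-- The share of one matched pair in the matchings of its class. -/
noncomputable def pairWgt (lam : ℝ) (U V : Finset (Sym2 (Fin n))) (p r : Piece n) : ℝ :=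
  wgt U p.1 * wgt V r.1
    * devWgt (sell n) (log (classWgt U (pieceClass p)) - pot lam p)
    * devWgt (sell n) (log (classWgt V (pieceClass p)) - pot lam p)
    / (√(classWgt U (pieceClass p)) * √(classWgt V (pieceClass p))) / (p.1.card.factorial : ℝ)

/-- The graphs of the bijections between two vertex sets. -/
noncomputable def graphs (K K' : Finset (Fin n)) : Finset (Finset (Fin n × Fin n)) :=
  (univ : Finset ({x // x ∈ K} ↪ {x // x ∈ K'})).image fun e => univ.image fun x => (x.1, (e x).1)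

/-- The possible matched pairs. -/
noncomputable def cands (U V : Finset (Sym2 (Fin n))) (M : Finset (Fin n)) :
    Finset (Piece n × Piece n × Finset (Fin n × Fin n)) :=
  ((units U).filter fun p => att p ⊆ M).biUnion fun p =>
    ((units V).filter (· ∈ pieceClass p)).biUnion fun r =>
      (graphs p.1 r.1).image fun f => (p, r, f)

lemma devWgt_nonneg (ell d : ℝ) : 0 ≤ devWgt ell d := by unfold devWgt; positivity

lemma pairWgt_nonneg (lam : ℝ) (U V : Finset (Sym2 (Fin n))) (p r : Piece n) :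
    0 ≤ pairWgt lam U V p r :=
  div_nonneg (div_nonneg (mul_nonneg (mul_nonneg (mul_nonneg (wgt_pos U _).le (wgt_pos V _).le)
    (devWgt_nonneg _ _)) (devWgt_nonneg _ _)) (by positivity)) (Nat.cast_nonneg _)

lemma card_graphs_le (K K' : Finset (Fin n)) (h : K'.card = K.card) :
    (graphs K K').card ≤ K.card.factorial := by
  refine card_image_le.trans (le_of_eq ?_)
  rw [card_univ, Fintype.card_embedding_eq, Fintype.card_coe, Fintype.card_coe, h,
    Nat.descFactorial_self]

lemma classPot_eq (lam : ℝ) (p : Piece n) : classPot lam (pieceClass p) = pot lam p := by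
  have h : (pieceClass p).Nonempty := ⟨p, self_mem_pieceClass p⟩
  rw [classPot, dif_pos h]
  obtain ⟨g, -, e⟩ := mem_pieceClass.1 h.choose_spec
  conv_lhs => rw [← e]
  exact pot_move g lam p

lemma pair_alg (w v a b x : ℝ) {c : ℝ} (hc : 0 ≤ c) :
    w * v * a * b / (√x * √c) = w * (a * b * √c / √x) / c * v := by
  rcases eq_or_lt_of_le hc with h | h
  · simp [← h]
  · have h2 : √c / c = 1 / √c := sqrt_div_self'
    calc w * v * a * b / (√x * √c) = w * v * (a * b) / √x * (1 / √c) := by ring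
      _ = w * v * (a * b) / √x * (√c / c) := by rw [h2]
      _ = _ := by ring

lemma class_alg (c c' a b : ℝ) : c * (a * b * √c' / √c) = √c * a * (√c' * b) := by
  rw [show c * (a * b * √c' / √c) = c / √c * (a * b * √c') by ring, div_sqrt]
  ring

/-- The possible pairs weigh at most the allowance of their classes. -/
lemma sum_cands_le (lam : ℝ) (U V : Finset (Sym2 (Fin n))) (M : Finset (Fin n)) :
    ∑ c ∈ cands U V M, pairWgt lam U V c.1 c.2.1
      ≤ ∑ κ ∈ ((units U).filter fun p => att p ⊆ M).image pieceClass,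
          matchWgt lam U κ * matchWgt lam V κ := by
  set S := (units U).filter fun p => att p ⊆ M with hS
  have h1 : ∑ c ∈ cands U V M, pairWgt lam U V c.1 c.2.1
      = ∑ p ∈ S, ∑ r ∈ (units V).filter (· ∈ pieceClass p), ∑ f ∈ graphs p.1 r.1,
          pairWgt lam U V p r := by
    rw [cands, sum_biUnion]
    · refine sum_congr rfl fun p _ => ?_
      rw [sum_biUnion]
      · refine sum_congr rfl fun r _ => ?_
        rw [sum_image fun a _ b _ e => congrArg (fun c : Piece n × Piece n × Finset (Fin n × Fin n) => c.2.2) e]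
      · intro r _ r' _ hne
        refine disjoint_left.2 fun c hc hc' => hne ?_
        obtain ⟨f, -, rfl⟩ := mem_image.1 hc
        obtain ⟨f', -, e⟩ := mem_image.1 hc'
        exact (congrArg (fun c => c.2.1) e).symm
    · intro p _ p' _ hne
      refine disjoint_left.2 fun c hc hc' => hne ?_
      obtain ⟨r, -, hc⟩ := mem_biUnion.1 hc
      obtain ⟨r', -, hc'⟩ := mem_biUnion.1 hc'
      obtain ⟨f, -, rfl⟩ := mem_image.1 hc
      obtain ⟨f', -, e⟩ := mem_image.1 hc'
      exact (congrArg (fun c => c.1) e).symm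
  rw [h1]
  set K := fun p : Piece n => wgt U p.1
    * (devWgt (sell n) (log (classWgt U (pieceClass p)) - pot lam p)
      * devWgt (sell n) (log (classWgt V (pieceClass p)) - pot lam p)
      * √(classWgt V (pieceClass p)) / √(classWgt U (pieceClass p))) with hK
  have h2 : ∀ p ∈ S, ∑ r ∈ (units V).filter (· ∈ pieceClass p), ∑ f ∈ graphs p.1 r.1,
      pairWgt lam U V p r ≤ K p := by
    intro p _
    refine (sum_le_sum (g := fun r : Piece n => K p / classWgt V (pieceClass p) * wgt V r.1)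
      fun r hr => ?_).trans ?_
    · obtain ⟨g, -, e⟩ := mem_pieceClass.1 (mem_filter.1 hr).2
      have hcard : r.1.card = p.1.card := by
        rw [← e]; exact card_image_of_injective _ g.injective
      rw [sum_const, nsmul_eq_mul]
      refine (mul_le_mul_of_nonneg_right (Nat.cast_le.2 (card_graphs_le p.1 r.1 hcard))
        (pairWgt_nonneg _ _ _ _ _)).trans (le_of_eq ?_)
      rw [pairWgt, mul_div_cancel₀ _ (Nat.cast_ne_zero.2 (Nat.factorial_ne_zero _))]
      have hc0 : 0 ≤ classWgt V (pieceClass p) := sum_nonneg fun r _ => (wgt_pos V _).le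
      simp only [hK]
      exact pair_alg _ _ _ _ _ hc0
    · rw [← mul_sum]
      show K p / classWgt V (pieceClass p) * classWgt V (pieceClass p) ≤ K p
      rcases eq_or_ne (classWgt V (pieceClass p)) 0 with h | h
      · rw [h]
        simp only [hK, h, Real.sqrt_zero, mul_zero, zero_div, le_refl]
      · rw [div_mul_cancel₀ _ h]
  refine (sum_le_sum h2).trans ?_
  rw [← sum_fiberwise_of_maps_to (g := pieceClass) (t := S.image pieceClass)
    fun p hp => mem_image_of_mem _ hp]
  refine sum_le_sum fun κ hκ => ?_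
  calc ∑ p ∈ S.filter (pieceClass · = κ), K p
      = ∑ p ∈ S.filter (pieceClass · = κ), wgt U p.1 *
          (devWgt (sell n) (log (classWgt U κ) - classPot lam κ)
            * devWgt (sell n) (log (classWgt V κ) - classPot lam κ)
            * √(classWgt V κ) / √(classWgt U κ)) :=
        sum_congr rfl fun p hp => by
          obtain rfl := (mem_filter.1 hp).2
          simp only [hK, classPot_eq]
    _ ≤ classWgt U κ * (devWgt (sell n) (log (classWgt U κ) - classPot lam κ)
            * devWgt (sell n) (log (classWgt V κ) - classPot lam κ)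
            * √(classWgt V κ) / √(classWgt U κ)) := by
        rw [← sum_mul]
        refine mul_le_mul_of_nonneg_right
          (sum_le_sum_of_subset_of_nonneg (fun p hp => ?_) fun p _ _ => (wgt_pos U _).le)
          (div_nonneg (mul_nonneg (mul_nonneg (devWgt_nonneg _ _) (devWgt_nonneg _ _))
            (sqrt_nonneg _)) (sqrt_nonneg _))
        obtain ⟨hpS, rfl⟩ := mem_filter.1 hp
        rw [hS] at hpS
        exact mem_filter.2 ⟨(mem_filter.1 hpS).1, self_mem_pieceClass p⟩
    _ = matchWgt lam U κ * matchWgt lam V κ := class_alg _ _ _ _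

/-- Matched pieces are counted by their classes. -/
theorem sum_joint_le (lam : ℝ) (U V : Finset (Sym2 (Fin n))) {M W : Finset (Fin n)} (hM : M ⊆ W)
    (D : Finset (Equiv.Perm (Fin n))) (hD : ∀ h ∈ D, ∀ x ∈ W, h x = x)
    (J : Equiv.Perm (Fin n) → Finset (Piece n))
    (hJ : ∀ h ∈ D, ∀ p ∈ J h,
      p ∈ units U ∧ movePiece h⁻¹ p ∈ units V ∧ att p ⊆ M ∧ Disjoint p.1 W)
    (hdis : ∀ h ∈ D, (↑(J h) : Set (Piece n)).PairwiseDisjoint Prod.fst) :
    ∑ h ∈ D, exp (-((W.card : ℝ) + ∑ p ∈ J h, (p.1.card : ℝ)))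
        * ∏ p ∈ J h, (n : ℝ) ^ p.1.card * pairWgt lam U V p (movePiece h⁻¹ p)
      ≤ exp (∑ κ ∈ ((units U).filter fun p => att p ⊆ M).image pieceClass,
            matchWgt lam U κ * matchWgt lam V κ) * ((n - W.card).factorial : ℝ) := by
  set f := fun (h : Equiv.Perm (Fin n)) (p : Piece n) =>
    ((p, movePiece h⁻¹ p, p.1.image fun x => (x, h⁻¹ x)) :
      Piece n × Piece n × Finset (Fin n × Fin n)) with hf
  have finj : ∀ h, Function.Injective (f h) := fun h a b e => congrArg Prod.fst e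
  set Ψ := fun h => (J h).image (f h) with hΨ
  set ω := fun c : Piece n × Piece n × Finset (Fin n × Fin n) => pairWgt lam U V c.1 c.2.1 with hω
  have hmem : ∀ h ∈ D, Ψ h ∈ (cands U V M).powerset := by
    intro h hh
    refine mem_powerset.2 fun c hc => ?_
    obtain ⟨p, hp, rfl⟩ := mem_image.1 hc
    obtain ⟨hpU, hpV, hatt, -⟩ := hJ h hh p hp
    refine mem_biUnion.2 ⟨p, mem_filter.2 ⟨hpU, hatt⟩, mem_biUnion.2 ⟨movePiece h⁻¹ p,
      mem_filter.2 ⟨hpV, mem_pieceClass.2 ⟨h⁻¹, fun x hx => ?_, rfl⟩⟩, mem_image.2 ⟨_, ?_, rfl⟩⟩⟩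
    · rw [Equiv.Perm.inv_def, Equiv.symm_apply_eq, hD h hh x (hM (hatt hx))]
    · refine mem_image.2 ⟨⟨fun x => ⟨h⁻¹ x.1, mem_image_of_mem _ x.2⟩,
        fun a b e => Subtype.ext (h⁻¹.injective (congrArg Subtype.val e))⟩, mem_univ _, ?_⟩
      ext z
      simp only [mem_image, mem_univ, true_and, Subtype.exists]
      exact ⟨fun ⟨a, ha, e⟩ => ⟨a, ha, e⟩, fun ⟨a, ha, e⟩ => ⟨a, ha, e⟩⟩
  refine (sum_le_fibres Ψ _ (fun S => (∏ c ∈ S, ω c) * ((n - W.card).factorial : ℝ)) hmem
    fun S hS => ?_).trans ?_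
  swap
  · rw [← sum_mul, ← prod_one_add]
    refine mul_le_mul_of_nonneg_right ?_ (Nat.cast_nonneg _)
    refine (prod_le_prod (fun c _ => add_nonneg zero_le_one (pairWgt_nonneg _ _ _ _ _))
      (g := fun c => exp (ω c)) fun c _ => by rw [add_comm]; exact add_one_le_exp (ω c)).trans ?_
    rw [← exp_sum, exp_le_exp]
    exact sum_cands_le lam U V M
  rcases (D.filter (Ψ · = S)).eq_empty_or_nonempty with h0 | ⟨h₀, hmem₀⟩
  · rw [h0, sum_empty]
    exact mul_nonneg (prod_nonneg fun c _ => pairWgt_nonneg _ _ _ _ _) (Nat.cast_nonneg _)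
  obtain ⟨hh₀, hS0⟩ := mem_filter.1 hmem₀
  subst hS0
  have hJeq : ∀ h ∈ D.filter (Ψ · = Ψ h₀), J h = J h₀ := by
    intro h hh
    have := congrArg (fun S => S.image Prod.fst) (mem_filter.1 hh).2
    simpa [hΨ, hf, image_image, Function.comp_def] using this
  set Z := W ∪ (J h₀).biUnion Prod.fst with hZ
  have hZc : Z.card = W.card + ∑ p ∈ J h₀, p.1.card := by
    rw [hZ, card_union_of_disjoint, card_biUnion (hdis h₀ hh₀)]
    exact (disjoint_biUnion_left _ _ _).2 (fun p hp => (hJ h₀ hh₀ p hp).2.2.2) |>.symm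
  set A := ∑ p ∈ J h₀, p.1.card with hA
  have hval : ∀ h ∈ D.filter (Ψ · = Ψ h₀),
      exp (-((W.card : ℝ) + ∑ p ∈ J h, (p.1.card : ℝ)))
        * ∏ p ∈ J h, (n : ℝ) ^ p.1.card * pairWgt lam U V p (movePiece h⁻¹ p)
      = exp (-((Z.card : ℕ) : ℝ)) * (n : ℝ) ^ A * ∏ c ∈ Ψ h₀, ω c := by
    intro h hh
    have e := (mem_filter.1 hh).2
    rw [← e, hΨ, prod_image fun a _ b _ hab => finj h hab, prod_mul_distrib,
      prod_pow_eq_pow_sum, hJeq h hh, ← hA, hZc]
    rw [show ∑ p ∈ J h₀, (p.1.card : ℝ) = (A : ℝ) by rw [hA, Nat.cast_sum]]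
    simp only [hω, hf]
    push_cast
    ring
  rw [sum_congr rfl hval, sum_const, nsmul_eq_mul]
  have hcard : (D.filter (Ψ · = Ψ h₀)).card ≤ (n - Z.card).factorial := by
    rw [← card_fix_coset Z h₀⁻¹]
    refine card_le_card_of_injOn (·⁻¹) (fun h hh => ?_) fun a _ b _ e => inv_injective e
    refine mem_filter.2 ⟨mem_univ _, fun x hx => ?_⟩
    have hh := mem_coe.1 hh
    obtain ⟨hhD, e⟩ := mem_filter.1 hh
    rcases mem_union.1 hx with hx | hx
    · show h⁻¹ x = h₀⁻¹ x
      rw [Equiv.Perm.inv_eq_iff_eq.2 (hD h hhD x hx).symm,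
        Equiv.Perm.inv_eq_iff_eq.2 (hD h₀ hh₀ x hx).symm]
    · obtain ⟨p, hp, hxp⟩ := mem_biUnion.1 hx
      have h1 : f h₀ p ∈ Ψ h := e ▸ mem_image_of_mem _ hp
      obtain ⟨p', hp', e'⟩ := mem_image.1 h1
      obtain rfl : p' = p := congrArg Prod.fst e'
      have e2 : (p'.1.image fun x => (x, h⁻¹ x)) = p'.1.image fun x => (x, h₀⁻¹ x) :=
        congrArg (fun c => c.2.2) e'
      have h3 : (x, h⁻¹ x) ∈ p'.1.image fun x => (x, h₀⁻¹ x) := e2 ▸ mem_image_of_mem _ hxp
      obtain ⟨z, -, hz⟩ := mem_image.1 h3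
      obtain ⟨rfl, hz⟩ := Prod.mk.inj hz
      exact hz.symm
  have hWn : W.card ≤ n := by simpa using card_le_univ W
  have hfac : (n : ℝ) ^ A * ((n - Z.card).factorial : ℝ)
      ≤ exp (Z.card : ℝ) * ((n - W.card).factorial : ℝ) := by
    have hpos : (0 : ℝ) < (n : ℝ) ^ W.card := by
      rcases Nat.eq_zero_or_pos n with h | h
      · simp [show W.card = 0 by omega]
      · exact pow_pos (Nat.cast_pos.2 h) _
    refine le_of_mul_le_mul_left ?_ hpos
    calc (n : ℝ) ^ W.card * ((n : ℝ) ^ A * ((n - Z.card).factorial : ℝ))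
        = (n : ℝ) ^ Z.card * ((n - Z.card).factorial : ℝ) := by rw [hZc, pow_add]; ring
      _ ≤ exp (Z.card : ℝ) * n.factorial :=
          pow_le_exp_factorial (by simpa using card_le_univ Z)
      _ ≤ exp (Z.card : ℝ) * ((n : ℝ) ^ W.card * ((n - W.card).factorial : ℝ)) :=
          mul_le_mul_of_nonneg_left (factorial_le_pow hWn) (exp_pos _).le
      _ = _ := by ring
  have hP : 0 ≤ ∏ c ∈ Ψ h₀, ω c := prod_nonneg fun c _ => pairWgt_nonneg _ _ _ _ _
  calc ((D.filter (Ψ · = Ψ h₀)).card : ℝ) * (exp (-((Z.card : ℕ) : ℝ)) * (n : ℝ) ^ A * ∏ c ∈ Ψ h₀, ω c)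
      ≤ ((n - Z.card).factorial : ℝ) * (exp (-((Z.card : ℕ) : ℝ)) * (n : ℝ) ^ A * ∏ c ∈ Ψ h₀, ω c) :=
        mul_le_mul_of_nonneg_right (Nat.cast_le.2 hcard) (by positivity)
    _ = (exp (-((Z.card : ℕ) : ℝ)) * ∏ c ∈ Ψ h₀, ω c) * ((n : ℝ) ^ A * (n - Z.card).factorial) := by
        ring
    _ ≤ (exp (-((Z.card : ℕ) : ℝ)) * ∏ c ∈ Ψ h₀, ω c)
          * (exp (Z.card : ℝ) * ((n - W.card).factorial : ℝ)) :=
        mul_le_mul_of_nonneg_left hfac (by positivity)
    _ = _ := by rw [exp_neg]; field_simp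

end Vale.Agent.P064
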