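import Vale.Agent.P064.Action

/-!
# Repeated doubling with levels

Every point of `H` carries a level, invariant under the group. Pairs of tuples are merged, and an
overlap at a level far above the current stage is penalised. If points of level `a` occur in at most
a `2^{-a}` part of the translates inside `H`, the translates inside `H` number at most
`exp(2 + 6 B) · q^e` per leaf, where `B` is the sum of `2^{-level}` over `H`.
-/

open Finset Real
open scoped Classical

namespace Vale.Agent.P064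

/-- Binary trees of depth `l` with leaves in `α`. -/
def Tup (α : Type) : ℕ → Type
  | 0 => α
  | l + 1 => Tup α l × Tup α l

/-- Finitely many trees. -/
noncomputable instance instFintypeTup {α : Type} [Fintype α] : ∀ l, Fintype (Tup α l)
  | 0 => inferInstanceAs (Fintype α)
  | l + 1 =>
    letI := instFintypeTup (α := α) l
    inferInstanceAs (Fintype (Tup α l × Tup α l))

variable {Γ Ω α : Type} [Group Γ] [Fintype Γ] [DecidableEq Ω] [MulAction Γ Ω] [Fintype α]

/-- The points covered by a tree. -/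
noncomputable def pts (A : α → Finset Ω) : ∀ l, Tup α l → Finset Ω
  | 0, a => A a
  | l + 1, t => pts A l t.1 ∪ pts A l t.2

/-- The penalty of a tree. -/
noncomputable def cost (A : α → Finset Ω) (lev : Ω → ℕ) : ∀ l, Tup α l → ℕ
  | 0, _ => 0
  | l + 1, t => cost A lev l t.1 + cost A lev l t.2
      + ∑ x ∈ pts A l t.1 ∩ pts A l t.2, (lev x - l)

/-- Moving all leaves of a tree. -/
def mv (f : α ≃ α) : ∀ l, Tup α l ≃ Tup α l
  | 0 => f
  | l + 1 => (mv f l).prodCongr (mv f l)

omit [Fintype α] [Fintype Γ] in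
lemma pts_mv (A : α → Finset Ω) (d : Γ) (f : α ≃ α) (hf : ∀ a, A (f a) = img d (A a)) :
    ∀ l t, pts A l (mv f l t) = img d (pts A l t)
  | 0, a => hf a
  | l + 1, t => by
    show pts A l (mv f l t.1) ∪ pts A l (mv f l t.2) = img d (pts A l t.1 ∪ pts A l t.2)
    rw [pts_mv A d f hf l, pts_mv A d f hf l, img_union]

omit [Fintype α] [Fintype Γ] in
lemma img_inter (d : Γ) (U V : Finset Ω) : img d (U ∩ V) = img d U ∩ img d V :=
  image_inter _ _ (MulAction.injective d)

omit [Fintype α] [Fintype Γ] in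
lemma cost_mv (A : α → Finset Ω) (lev : Ω → ℕ) (hlev : ∀ (g : Γ) x, lev (g • x) = lev x) (d : Γ)
    (f : α ≃ α) (hf : ∀ a, A (f a) = img d (A a)) :
    ∀ l t, cost A lev l (mv f l t) = cost A lev l t
  | 0, _ => rfl
  | l + 1, t => by
    show cost A lev l (mv f l t.1) + cost A lev l (mv f l t.2)
        + ∑ x ∈ pts A l (mv f l t.1) ∩ pts A l (mv f l t.2), (lev x - l)
      = cost A lev l t.1 + cost A lev l t.2 + ∑ x ∈ pts A l t.1 ∩ pts A l t.2, (lev x - l)
    rw [cost_mv A lev hlev d f hf l, cost_mv A lev hlev d f hf l, pts_mv A d f hf l,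
      pts_mv A d f hf l, ← img_inter, img, sum_image fun a _ b _ h => MulAction.injective d h]
    simp only [hlev]

variable (A : α → Finset Ω) (lev : Ω → ℕ) (H : Finset Ω)

/-- Trees lying inside `H`. -/
noncomputable def good (l : ℕ) : Finset (Tup α l) := univ.filter fun t => pts A l t ⊆ H

omit [Group Γ] [Fintype Γ] [MulAction Γ Ω] in
lemma good_succ (l : ℕ) : good A H (l + 1) = good A H l ×ˢ good A H l := by
  ext t
  show t ∈ univ.filter (fun t : Tup α (l + 1) => pts A l t.1 ∪ pts A l t.2 ⊆ H) ↔ _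
  simp only [mem_filter, mem_univ, true_and, union_subset_iff]
  exact ((Finset.mem_product).trans (by simp [good])).symm

omit [Group Γ] [Fintype Γ] [MulAction Γ Ω] in
lemma card_good (l : ℕ) : (good A H l).card = (good A H 0).card ^ 2 ^ l := by
  induction l with
  | zero => simp
  | succ l ih =>
    refine ((congrArg Finset.card (good_succ A H l)).trans (card_product _ _)).trans ?_
    rw [ih, ← pow_add]
    congr 1
    ring

/-- Number of trees in `H` that cover a point. -/
noncomputable def cnt (l : ℕ) (x : Ω) : ℕ := ((good A H l).filter fun t => x ∈ pts A l t).card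

omit [Group Γ] [Fintype Γ] [MulAction Γ Ω] in
lemma cnt_succ (l : ℕ) (x : Ω) : cnt A H (l + 1) x ≤ 2 * (good A H l).card * cnt A H l x := by
  rw [cnt]
  refine le_trans (card_le_card (t := ((good A H l).filter fun t => x ∈ pts A l t) ×ˢ good A H l ∪
    good A H l ×ˢ ((good A H l).filter fun t => x ∈ pts A l t)) ?_) ?_
  · intro t ht
    obtain ⟨ht, hx⟩ := (Finset.mem_filter (α := Tup α (l + 1))).1 ht
    obtain ⟨h1, h2⟩ := mem_product.1 ((Finset.ext_iff.1 (good_succ A H l) t).1 ht)
    rcases mem_union.1 hx with hx | hx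
    · exact mem_union_left _ (mem_product.2 ⟨mem_filter.2 ⟨h1, hx⟩, h2⟩)
    · exact mem_union_right _ (mem_product.2 ⟨h1, mem_filter.2 ⟨h2, hx⟩⟩)
  · refine le_trans (card_union_le _ _) ?_
    rw [card_product, card_product, ← cnt]
    exact le_of_eq (by ring)

omit [Group Γ] [Fintype Γ] [MulAction Γ Ω] in
lemma cnt_le (hp : ∀ x ∈ H, cnt A H 0 x * 2 ^ lev x ≤ (good A H 0).card) {x : Ω} (hx : x ∈ H)
    (l : ℕ) : cnt A H l x * 2 ^ lev x ≤ 2 ^ l * (good A H l).card := by
  induction l with
  | zero => simpa using hp x hx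
  | succ l ih =>
    calc cnt A H (l + 1) x * 2 ^ lev x
        ≤ 2 * (good A H l).card * cnt A H l x * 2 ^ lev x :=
          Nat.mul_le_mul_right _ (cnt_succ A H l x)
      _ = 2 * (good A H l).card * (cnt A H l x * 2 ^ lev x) := by ring
      _ ≤ 2 * (good A H l).card * (2 ^ l * (good A H l).card) := Nat.mul_le_mul_left _ ih
      _ = _ := by
        rw [card_good A H (l + 1), card_good A H l, pow_succ 2 l, pow_mul]
        ring

omit [Fintype α] in
/-- Elementary series. -/
lemma pen_series : ∀ a l : ℕ,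
    ∑ j ∈ range l, ((a - j : ℕ) : ℝ) * 2 ^ j ≤ 2 * 2 ^ a - a - 2
  | 0, l => by simp
  | a + 1, 0 => by
    have := pen_series a 0
    simp only [range_zero, sum_empty] at this ⊢
    push_cast
    rw [pow_succ]
    linarith [(Nat.cast_nonneg a : (0:ℝ) ≤ _)]
  | a + 1, l + 1 => by
    have := pen_series a l
    rw [sum_range_succ']
    simp only [Nat.succ_sub_succ_eq_sub, Nat.sub_zero, pow_succ, pow_zero, mul_one]
    rw [← sum_congr rfl fun j _ => mul_assoc _ ((2:ℝ) ^ j) 2, ← sum_mul]
    push_cast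
    linarith

omit [Fintype α] in
/-- Elementary series. -/
lemma wt_series : ∀ a l : ℕ,
    ∑ j ∈ range l, (4⁻¹ : ℝ) ^ (a - j) * 2⁻¹ ^ j ≤ 3 * 2⁻¹ ^ a - 4⁻¹ ^ a
  | 0, l => by
    simp only [Nat.zero_sub, pow_zero, one_mul, mul_one]
    have := sum_geometric_two_le l
    simp only [one_div] at this
    norm_num at this ⊢
    linarith
  | a + 1, 0 => by
    have h : (4⁻¹ : ℝ) ^ (a + 1) ≤ 2⁻¹ ^ (a + 1) := pow_le_pow_left₀ (by norm_num) (by norm_num) _
    have : (0 : ℝ) ≤ 2⁻¹ ^ (a + 1) := by positivity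
    simp only [range_zero, sum_empty]
    linarith
  | a + 1, l + 1 => by
    have := wt_series a l
    rw [sum_range_succ']
    simp only [Nat.succ_sub_succ_eq_sub, Nat.sub_zero, pow_succ, pow_zero, mul_one]
    rw [← sum_congr rfl fun j _ => mul_assoc _ ((2⁻¹:ℝ) ^ j) _, ← sum_mul]
    linarith

/-- The sum of `2^{-level}` over `H`. -/
noncomputable def massB : ℝ := ∑ x ∈ H, (2⁻¹ : ℝ) ^ lev x

/-- Weight of the points of `H` at stage `j`. -/
noncomputable def wtD (j : ℕ) : ℝ := ∑ x ∈ H, (4⁻¹ : ℝ) ^ (lev x - j)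

/-- Expected penalty of stage `j`. -/
noncomputable def penR (j : ℕ) : ℝ := ∑ x ∈ H, ((lev x - j : ℕ) : ℝ) * 4 ^ j / 4 ^ lev x

omit [Fintype α] [DecidableEq Ω] in
lemma sum_penR (l : ℕ) : ∑ j ∈ range l, penR lev H j / 2 ^ (j + 1) ≤ massB lev H := by
  simp only [penR, sum_div]
  rw [sum_comm, massB]
  refine sum_le_sum fun x _ => ?_
  have h := pen_series (lev x) l
  have e : ∀ j, ((lev x - j : ℕ) : ℝ) * 4 ^ j / 4 ^ lev x / 2 ^ (j + 1)
      = ((lev x - j : ℕ) : ℝ) * 2 ^ j / (2 * 4 ^ lev x) := fun j => by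
    rw [show (4 : ℝ) = 2 * 2 by norm_num, mul_pow, mul_pow, pow_succ]
    field_simp
  simp only [e, ← sum_div]
  rw [div_le_iff₀ (by positivity)]
  have h2 : (2⁻¹ : ℝ) ^ lev x * (2 * 4 ^ lev x) = 2 * 2 ^ lev x := by
    rw [mul_left_comm, ← mul_pow]; norm_num
  rw [h2]
  linarith [(Nat.cast_nonneg (lev x) : (0:ℝ) ≤ _)]

omit [Fintype α] [DecidableEq Ω] in
lemma sum_wtD (l : ℕ) :
    ∑ j ∈ range l, (log 2 + 2 * wtD lev H j) / 2 ^ (j + 1) ≤ log 2 + 3 * massB lev H := by
  have h1 : ∑ j ∈ range l, (2⁻¹ : ℝ) ^ (j + 1) ≤ 1 := by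
    have := sum_geometric_two_le l
    simp only [one_div] at this
    simp only [pow_succ, ← sum_mul]
    linarith
  have h2 : ∑ j ∈ range l, wtD lev H j * (2⁻¹ : ℝ) ^ j ≤ 3 * massB lev H := by
    simp only [wtD, sum_mul]
    rw [sum_comm, massB, mul_sum]
    refine sum_le_sum fun x _ => le_trans (wt_series (lev x) l) ?_
    have : (0 : ℝ) ≤ 4⁻¹ ^ lev x := by positivity
    linarith
  have e : ∀ j, (log 2 + 2 * wtD lev H j) / 2 ^ (j + 1)
      = log 2 * (2⁻¹ : ℝ) ^ (j + 1) + wtD lev H j * (2⁻¹ : ℝ) ^ j := fun j => by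
    rw [inv_pow, inv_pow, pow_succ]; field_simp
  simp only [e, sum_add_distrib, ← mul_sum]
  have : 0 ≤ log (2 : ℝ) := log_nonneg (by norm_num)
  nlinarith

/-- Average penalty of the trees inside `H`. -/
lemma cost_le (hp : ∀ x ∈ H, cnt A H 0 x * 2 ^ lev x ≤ (good A H 0).card) (l : ℕ) :
    ∑ t ∈ good A H l, (cost A lev l t : ℝ)
      ≤ (good A H l).card * 2 ^ l * ∑ j ∈ range l, penR lev H j / 2 ^ (j + 1) := by
  induction l with
  | zero => simp [cost]
  | succ l ih =>
    set N : ℝ := ((good A H l).card : ℝ) with hN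
    have hcard : (((good A H (l + 1)).card : ℕ) : ℝ) = N * N := by
      rw [(congrArg Finset.card (good_succ A H l)).trans (card_product _ _), Nat.cast_mul]
    have cross : ∑ t ∈ good A H l, ∑ u ∈ good A H l,
        ((∑ x ∈ pts A l t ∩ pts A l u, (lev x - l) : ℕ) : ℝ) ≤ N * N * penR lev H l := by
      have e : ∀ t ∈ good A H l, ∀ u : Tup α l,
          ((∑ x ∈ pts A l t ∩ pts A l u, (lev x - l) : ℕ) : ℝ)
            = ∑ x ∈ H, (if x ∈ pts A l t then (1:ℝ) else 0) * (if x ∈ pts A l u then (1:ℝ) else 0)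
                * ((lev x - l : ℕ) : ℝ) := by
        intro t ht u
        have htH : pts A l t ⊆ H := (mem_filter.1 ht).2
        rw [Nat.cast_sum, ← sum_subset (inter_subset_left.trans htH)
          (f := fun x => (if x ∈ pts A l t then (1:ℝ) else 0)
            * (if x ∈ pts A l u then (1:ℝ) else 0) * ((lev x - l : ℕ) : ℝ))]
        · refine sum_congr rfl fun x hx => ?_
          obtain ⟨h1, h2⟩ := mem_inter.1 hx
          simp [h1, h2]
        · intro x _ hx
          simp only [mem_inter, not_and_or] at hx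
          rcases hx with hx | hx <;> simp [hx]
      rw [sum_congr rfl fun t ht => sum_congr rfl fun u _ => e t ht u]
      rw [sum_congr rfl fun t _ => sum_comm, sum_comm, penR, mul_sum]
      refine sum_le_sum fun x hx => ?_
      simp only [← sum_mul, ← mul_sum]
      have hc : (cnt A H l x : ℝ) ≤ 2 ^ l * N / 2 ^ lev x := by
        rw [le_div_iff₀ (by positivity), hN]
        exact_mod_cast cnt_le A lev H hp hx l
      have h0 : ∑ t ∈ good A H l, (if x ∈ pts A l t then (1:ℝ) else 0) = cnt A H l x := by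
        rw [cnt, card_filter]; push_cast; rfl
      rw [h0]
      calc (cnt A H l x : ℝ) * (cnt A H l x) * ((lev x - l : ℕ) : ℝ)
          ≤ (2 ^ l * N / 2 ^ lev x) * (2 ^ l * N / 2 ^ lev x) * ((lev x - l : ℕ) : ℝ) := by gcongr
        _ = N * N * (((lev x - l : ℕ) : ℝ) * 4 ^ l / 4 ^ lev x) := by
          rw [show (4 : ℝ) = 2 * 2 by norm_num, mul_pow, mul_pow]; field_simp
    rw [hcard, sum_range_succ,
      (congrArg (fun s : Finset (Tup α (l + 1)) => ∑ t ∈ s, (cost A lev (l + 1) t : ℝ))
        (good_succ A H l)).trans (sum_product _ _ _)]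
    simp only [cost, Nat.cast_add, sum_add_distrib, sum_const, nsmul_eq_mul, ← mul_sum]
    rw [← hN]
    have h := mul_le_mul_of_nonneg_left ih (show 0 ≤ N by positivity)
    calc _ ≤ N * (N * 2 ^ l * ∑ j ∈ range l, penR lev H j / 2 ^ (j + 1))
          + N * (N * 2 ^ l * ∑ j ∈ range l, penR lev H j / 2 ^ (j + 1))
          + N * N * penR lev H l := by gcongr
      _ = _ := by
        rw [pow_succ]; field_simp; ring

variable (Γ) in
/-- Some translate lies inside `H`. -/
def Fit (U : Finset Ω) : Prop := ∃ g : Γ, img g U ⊆ H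

variable (Γ) in
/-- The weighted number of trees with a translate in `H`. -/
noncomputable def Zs (q : ℝ) (l : ℕ) : ℝ :=
  ∑ t ∈ univ.filter (fun t => Fit Γ H (pts A l t)),
    (16⁻¹ : ℝ) ^ cost A lev l t * q ^ (pts A l t).card

omit [Fintype α] in
/-- Averaging one merge over the relative position. -/
lemma merge_le {q : ℝ} (hq : 0 < q) (hs : Sparse Γ H q)
    (hlev : ∀ (g : Γ) x, lev (g • x) = lev x) (j : ℕ) {U V : Finset Ω}
    (hU : Fit Γ H U) (hV : Fit Γ H V) :
    ∑ d : Γ, (if Fit Γ H (U ∪ img d V) then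
        (16⁻¹ : ℝ) ^ (∑ x ∈ U ∩ img d V, (lev x - j)) * q ^ (U ∪ img d V).card else 0)
      ≤ q ^ (U.card + V.card) * (2 * Fintype.card Γ) * exp (2 * wtD lev H j) := by
  set v : Finset Ω → ℝ := fun S => ∏ x ∈ S, (4⁻¹ : ℝ) ^ (lev x - j) with hv
  set J : Γ → Finset Ω × Finset Ω := fun d => (U ∩ img d V, img d⁻¹ (U ∩ img d V)) with hJ
  have hsub : ∀ d : Γ, J d ∈ U.powerset ×ˢ V.powerset := by
    intro d
    refine mem_product.2 ⟨mem_powerset.2 inter_subset_left, mem_powerset.2 ?_⟩
    rw [img_inv_subset]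
    exact inter_subset_right
  rw [← sum_filter, ← sum_fiberwise_of_maps_to (g := J) (t := U.powerset ×ˢ V.powerset)
    (fun d _ => hsub d)]
  have key : ∀ P ∈ U.powerset ×ˢ V.powerset,
      ∑ d ∈ (univ.filter fun d : Γ => Fit Γ H (U ∪ img d V)).filter (fun d => J d = P),
        (16⁻¹ : ℝ) ^ (∑ x ∈ U ∩ img d V, (lev x - j)) * q ^ (U ∪ img d V).card
      ≤ q ^ (U.card + V.card) * (2 * Fintype.card Γ) * (v P.1 * v P.2) := by
    intro P _
    set D := (univ.filter fun d : Γ => Fit Γ H (U ∪ img d V)).filter (fun d => J d = P) with hD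
    have hv0 : ∀ S, 0 ≤ v S := fun S => prod_nonneg fun x _ => by positivity
    have h12 : 0 ≤ v P.1 * v P.2 := mul_nonneg (hv0 _) (hv0 _)
    rcases D.eq_empty_or_nonempty with h0 | ⟨d0, hd0⟩
    · rw [h0, sum_empty]; positivity
    have hterm : ∀ d ∈ D, (16⁻¹ : ℝ) ^ (∑ x ∈ U ∩ img d V, (lev x - j)) * q ^ (U ∪ img d V).card
        = v P.1 * v P.2 * q ^ (U.card + V.card) / q ^ P.1.card := by
      intro d hd
      have hPd : J d = P := (mem_filter.1 hd).2
      have h1 : U ∩ img d V = P.1 := congrArg Prod.fst hPd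
      have h2 : img d⁻¹ (U ∩ img d V) = P.2 := congrArg Prod.snd hPd
      have hv2 : v P.2 = v P.1 := by
        rw [← h2, h1]
        simp only [hv, img]
        rw [prod_image fun a _ b _ h => MulAction.injective d⁻¹ h]
        simp only [hlev]
      have hc : (U ∪ img d V).card + P.1.card = U.card + V.card := by
        rw [← h1, card_union_add_card_inter, card_img]
      rw [← hc, pow_add, ← mul_assoc (v P.1 * v P.2), mul_div_cancel_right₀ _ (pow_ne_zero _ hq.ne'),
        h1, hv2]
      congr 1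
      simp only [hv, prod_pow_eq_pow_sum]
      rw [← mul_pow]
      norm_num
    rw [sum_congr rfl hterm, sum_const, nsmul_eq_mul]
    have hcard : (D.card : ℝ) ≤ 2 * Fintype.card Γ * q ^ P.1.card := by
      obtain ⟨hfit, hP0⟩ := mem_filter.1 hd0
      have hP01 : U ∩ img d0 V = P.1 := congrArg Prod.fst hP0
      have hP02 : img d0⁻¹ (U ∩ img d0 V) = P.2 := congrArg Prod.snd hP0
      obtain ⟨g, hg⟩ := (mem_filter.1 hfit).2
      have hPH : img g P.1 ⊆ H := by
        refine subset_trans ?_ hg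
        rw [← hP01]
        exact image_subset_image (inter_subset_left.trans subset_union_left)
      have hX : X Γ P.2 P.1 ≤ 2 * q ^ P.1.card := by
        rw [← hP02, hP01, X_img_left]
        have := hs _ hPH
        rwa [X_img_left, X_img_right, card_img] at this
      rw [X, div_le_iff₀ card_pos'] at hX
      refine le_trans ?_ (le_of_le_of_eq hX (by ring))
      refine Nat.cast_le.2 (card_le_card fun d hd => ?_)
      have hPd : J d = P := (mem_filter.1 hd).2
      simp only [mem_filter, mem_univ, true_and]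
      have h1 : U ∩ img d V = P.1 := congrArg Prod.fst hPd
      have h2 : img d⁻¹ (U ∩ img d V) = P.2 := congrArg Prod.snd hPd
      rw [← h2, h1, ← img_mul, mul_inv_cancel, img_one]
    calc (D.card : ℝ) * (v P.1 * v P.2 * q ^ (U.card + V.card) / q ^ P.1.card)
        ≤ (2 * Fintype.card Γ * q ^ P.1.card) *
            (v P.1 * v P.2 * q ^ (U.card + V.card) / q ^ P.1.card) := by
          refine mul_le_mul_of_nonneg_right hcard (div_nonneg ?_ (pow_nonneg hq.le _))
          exact mul_nonneg h12 (pow_nonneg hq.le _)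
      _ = _ := by field_simp
  refine le_trans (sum_le_sum key) ?_
  rw [← mul_sum, sum_product, ← sum_mul_sum]
  refine mul_le_mul_of_nonneg_left ?_ (by positivity)
  have hb : ∀ W : Finset Ω, Fit Γ H W → ∑ S ∈ W.powerset, v S ≤ exp (wtD lev H j) := by
    rintro W ⟨g, hg⟩
    rw [hv, ← prod_one_add]
    refine le_trans (prod_le_prod (fun x _ => by positivity) fun x _ =>
      (le_of_eq (add_comm _ _)).trans (add_one_le_exp ((4⁻¹ : ℝ) ^ (lev x - j)))) ?_
    rw [← exp_sum, exp_le_exp]
    calc ∑ x ∈ W, (4⁻¹ : ℝ) ^ (lev x - j) = ∑ x ∈ img g W, (4⁻¹ : ℝ) ^ (lev x - j) := by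
          rw [img, sum_image fun a _ b _ h => MulAction.injective g h]
          simp only [hlev]
      _ ≤ wtD lev H j :=
          sum_le_sum_of_subset_of_nonneg hg fun x _ _ => by positivity
  rw [two_mul, exp_add]
  exact mul_le_mul (hb U hU) (hb V hV) (sum_nonneg fun S _ => prod_nonneg fun x _ => by positivity)
    (exp_pos _).le

/-- The weighted count after `l` stages. -/
lemma Zs_le {q : ℝ} {e : ℕ} (hq : 0 < q) (hs : Sparse Γ H q)
    (hlev : ∀ (g : Γ) x, lev (g • x) = lev x) (mvα : Γ → (α ≃ α))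
    (hmv : ∀ d a, A (mvα d a) = img d (A a)) (hcard : ∀ a, (A a).card = e) (l : ℕ) :
    Zs Γ A lev H q l ≤ ((Fintype.card α : ℝ) * q ^ e *
      exp (∑ j ∈ range l, (log 2 + 2 * wtD lev H j) / 2 ^ (j + 1))) ^ 2 ^ l := by
  induction l with
  | zero =>
    rw [range_zero, sum_empty, exp_zero, mul_one, pow_zero, pow_one, Zs]
    calc ∑ t ∈ univ.filter (fun t => Fit Γ H (pts A 0 t)),
          (16⁻¹ : ℝ) ^ cost A lev 0 t * q ^ (pts A 0 t).card
        ≤ ∑ _a : α, q ^ e := by
          refine le_trans (le_of_eq (sum_congr rfl fun t _ => ?_)) (sum_le_sum_of_subset_of_nonneg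
            (f := fun _ : α => q ^ e) (subset_univ _) fun _ _ _ => pow_nonneg hq.le _)
          show (16⁻¹ : ℝ) ^ 0 * q ^ (A t).card = q ^ e
          rw [pow_zero, one_mul]
          exact congrArg (fun n : ℕ => q ^ n) (hcard t)
      _ = _ := by simp
  | succ l ih =>
    set P := (Fintype.card α : ℝ) * q ^ e *
      exp (∑ j ∈ range l, (log 2 + 2 * wtD lev H j) / 2 ^ (j + 1)) with hP
    set W : Tup α l → ℝ := fun t => (16⁻¹ : ℝ) ^ cost A lev l t with hW
    set F : Finset (Tup α l) := univ.filter (fun t => Fit Γ H (pts A l t)) with hF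
    set G : Tup α l → Tup α l → ℝ := fun t u => W t * W u *
      (if Fit Γ H (pts A l t ∪ pts A l u) then
        (16⁻¹ : ℝ) ^ (∑ x ∈ pts A l t ∩ pts A l u, (lev x - l))
          * q ^ (pts A l t ∪ pts A l u).card else 0) with hG
    have hW0 : ∀ t, 0 ≤ W t := fun t => by positivity
    have fitU : ∀ {U V : Finset Ω}, Fit Γ H (U ∪ V) → Fit Γ H U ∧ Fit Γ H V := by
      rintro U V ⟨g, hg⟩
      exact ⟨⟨g, (image_subset_image subset_union_left).trans hg⟩,
        ⟨g, (image_subset_image subset_union_right).trans hg⟩⟩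
    have h1 : Zs Γ A lev H q (l + 1) = ∑ t ∈ F, ∑ u ∈ F, G t u := by
      rw [Zs, sum_filter]
      show ∑ t : Tup α l × Tup α l, _ = _
      rw [Fintype.sum_prod_type]
      symm
      rw [hF, sum_filter]
      refine sum_congr rfl fun t _ => ?_
      rw [sum_filter]
      by_cases ht : Fit Γ H (pts A l t)
      · rw [if_pos ht]
        refine sum_congr rfl fun u _ => ?_
        show _ = if Fit Γ H (pts A l t ∪ pts A l u) then
          (16⁻¹ : ℝ) ^ (cost A lev l t + cost A lev l u
              + ∑ x ∈ pts A l t ∩ pts A l u, (lev x - l))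
            * q ^ (pts A l t ∪ pts A l u).card else 0
        by_cases hu : Fit Γ H (pts A l t ∪ pts A l u)
        · rw [if_pos (fitU hu).2, if_pos hu]
          simp only [hG, if_pos hu, hW, pow_add]
          ring
        · rw [if_neg hu]
          simp [hG, hu]
      · rw [if_neg ht]
        exact (sum_eq_zero fun u _ => if_neg fun h => ht (fitU (U := pts A l t)
          (V := pts A l u) h).1).symm
    have havg : ∀ t, (Fintype.card Γ : ℝ) * ∑ u ∈ F, G t u
        = ∑ u ∈ F, ∑ d : Γ, G t (mv (mvα d) l u) := by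
      intro t
      rw [sum_comm]
      have : ∀ d : Γ, ∑ u ∈ F, G t (mv (mvα d) l u) = ∑ u ∈ F, G t u := by
        intro d
        refine sum_equiv (mv (mvα d) l) (fun u => ?_) fun u _ => rfl
        simp only [hF, mem_filter, mem_univ, true_and, pts_mv A d (mvα d) (hmv d)]
        refine ⟨fun ⟨g, hg⟩ => ⟨g * d⁻¹, ?_⟩, fun ⟨g, hg⟩ => ⟨g * d, ?_⟩⟩
        · rwa [← img_mul, inv_mul_cancel_right]
        · rwa [img_mul]
      rw [sum_congr rfl fun d _ => this d, sum_const, card_univ, nsmul_eq_mul]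
    have h2 : ∀ t ∈ F, ∑ u ∈ F, G t u ≤ ∑ u ∈ F, W t * q ^ (pts A l t).card *
        (W u * q ^ (pts A l u).card) * (2 * exp (2 * wtD lev H l)) := by
      intro t ht
      refine le_of_mul_le_mul_left (le_of_eq_of_le (havg t) ?_) (card_pos' (Γ := Γ))
      rw [mul_sum]
      refine sum_le_sum fun u hu => ?_
      simp only [hG, hW, pts_mv A _ _ (hmv _), cost_mv A lev hlev _ _ (hmv _), ← mul_sum]
      refine le_trans (mul_le_mul_of_nonneg_left (merge_le lev H hq hs hlev l
        (mem_filter.1 ht).2 (mem_filter.1 hu).2) (mul_nonneg (hW0 t) (hW0 u))) (le_of_eq ?_)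
      rw [pow_add]; ring
    rw [h1]
    refine le_trans (sum_le_sum h2) ?_
    have eZ : ∑ t ∈ F, ∑ u ∈ F, W t * q ^ (pts A l t).card *
        (W u * q ^ (pts A l u).card) * (2 * exp (2 * wtD lev H l))
        = Zs Γ A lev H q l * Zs Γ A lev H q l * (2 * exp (2 * wtD lev H l)) := by
      rw [Zs, sum_mul_sum, sum_mul]
      exact sum_congr rfl fun t _ => by rw [sum_mul]
    rw [eZ]
    have hZ0 : 0 ≤ Zs Γ A lev H q l :=
      sum_nonneg fun t _ => mul_nonneg (by positivity) (pow_nonneg hq.le _)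
    calc Zs Γ A lev H q l * Zs Γ A lev H q l * (2 * exp (2 * wtD lev H l))
        ≤ P ^ 2 ^ l * P ^ 2 ^ l * (2 * exp (2 * wtD lev H l)) := by gcongr
      _ = _ := by
        rw [sum_range_succ, exp_add, ← mul_assoc ((Fintype.card α : ℝ) * q ^ e), ← hP, mul_pow P,
          ← exp_nat_mul, Nat.cast_pow, Nat.cast_ofNat, mul_div_cancel₀ _ (by positivity), exp_add,
          exp_log (by norm_num : (0:ℝ) < 2), pow_succ 2 l, pow_mul P, pow_two]

/-- The main counting bound. -/
theorem good_le {q : ℝ} {e : ℕ} (hq : 0 < q) (hs : Sparse Γ H q)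
    (hlev : ∀ (g : Γ) x, lev (g • x) = lev x) (mvα : Γ → (α ≃ α))
    (hmv : ∀ d a, A (mvα d a) = img d (A a)) (hcard : ∀ a, (A a).card = e)
    (hp : ∀ x ∈ H, cnt A H 0 x * 2 ^ lev x ≤ (good A H 0).card) :
    ((good A H 0).card : ℝ) ≤ Fintype.card α * q ^ e * exp (2 + 6 * massB lev H) := by
  set M := H.card + 1 with hM
  set N : ℝ := ((good A H 0).card : ℝ) with hN
  set k : ℕ := 2 ^ M with hk
  have hNM : (((good A H M).card : ℕ) : ℝ) = N ^ k := by
    rw [card_good A H M, Nat.cast_pow]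
  set lam : ℝ := log 16 with hlam
  have hlam0 : 0 ≤ lam := log_nonneg (by norm_num)
  have hlam3 : lam ≤ 3 := by
    rw [hlam, show (16 : ℝ) = 2 ^ 4 by norm_num, log_pow]
    push_cast
    linarith [log_two_lt_d9]
  have hB : 0 ≤ massB lev H := sum_nonneg fun x _ => by positivity
  set m : ℝ := lam * (k * massB lev H) with hm
  have hlow : N ^ k * exp (-m) ≤ ∑ t ∈ good A H M, (16⁻¹ : ℝ) ^ cost A lev M t := by
    have hpt : ∀ c : ℕ, exp (-m) * (1 + m - lam * c) ≤ (16⁻¹ : ℝ) ^ c := by
      intro c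
      have h16 : (16⁻¹ : ℝ) ^ c = exp (-m) * exp (m - lam * c) := by
        rw [← exp_add, show -m + (m - lam * c) = (c : ℝ) * -lam by ring, exp_nat_mul, exp_neg,
          hlam, exp_log (by norm_num)]
      rw [h16]
      refine mul_le_mul_of_nonneg_left ?_ (exp_pos _).le
      linarith [add_one_le_exp (m - lam * c)]
    refine le_trans ?_ (sum_le_sum fun t _ => hpt (cost A lev M t))
    have hC : ∑ t ∈ good A H M, (cost A lev M t : ℝ)
        ≤ N ^ k * (k * massB lev H) := by
      refine le_trans (cost_le A lev H hp M) ?_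
      rw [hNM, hk, mul_assoc]
      push_cast
      gcongr
      exact sum_penR lev H M
    have := mul_le_mul_of_nonneg_left hC hlam0
    rw [← mul_sum, sum_sub_distrib, sum_const, nsmul_eq_mul, ← mul_sum, hNM]
    have e1 : lam * (N ^ k * (k * massB lev H)) = N ^ k * m := by rw [hm]; ring
    calc N ^ k * exp (-m) = exp (-m) * (N ^ k * (1 + m) - N ^ k * m) := by ring
      _ ≤ exp (-m) * (N ^ k * (1 + m) - lam * ∑ t ∈ good A H M, (cost A lev M t : ℝ)) := by
          exact mul_le_mul_of_nonneg_left (by linarith) (exp_pos _).le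
  have hup : ∑ t ∈ good A H M, (16⁻¹ : ℝ) ^ cost A lev M t
      ≤ 2 * 2 ^ H.card * Zs Γ A lev H q M := by
    refine le_of_mul_le_mul_left ?_ (card_pos' (Γ := Γ))
    have e : (Fintype.card Γ : ℝ) * ∑ t ∈ good A H M, (16⁻¹ : ℝ) ^ cost A lev M t
        = ∑ t : Tup α M, (16⁻¹ : ℝ) ^ cost A lev M t *
            ((univ.filter fun d : Γ => img d (pts A M t) ⊆ H).card : ℝ) := by
      have : ∀ d : Γ, ∑ t ∈ good A H M, (16⁻¹ : ℝ) ^ cost A lev M t
          = ∑ t : Tup α M, if img d (pts A M t) ⊆ H then (16⁻¹ : ℝ) ^ cost A lev M t else 0 := by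
        intro d
        rw [← sum_filter]
        symm
        refine sum_equiv (mv (mvα d) M) (fun t => ?_) fun t _ => by
          rw [cost_mv A lev hlev d _ (hmv d)]
        simp [good, pts_mv A d _ (hmv d)]
      rw [← nsmul_eq_mul, ← card_univ, ← sum_const, sum_congr rfl fun d _ => this d, sum_comm]
      refine sum_congr rfl fun t _ => ?_
      rw [← sum_filter, sum_const, nsmul_eq_mul, mul_comm]
    rw [e, Zs, mul_sum, mul_sum, sum_filter]
    refine sum_le_sum fun t _ => ?_
    by_cases hf : Fit Γ H (pts A M t)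
    · rw [if_pos hf]
      have hX := hs.X_le_choose hq.le (S := pts A M t) (subset_refl H)
      rw [X, div_le_iff₀ card_pos'] at hX
      have hc : ((H.card.choose (pts A M t).card : ℕ) : ℝ) ≤ 2 ^ H.card := by
        exact_mod_cast Nat.choose_le_two_pow _ _
      calc (16⁻¹ : ℝ) ^ cost A lev M t *
            ((univ.filter fun d : Γ => img d (pts A M t) ⊆ H).card : ℝ)
          ≤ (16⁻¹ : ℝ) ^ cost A lev M t *
              (2 * 2 ^ H.card * q ^ (pts A M t).card * Fintype.card Γ) := by
            refine mul_le_mul_of_nonneg_left (le_trans hX ?_) (by positivity)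
            gcongr
        _ = _ := by ring
    · rw [if_neg hf, filter_false_of_mem fun d _ h => hf ⟨d, h⟩]
      simp
  set Pr : ℝ := (Fintype.card α : ℝ) * q ^ e * exp (log 2 + 3 * massB lev H) with hPr
  have hZ : Zs Γ A lev H q M ≤ Pr ^ k :=
    le_trans (Zs_le A lev H hq hs hlev mvα hmv hcard M) (pow_le_pow_left₀ (by positivity)
      (mul_le_mul_of_nonneg_left (exp_le_exp.2 (sum_wtD lev H M)) (by positivity)) _)
  have hE : (2 : ℝ) * 2 ^ H.card ≤ exp 1 ^ k := by
    calc (2 : ℝ) * 2 ^ H.card = 2 ^ M := by rw [hM, pow_succ]; ring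
      _ ≤ exp 1 ^ M := pow_le_pow_left₀ (by norm_num)
          (by linarith [exp_one_gt_d9]) _
      _ ≤ exp 1 ^ k := pow_le_pow_right₀ (one_le_exp (by norm_num)) Nat.lt_two_pow_self.le
  have h3 : N ^ k ≤ (exp (lam * massB lev H) * exp 1 * Pr) ^ k := by
    have h := hlow.trans (hup.trans (mul_le_mul hE hZ
      (sum_nonneg fun t _ => mul_nonneg (by positivity) (pow_nonneg hq.le _)) (by positivity)))
    rw [exp_neg, mul_inv_le_iff₀ (exp_pos _)] at h
    refine le_of_le_of_eq h ?_
    rw [mul_pow, mul_pow, hm, show lam * (k * massB lev H) = k * (lam * massB lev H) by ring,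
      exp_nat_mul]
    ring
  have h4 := (pow_le_pow_iff_left₀ (by positivity) (by positivity) (by positivity)).1 h3
  refine le_trans h4 ?_
  calc exp (lam * massB lev H) * exp 1 * Pr
      = Fintype.card α * q ^ e * exp (lam * massB lev H + 1 + (log 2 + 3 * massB lev H)) := by
        simp only [hPr, exp_add]; ring
    _ ≤ _ := by
        refine mul_le_mul_of_nonneg_left (exp_le_exp.2 ?_)
          (mul_nonneg (Nat.cast_nonneg _) (pow_nonneg hq.le _))
        linarith [log_two_lt_d9, mul_le_mul_of_nonneg_right hlam3 hB]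

end Vale.Agent.P064
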