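import Vale.Agent.P064.Glue

/-!
# Weights of connected pieces

The weights of the pieces grown from given seeds sum to at most one.
-/

open Finset Real
open scoped Classical

namespace Vale.Agent.P064

variable {n : ℕ}

/-- The colour of an edge end in a piece: absent, leaving or internal. -/
noncomputable def endColour (p : Piece n) (s : Fin n × Sym2 (Fin n)) : Fin 4 :=
  if s.2 ∈ p.2 then (if ∀ x ∈ s.2, x ∈ p.1 then 2 else 1) else 0

/-- The edge ends of `U`. -/
noncomputable def edgeEnds (U : Finset (Sym2 (Fin n))) : Finset (Fin n × Sym2 (Fin n)) :=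
  (univ ×ˢ U).filter fun s => s.1 ∈ s.2

lemma card_edgeEnds_at (U : Finset (Sym2 (Fin n))) (K : Finset (Fin n)) :
    ((edgeEnds U).filter fun s => s.1 ∈ K).card = ∑ v ∈ K, degIn U v := by
  rw [card_eq_sum_card_fiberwise (f := Prod.fst) (t := K)
    (s := (edgeEnds U).filter fun s => s.1 ∈ K)
    (fun s hs => by
      rw [mem_coe, mem_filter] at hs
      exact mem_coe.2 hs.2)]
  refine sum_congr rfl fun v hv => ?_
  refine card_bij (fun s _ => s.2) ?_ ?_ ?_
  · rintro ⟨a, y⟩ hs
    simp only [edgeEnds, mem_filter, mem_product, mem_univ, true_and] at hs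
    obtain ⟨⟨⟨hy, hay⟩, -⟩, rfl⟩ := hs
    exact mem_filter.2 ⟨hy, hay⟩
  · rintro ⟨a, y⟩ ha ⟨b, z⟩ hb h
    simp only [mem_filter] at ha hb
    exact Prod.ext (ha.2.trans hb.2.symm) h
  · intro y hy
    rw [mem_filter] at hy
    exact ⟨(v, y), by simp [edgeEnds, hy.1, hy.2, hv], rfl⟩

/-- Pieces grown from the same seeds weigh at most one in total. -/
theorem sum_wgt_le (U : Finset (Sym2 (Fin n))) (Z : Finset (Fin n)) (F : Finset (Piece n))
    (hF : ∀ p ∈ F, Z ⊆ p.1 ∧ p.2 ⊆ inc U p.1 ∧ Linked p.1 p.2 Z) :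
    ∑ p ∈ F, wgt U p.1 ≤ 1 := by
  obtain ⟨N, hN⟩ : ∃ N, N = Fintype.card {s // s ∈ edgeEnds U} := ⟨_, rfl⟩
  obtain ⟨C, hC⟩ : ∃ C : Piece n → Finset ({s // s ∈ edgeEnds U} → Fin 4),
      C = fun p => Fintype.piFinset fun s => if s.1.1 ∈ p.1 then {endColour p s.1} else univ :=
    ⟨_, rfl⟩
  have hmem : ∀ p col, col ∈ C p →
      ∀ v ∈ p.1, ∀ y (hy : (v, y) ∈ edgeEnds U), col ⟨(v, y), hy⟩ = endColour p (v, y) := by
    intro p col h v hv y hy
    rw [hC, Fintype.mem_piFinset] at h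
    have := h ⟨(v, y), hy⟩
    simpa [hv] using this
  have hcard : ∀ p : Piece n, ((C p).card : ℝ) = 4 ^ N * wgt U p.1 := by
    intro p
    have h1 : (C p).card * 4 ^ (∑ v ∈ p.1, degIn U v) = 4 ^ N := by
      rw [hC, Fintype.card_piFinset, ← card_edgeEnds_at U p.1, hN]
      have e : (4 : ℕ) ^ ((edgeEnds U).filter fun s => s.1 ∈ p.1).card
          = ∏ s : {s // s ∈ edgeEnds U}, if s.1.1 ∈ p.1 then 4 else 1 := by
        rw [prod_coe_sort (edgeEnds U) (fun s => if s.1 ∈ p.1 then 4 else 1), ← prod_filter,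
          prod_const]
      rw [e, ← prod_mul_distrib, ← card_univ, ← prod_const]
      refine prod_congr rfl fun s _ => ?_
      by_cases h : s.1.1 ∈ p.1 <;> simp [h]
    rw [wgt, inv_pow, eq_mul_inv_iff_mul_eq₀ (by positivity)]
    exact_mod_cast h1
  have hdisj : ∀ p ∈ F, ∀ p' ∈ F, p ≠ p' → Disjoint (C p) (C p') := by
    intro p hp p' hp' hne
    rw [disjoint_left]
    intro col h h'
    refine hne ?_
    have key : ∀ p ∈ F, ∀ p' ∈ F, col ∈ C p → col ∈ C p' → p.1 ⊆ p'.1 := by
      intro p hp p' hp' h h'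
      by_contra hsub
      obtain ⟨a, ha, b, hb, hbP, hab⟩ := (hF p hp).2.2 (p.1 ∩ p'.1) inter_subset_left
        (subset_inter (hF p hp).1 (hF p' hp').1) (fun e => hsub (inter_eq_left.1 e))
      obtain ⟨haK, haK'⟩ := mem_inter.1 ha
      have hyU : s(a, b) ∈ U := (mem_filter.1 ((hF p hp).2.1 hab)).1
      have hy : (a, s(a, b)) ∈ edgeEnds U := by simp [edgeEnds, hyU]
      have e1 := hmem p col h a haK _ hy
      rw [hmem p' col h' a haK' _ hy] at e1
      have e2 : endColour p (a, s(a, b)) = 2 := by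
        simp [endColour, hab, haK, hb]
      rw [e2, endColour] at e1
      split_ifs at e1 with h1 h2
      · exact hbP (mem_inter.2 ⟨hb, h2 b (Sym2.mem_mk_right a b)⟩)
      · exact absurd e1 (by decide)
      · exact absurd e1 (by decide)
    have hK : p.1 = p'.1 := (key p hp p' hp' h h').antisymm (key p' hp' p hp h' h)
    have keyE : ∀ p ∈ F, ∀ p' ∈ F, p.1 = p'.1 → col ∈ C p → col ∈ C p' → p.2 ⊆ p'.2 := by
      intro p hp p' hp' hK h h' y hy
      have hyi := mem_filter.1 ((hF p hp).2.1 hy)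
      obtain ⟨hyU, v, hv, hvy⟩ := hyi
      have hs : (v, y) ∈ edgeEnds U := by simp [edgeEnds, hyU, hvy]
      have e1 := hmem p col h v hv _ hs
      rw [hmem p' col h' v (hK ▸ hv) _ hs] at e1
      by_contra hy'
      simp only [endColour, hy, hy', if_true, if_false] at e1
      split_ifs at e1 <;> exact absurd e1 (by decide)
    exact Prod.ext hK ((keyE p hp p' hp' hK h h').antisymm (keyE p' hp' p hp hK.symm h' h))
  have htot : (∑ p ∈ F, (C p).card : ℕ) ≤ 4 ^ N := by
    rw [← card_biUnion hdisj]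
    refine (card_le_univ _).trans (le_of_eq ?_)
    rw [Fintype.card_fun, Fintype.card_fin, hN]
  have h2 : (4 : ℝ) ^ N * ∑ p ∈ F, wgt U p.1 ≤ 4 ^ N * 1 := by
    rw [mul_sum, ← sum_congr rfl (fun p _ => hcard p), mul_one]
    exact_mod_cast htot
  exact le_of_mul_le_mul_left h2 (by positivity)

/-- The pieces through a vertex set weigh at most its size. -/
theorem sum_units_le (U : Finset (Sym2 (Fin n))) (A : Finset (Fin n)) :
    ∑ p ∈ (units U).filter (fun p => ∃ v ∈ A, v ∈ p.1), wgt U p.1 ≤ A.card := by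
  have hw : ∀ p : Piece n, 0 ≤ wgt U p.1 := fun p => by unfold wgt; positivity
  refine le_trans (b := ∑ v ∈ A, ∑ p ∈ (units U).filter (fun p => v ∈ p.1), wgt U p.1) ?_ ?_
  · simp only [sum_filter]
    rw [sum_comm]
    refine sum_le_sum fun p _ => ?_
    split_ifs with h
    · obtain ⟨v, hv, hvp⟩ := h
      refine le_trans (le_of_eq (if_pos (e := (0 : ℝ)) hvp).symm) (single_le_sum (f := fun x => if x ∈ p.1 then wgt U p.1 else 0) (fun x _ => ?_) hv)
      split_ifs
      · exact hw p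
      · exact le_rfl
    · refine sum_nonneg fun x _ => ?_
      split_ifs
      · exact hw p
      · exact le_rfl
  refine (sum_le_sum fun v _ => sum_wgt_le U {v} _ ?_).trans (le_of_eq (by simp))
  intro p hp
  obtain ⟨hu, hv⟩ := mem_filter.1 hp
  have hu' := (mem_filter.1 hu).2
  exact ⟨singleton_subset_iff.2 hv, hu'.sub, hu'.linked v hv⟩

lemma ends_img (g : Equiv.Perm (Fin n)) (E : Finset (Sym2 (Fin n))) :
    ends (img g E) = (ends E).image g := by
  ext v
  constructor
  · intro hv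
    obtain ⟨y, hy, hvy⟩ := (mem_filter.1 hv).2
    obtain ⟨z, hz, rfl⟩ := mem_image.1 hy
    obtain ⟨w, hw, rfl⟩ := Sym2.mem_map.1 hvy
    exact mem_image.2 ⟨w, mem_filter.2 ⟨mem_univ _, z, hz, hw⟩, rfl⟩
  · intro hv
    obtain ⟨w, hw, rfl⟩ := mem_image.1 hv
    obtain ⟨z, hz, hwz⟩ := (mem_filter.1 hw).2
    exact mem_filter.2 ⟨mem_univ _, g • z, mem_image.2 ⟨z, hz, rfl⟩, Sym2.mem_map.2 ⟨w, hwz, rfl⟩⟩

lemma SameClass.att_eq {p p' : Piece n} (h : SameClass p p') : att p' = att p := by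
  obtain ⟨g, hg, h1, h2⟩ := h
  rw [att, ← h1, ← h2, ends_img, ← image_sdiff _ _ g.injective]
  exact (image_congr fun x hx => hg x hx).trans image_id

lemma SameClass.symm {p p' : Piece n} (h : SameClass p p') : SameClass p' p := by
  have ha := h.att_eq
  obtain ⟨g, hg, h1, h2⟩ := h
  refine ⟨g⁻¹, ?_, ?_, ?_⟩
  · intro x hx
    rw [ha] at hx
    exact (Equiv.Perm.inv_eq_iff_eq).2 (hg x hx).symm
  · rw [← h1, image_image]
    simp [Function.comp_def]
  · rw [← h2, ← img_mul, inv_mul_cancel, img_one]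

lemma SameClass.trans {p p' p'' : Piece n} (h : SameClass p p') (h' : SameClass p' p'') :
    SameClass p p'' := by
  have ha := h.att_eq
  obtain ⟨g, hg, h1, h2⟩ := h
  obtain ⟨g', hg', h1', h2'⟩ := h'
  refine ⟨g' * g, ?_, ?_, ?_⟩
  · intro x hx
    rw [Equiv.Perm.mul_apply, hg x hx]
    exact hg' x (ha.symm ▸ hx)
  · rw [← h1', ← h1, image_image]
    rfl
  · rw [← h2', ← h2, img_mul]

/-- The class relation is an equivalence. -/
theorem pieceClass_eq {p p' : Piece n} (h : p' ∈ pieceClass p) : pieceClass p' = pieceClass p := by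
  have h' : SameClass p p' := (mem_filter.1 h).2
  ext x
  simp only [pieceClass, mem_filter, mem_univ, true_and]
  exact ⟨fun hx => h'.trans hx, fun hx => h'.symm.trans hx⟩

/-- All classes together weigh at most the number of vertices covered. -/
theorem sum_classWgt_le (U : Finset (Sym2 (Fin n))) (S : Finset (Piece n)) :
    ∑ κ ∈ S.image pieceClass, classWgt U κ ≤ (ends U).card := by
  have hdisj : (↑(S.image pieceClass) : Set (Finset (Piece n))).PairwiseDisjoint
      fun κ => (units U).filter (· ∈ κ) := by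
    intro κ hκ κ' hκ' hne
    refine disjoint_left.2 fun x hx hx' => hne ?_
    obtain ⟨p, -, rfl⟩ := mem_image.1 hκ
    obtain ⟨p', -, rfl⟩ := mem_image.1 hκ'
    rw [← pieceClass_eq (mem_filter.1 hx).2, ← pieceClass_eq (mem_filter.1 hx').2]
  unfold classWgt
  rw [← sum_biUnion hdisj]
  refine le_trans (sum_le_sum_of_subset_of_nonneg ?_ fun p _ _ => ?_) (sum_units_le U (ends U))
  · intro p hp
    obtain ⟨κ, -, hp⟩ := mem_biUnion.1 hp
    have hu := (mem_filter.1 hp).1
    refine mem_filter.2 ⟨hu, ?_⟩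
    have hu' := (mem_filter.1 hu).2
    obtain ⟨v, hv⟩ := hu'.nonempty
    obtain ⟨y, hy, hvy⟩ := (mem_filter.1 (hu'.covered v hv)).2
    exact ⟨v, mem_filter.2 ⟨mem_univ _, y, (mem_filter.1 (hu'.sub hy)).1, hvy⟩, hv⟩
  · unfold wgt
    positivity

end Vale.Agent.P064
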