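import Vale.Agent.P064.Code
import Vale.Agent.P064.Subsets
import Vale.Agent.P064.Kraft

/-!
# The codes of one side weigh at most one
-/

open Finset Real
open scoped Classical

namespace Vale.Agent.P064

variable {n : ℕ}

lemma sum_markW {α : Type} [DecidableEq α] (R : Finset α) :
    ∑ B ∈ R.powerset, Pat.markW R.card B.card ≤ 1 := by
  rw [sum_powerset]
  refine le_trans (sum_le_sum fun g _ => ?_) (sum_exp_two_le (R.card + 1))
  rw [sum_congr rfl fun B hB => by rw [(mem_powersetCard.1 hB).2], sum_const, card_powersetCard,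
    nsmul_eq_mul, Pat.markW]
  rcases Nat.eq_zero_or_pos (R.card.choose g) with h | h
  · rw [h, Nat.cast_zero, zero_mul]; positivity
  · rw [mul_div_cancel₀ _ (Nat.cast_ne_zero.2 h.ne')]

lemma exp_sell_le (hn : 2 ≤ n) : exp (-(3 * sell n)) ≤ 1 / log (n : ℝ) ^ 3 := by
  have hL : 0 < log (n : ℝ) := log_pos (by exact_mod_cast hn)
  have h1 : log (n : ℝ) ≤ exp (sell n) := by
    rw [sell, exp_add, exp_log (by linarith)]
    have := one_le_exp (show (0 : ℝ) ≤ 24 by norm_num)
    nlinarith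
  rw [exp_neg, show 3 * sell n = sell n * 3 by ring,
    show exp (sell n * 3) = exp (sell n) ^ 3 by rw [← exp_nat_mul]; ring_nf, one_div]
  exact inv_anti₀ (by positivity) (pow_le_pow_left₀ hL.le h1 3)

lemma sum_looseW (hn : 2 ≤ n) (U : Finset (Sym2 (Fin n))) (κ : Finset (Piece n))
    (R : Finset (Piece n)) (hR : R ⊆ (units U).filter (· ∈ κ)) :
    ∑ B ∈ R.powerset, Pat.looseW U κ B ≤ exp (classWgt U κ / log (n : ℝ) ^ 3) := by
  set c := classWgt U κ with hc
  have hc0 : 0 ≤ c := sum_nonneg fun p _ => (wgt_pos U _).le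
  refine le_trans ?_ (add_one_le_exp (c / log (n : ℝ) ^ 3))
  rw [sum_powerset, sum_range_succ', powersetCard_zero, sum_singleton, Pat.looseW, if_pos rfl]
  refine add_le_add ?_ le_rfl
  have hsumR : ∑ p ∈ R, wgt U p.1 ≤ c :=
    sum_le_sum_of_subset_of_nonneg hR fun p _ _ => (wgt_pos U _).le
  rcases Nat.eq_zero_or_pos R.card with h | h
  · simp only [h, range_zero, sum_empty]
    exact div_nonneg hc0 (pow_nonneg (log_natCast_nonneg n) 3)
  have hcp : 0 < c := lt_of_lt_of_le (sum_pos (fun p _ => wgt_pos U _) (card_pos.1 h)) hsumR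
  calc ∑ g ∈ range R.card, ∑ B ∈ R.powersetCard (g + 1), Pat.looseW U κ B
      ≤ ∑ g ∈ range R.card, c * exp (-(3 * sell n)) * exp (-(2 * (g : ℝ) + 1)) := by
        refine sum_le_sum fun g _ => ?_
        have hB : ∀ B ∈ R.powersetCard (g + 1), Pat.looseW U κ B
            = exp (-(2 * ((g + 1 : ℕ) : ℝ) + 3 * sell n + ((g + 1 : ℕ) - 1) * log c
                - log ((g + 1).factorial : ℝ))) * ∏ p ∈ B, wgt U p.1 := by
          intro B hB
          obtain ⟨-, hcard⟩ := mem_powersetCard.1 hB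
          rw [Pat.looseW, if_neg (fun e => by simp [e] at hcard), hcard]
        rw [sum_congr rfl hB, ← mul_sum]
        have h1 := (sum_powersetCard_prod R (fun p => wgt U p.1)
          (fun p _ => (wgt_pos U _).le) (g + 1)).trans (pow_le_pow_left₀
            (sum_nonneg fun p _ => (wgt_pos U _).le) hsumR _)
        set F := (((g + 1).factorial : ℕ) : ℝ) with hF
        have hF0 : 0 < F := by positivity
        push_cast
        rw [show -(2 * ((g : ℝ) + 1) + 3 * sell n + ((g : ℝ) + 1 - 1) * log c - log F)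
            = -(3 * sell n) + -(2 * (g : ℝ) + 1) + -1 + log F + (-(g : ℝ)) * log c by ring,
          exp_add, exp_add, exp_add, exp_add, exp_log hF0, mul_comm (-(g : ℝ)) (log c),
          ← rpow_def_of_pos hcp, rpow_neg hc0, rpow_natCast]
        calc exp (-(3 * sell n)) * exp (-(2 * (g : ℝ) + 1)) * exp (-1) * F * (c ^ g)⁻¹
              * ∑ B ∈ R.powersetCard (g + 1), ∏ p ∈ B, wgt U p.1
            = exp (-(3 * sell n)) * exp (-(2 * (g : ℝ) + 1)) * exp (-1) * (c ^ g)⁻¹
              * (F * ∑ B ∈ R.powersetCard (g + 1), ∏ p ∈ B, wgt U p.1) := by ring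
          _ ≤ exp (-(3 * sell n)) * exp (-(2 * (g : ℝ) + 1)) * exp (-1) * (c ^ g)⁻¹
              * c ^ (g + 1) := mul_le_mul_of_nonneg_left h1 (by positivity)
          _ = c * exp (-(3 * sell n)) * exp (-(2 * (g : ℝ) + 1)) * exp (-1) := by
              rw [pow_succ]; field_simp
          _ ≤ _ := mul_le_of_le_one_right (by positivity) (exp_le_one_iff.2 (by norm_num))
    _ = c * exp (-(3 * sell n)) * ∑ g ∈ range R.card, exp (-(2 * (g : ℝ) + 1)) := by rw [mul_sum]
    _ ≤ c * exp (-(3 * sell n)) * 1 :=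
        mul_le_mul_of_nonneg_left (sum_exp_two_le _) (by positivity)
    _ ≤ c / log (n : ℝ) ^ 3 := by
        rw [mul_one, div_eq_mul_one_div]
        exact mul_le_mul_of_nonneg_left (exp_sell_le hn) hc0

namespace Pat

variable (P : Pat n) {k : ℕ}

/-- The loose pieces weigh at most the number of vertices allows. -/
lemma sum_loose_sets (hn : 2 ≤ n) (U : Finset (Sym2 (Fin n))) :
    ∑ A ∈ (units U).powerset,
        ∏ κ ∈ A.image pieceClass, looseW U κ (A.filter (pieceClass · = κ))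
      ≤ exp ((ends U).card / log (n : ℝ) ^ 3) := by
  set I := (units U).image pieceClass with hI
  have e : ∀ A ∈ (units U).powerset,
      ∏ κ ∈ A.image pieceClass, looseW U κ (A.filter (pieceClass · = κ))
        = ∏ κ ∈ I, looseW U κ (A.filter (pieceClass · = κ)) := by
    intro A hA
    refine prod_subset (image_subset_image (mem_powerset.1 hA)) fun κ _ hκ => ?_
    rw [looseW, if_pos (filter_eq_empty_iff.2 fun p hp e => hκ (mem_image.2 ⟨p, hp, e⟩))]
  rw [sum_congr rfl e]
  refine (sum_powerset_fibres (units U) pieceClass I (fun p hp => mem_image_of_mem _ hp) _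
    (fun κ A => looseW_nonneg U κ A)).trans ?_
  calc ∏ κ ∈ I, ∑ B ∈ ((units U).filter (pieceClass · = κ)).powerset, looseW U κ B
      ≤ ∏ κ ∈ I, exp (classWgt U κ / log (n : ℝ) ^ 3) :=
        prod_le_prod (fun κ _ => sum_nonneg fun B _ => looseW_nonneg U κ B) fun κ _ =>
          sum_looseW hn U κ _ fun p hp => mem_filter.2 ⟨(mem_filter.1 hp).1,
            (mem_filter.1 hp).2 ▸ self_mem_pieceClass p⟩
    _ ≤ _ := by
        rw [← exp_sum, exp_le_exp, ← sum_div]
        exact div_le_div_of_nonneg_right (sum_classWgt_le U _)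
          (pow_nonneg (log_natCast_nonneg n) 3)

/-- The selections at the met vertices weigh at most one. -/
lemma sum_mark_sets (s : Fin k → Equiv.Perm (Fin n)) (M : Finset (Fin n)) :
    ∑ G ∈ ((M ×ˢ P.edges s).filter fun x => x.2 ∈ P.richAt s x.1).powerset,
      ∏ x ∈ M, markW (P.richAt s x).card (G.filter (·.1 = x)).card ≤ 1 := by
  set R := (M ×ˢ P.edges s).filter fun x => x.2 ∈ P.richAt s x.1 with hR
  refine (sum_powerset_fibres R Prod.fst M (fun x hx => (mem_product.1 (mem_filter.1 hx).1).1)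
    (fun x B => markW (P.richAt s x).card B.card) fun x B => markW_nonneg _ _).trans ?_
  refine prod_le_one (fun x _ => sum_nonneg fun B _ => markW_nonneg _ _) fun x hx => ?_
  have e : R.filter (·.1 = x) = (P.richAt s x).image fun y => (x, y) := by
    ext ⟨a, y⟩
    simp only [hR, mem_filter, mem_product, mem_image, Prod.mk.injEq]
    constructor
    · rintro ⟨⟨-, h2⟩, rfl⟩
      exact ⟨y, h2, rfl, rfl⟩
    · rintro ⟨z, hz, rfl, rfl⟩
      exact ⟨⟨⟨hx, (mem_filter.1 hz).1⟩, hz⟩, rfl⟩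
  have e' : (R.filter (·.1 = x)).card = (P.richAt s x).card := by
    rw [e, card_image_of_injective _ fun a b h => (Prod.mk.injEq .. ▸ h).2]
  rw [← e']
  exact sum_markW _

/-- The codes of one side weigh at most one. -/
theorem sum_codeW (hn : 2 ≤ n) (s : Fin k → Equiv.Perm (Fin n)) (C : Finset (SCode n))
    (hC : ∀ c ∈ C, P.CodeValid s c) : ∑ c ∈ C, P.codeW s c ≤ 1 := by
  set U := P.edges s with hU
  set L3 := log (n : ℝ) ^ 3 with hL3
  set pre := exp (-((P.metV s).card + (P.metE s).card + (ends U).card / L3)) with hpre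
  set mk : Finset (Fin n) → Finset (Fin n × Sym2 (Fin n)) → ℝ := fun M G =>
    ∏ x ∈ M, markW (P.richAt s x).card (G.filter (·.1 = x)).card with hmk
  set top := pre * exp ((ends U).card / L3) with htop
  -- the met vertices and edges
  refine (sum_le_fibres (fun c => (c.mid, c.mI)) ((P.metV s).powerset ×ˢ (P.metE s).powerset)
    (fun _ => top) (fun c hc => mem_product.2
      ⟨mem_powerset.2 (hC c hc).mid_sub, mem_powerset.2 (hC c hc).mI_sub⟩) fun mm _ => ?_).trans ?_
  swap
  · have e : top = exp (-((P.metV s).card : ℝ)) * exp (-((P.metE s).card : ℝ)) := by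
      rw [htop, hpre, ← exp_add, ← exp_add]; ring_nf
    have h2 : ∀ m : ℕ, (2 : ℝ) ^ m * exp (-(m : ℝ)) ≤ 1 := fun m => by
      rw [exp_neg, mul_inv_le_iff₀ (exp_pos _), one_mul, show (m : ℝ) = m * 1 by ring, exp_nat_mul]
      exact pow_le_pow_left₀ (by norm_num) (by linarith [exp_one_gt_d9]) m
    rw [sum_const, card_product, card_powerset, card_powerset, nsmul_eq_mul, e]
    push_cast
    calc _ = ((2 : ℝ) ^ (P.metV s).card * exp (-((P.metV s).card : ℝ)))
            * (2 ^ (P.metE s).card * exp (-((P.metE s).card : ℝ))) := by ring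
      _ ≤ 1 * 1 := mul_le_mul (h2 _) (h2 _) (by positivity) zero_le_one
      _ = 1 := mul_one _
  obtain ⟨M, mI⟩ := mm
  set C0 := C.filter fun c => (c.mid, c.mI) = (M, mI)
  have hC0 : ∀ c ∈ C0, P.CodeValid s c ∧ c.mid = M ∧ c.mI = mI := fun c hc => by
    obtain ⟨hc, he⟩ := mem_filter.1 hc
    simp only [Prod.mk.injEq] at he
    exact ⟨hC c hc, he⟩
  -- the selections
  refine (sum_le_fibres (fun c => c.G)
    ((M ×ˢ P.edges s).filter fun x => x.2 ∈ P.richAt s x.1).powerset
    (fun G => top * mk M G) (fun c hc => mem_powerset.2 fun x hx => ?_) fun G _ => ?_).trans ?_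
  · obtain ⟨h1, h2⟩ := (hC0 c hc).1.G_sub x hx
    exact mem_filter.2 ⟨mem_product.2 ⟨(hC0 c hc).2.1 ▸ h1, (mem_filter.1 h2).1⟩, h2⟩
  swap
  · rw [← mul_sum]
    exact mul_le_of_le_one_right (by positivity) (P.sum_mark_sets s M)
  set sl := ends (mI ∪ G.image Prod.snd) with hsl
  set C1 := C0.filter fun c => c.G = G
  have hC1 : ∀ c ∈ C1, P.CodeValid s c ∧ c.mid = M ∧ c.mI = mI ∧ c.G = G ∧ c.sel = sl := by
    intro c hc
    obtain ⟨hc, hG⟩ := mem_filter.1 hc
    obtain ⟨a, b, d⟩ := hC0 c hc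
    exact ⟨a, b, d, hG, by rw [SCode.sel, hsl, d, hG]⟩
  have hmk0 : 0 ≤ mk M G := prod_nonneg fun x _ => markW_nonneg _ _
  -- the seeds
  refine (sum_le_fibres (fun c => c.Z) sl.powerset (fun _ => top * mk M G * (2⁻¹ : ℝ) ^ sl.card)
    (fun c hc => mem_powerset.2 ((hC1 c hc).2.2.2.2 ▸ (hC1 c hc).1.Z_sub)) fun Z _ => ?_).trans ?_
  swap
  · rw [sum_const, card_powerset, nsmul_eq_mul, Nat.cast_pow, Nat.cast_ofNat, mul_left_comm,
      ← mul_pow]
    norm_num
  set C2 := C1.filter fun c => c.Z = Z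
  set KK := C2.image SCode.K
  -- the seeded pieces
  refine (sum_le_fibres (fun c => c.K) KK
    (fun K => top * mk M G * (2⁻¹ : ℝ) ^ sl.card * wgt U K.1)
    (fun c hc => mem_image_of_mem _ hc) fun K _ => ?_).trans ?_
  swap
  · rw [← mul_sum]
    refine mul_le_of_le_one_right (by positivity) (sum_wgt_le U Z KK fun p hp => ?_)
    obtain ⟨c, hc, rfl⟩ := mem_image.1 hp
    obtain ⟨hc1, hZ⟩ := mem_filter.1 hc
    exact hZ ▸ (hC1 c hc1).1.K_span
  set C3 := C2.filter fun c => c.K = K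
  have hC3 : ∀ c ∈ C3, P.CodeValid s c ∧ c.mid = M ∧ c.mI = mI ∧ c.G = G ∧ c.sel = sl ∧ c.Z = Z
      ∧ c.K = K := by
    intro c hc
    obtain ⟨hc, hK⟩ := mem_filter.1 hc
    obtain ⟨hc, hZ⟩ := mem_filter.1 hc
    obtain ⟨a, b, d, e, f⟩ := hC1 c hc
    exact ⟨a, b, d, e, f, hZ, hK⟩
  set lp : Finset (Piece n) → ℝ := fun A =>
    ∏ κ ∈ A.image pieceClass, looseW U κ (A.filter (pieceClass · = κ)) with hlp
  set Xw := pre * mk M G * (2⁻¹ : ℝ) ^ sl.card * wgt U K.1 with hX
  have hX0 : 0 ≤ Xw := mul_nonneg (by positivity) (wgt_pos U _).le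
  calc ∑ c ∈ C3, P.codeW s c = ∑ c ∈ C3, Xw * lp c.Lp := sum_congr rfl fun c hc => by
        obtain ⟨-, h1, -, h3, h4, -, h6⟩ := hC3 c hc
        rw [codeW, h1, h3, h4, h6]
    _ = Xw * ∑ A ∈ C3.image SCode.Lp, lp A := by
        rw [mul_sum]
        refine (sum_image (f := fun A => Xw * lp A) fun a ha b hb e => ?_).symm
        obtain ⟨-, h1, h2, h3, -, h5, h6⟩ := hC3 a ha
        obtain ⟨-, g1, g2, g3, -, g5, g6⟩ := hC3 b hb
        cases a; cases b
        simp_all
    _ ≤ Xw * exp ((ends U).card / L3) := by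
        refine mul_le_mul_of_nonneg_left (le_trans (sum_le_sum_of_subset_of_nonneg (fun A hA => ?_)
          fun A _ _ => prod_nonneg fun κ _ => looseW_nonneg _ _ _) (sum_loose_sets hn U)) hX0
        obtain ⟨c, hc, rfl⟩ := mem_image.1 hA
        exact mem_powerset.2 (hC3 c hc).1.Lp_sub
    _ = _ := by rw [hX, htop]; ring

end Pat

end Vale.Agent.P064
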