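import Vale.Agent.P064.CodeOf
import Vale.Agent.P064.Side
import Vale.Agent.P064.Joint
import Vale.Agent.P064.Levels

/-!
# The price pays for all relative positions

Summed over the relative positions of two tuples inside a sparse graph, the exponential of the
price compensates the edges gained by gluing.
-/

open Finset Real
open scoped Classical

namespace Vale.Agent.P064

variable {n : ℕ}

lemma img_inv_move (g : Equiv.Perm (Fin n)) (K : Finset (Fin n)) :
    (K.image (g⁻¹ : Equiv.Perm (Fin n))).image g = K := by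
  rw [image_image, show (g : Fin n → Fin n) ∘ ⇑(g⁻¹ : Equiv.Perm (Fin n)) = id from
    funext fun x => by simp, image_id]

namespace SCode

lemma verts_move (g : Equiv.Perm (Fin n)) (c : SCode n) :
    (c.move g).verts = c.verts.image g := by
  simp only [SCode.verts, SCode.move, movePiece, image_union, biUnion_image, image_biUnion]

lemma kept_move (g : Equiv.Perm (Fin n)) (c : SCode n) :
    (c.move g).kept = img g c.kept := by
  have e : (c.move g).mI ∪ (c.move g).G.image Prod.snd ∪ (c.move g).K.2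
        ∪ (c.move g).Lp.biUnion Prod.snd
      = img g (c.mI ∪ c.G.image Prod.snd ∪ c.K.2 ∪ c.Lp.biUnion Prod.snd) := by
    simp only [SCode.move, movePiece, img, image_union, biUnion_image, image_biUnion, image_image]
    rfl
  rw [SCode.kept, SCode.kept, e, img, img, filter_image, verts_move]
  congr 1
  refine filter_congr fun y _ => ?_
  constructor
  · exact fun h v hv => g.injective.mem_finset_image.1 (h (g v) (mem_smul_edge.2 hv))
  · intro h v hv
    obtain ⟨x, rfl⟩ := g.surjective v
    exact mem_image_of_mem _ (h x (mem_smul_edge.1 hv))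

end SCode

namespace Pat

variable (P : Pat n) {k : ℕ} (lam : ℝ) (t u : Fin k → Equiv.Perm (Fin n))

/-- The vertices described by the codes. -/
noncomputable def codeV : Finset (Fin n) := (P.codeOf lam t u t).verts

/-- The common edges between described vertices. -/
noncomputable def codeE : Finset (Sym2 (Fin n)) :=
  (P.common t u).filter fun y => ∀ v ∈ y, v ∈ P.codeV lam t u

variable {P lam t u}

lemma mem_codeV {x : Fin n} : x ∈ P.codeV lam t u ↔
    x ∈ P.mid t u ∨ (∃ p ∈ P.seededParts t u, x ∈ p.1) ∨ ∃ p ∈ P.looseParts lam t u, x ∈ p.1 := by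
  simp [codeV, SCode.verts, codeOf, seedPiece]

lemma codeOf_verts (s : Fin k → Equiv.Perm (Fin n)) :
    (P.codeOf lam t u s).verts = P.codeV lam t u := by
  have h1 : ∀ r, (P.codeOf lam t u r).mid = P.mid t u := fun _ => rfl
  have h2 : ∀ r, (P.codeOf lam t u r).K = P.seedPiece t u := fun _ => rfl
  have h3 : ∀ r, (P.codeOf lam t u r).Lp = P.looseParts lam t u := fun _ => rfl
  rw [codeV, SCode.verts, SCode.verts, h1, h2, h3, h1, h2, h3]

lemma exists_rich {s : Fin k → Equiv.Perm (Fin n)} {y : Sym2 (Fin n)} (hy : y ∈ P.edges s) :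
    ∃ x ∈ y, P.Rich s y x := by
  obtain ⟨i, -, hy⟩ := mem_biUnion.1 hy
  obtain ⟨z, hz, rfl⟩ := mem_image.1 hy
  obtain ⟨w, hw⟩ := P.mark_ne z hz
  exact ⟨s i w, mem_smul_edge.2 (P.mark_sub z hz w hw), i, z, hz, w, hw, rfl, rfl⟩

/-- A side knows the common edges between described vertices. -/
lemma kept_eq {s : Fin k → Equiv.Perm (Fin n)} (hs : P.common t u ⊆ P.edges s) :
    (P.codeOf lam t u s).kept = P.codeE lam t u := by
  ext y
  have eV := codeOf_verts (P := P) (lam := lam) (t := t) (u := u) s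
  have eI : (P.codeOf lam t u s).mI = P.common t u ∩ P.metE s := rfl
  have eK : (P.codeOf lam t u s).K.2 = (P.seededParts t u).biUnion Prod.snd := rfl
  have eL : (P.codeOf lam t u s).Lp = P.looseParts lam t u := rfl
  rw [SCode.kept, eV, eI, eK, eL, mem_filter, codeE, mem_filter]
  refine and_congr_left fun hv => ⟨fun h => ?_, fun hy => ?_⟩
  · simp only [mem_union, mem_image, mem_biUnion, or_assoc] at h
    rcases h with h | ⟨z, hz, rfl⟩ | h | ⟨p, hp, hyp⟩
    · exact (mem_inter.1 h).1
    · exact (mem_codeOf_G.1 hz).2.2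
    · obtain ⟨p, hp, hyp⟩ := h
      rw [part_snd (mem_filter.1 hp).1] at hyp
      exact (mem_filter.1 hyp).1
    · rw [part_snd (mem_filter.1 hp).1] at hyp
      exact (mem_filter.1 hyp).1
  · by_cases hS : ∃ p ∈ P.seededParts t u, ∃ x ∈ p.1, x ∈ y
    · obtain ⟨p, hp, x, hx, hxy⟩ := hS
      refine mem_union_left _ (mem_union_right _ (mem_biUnion.2 ⟨p, hp, ?_⟩))
      rw [part_snd (mem_filter.1 hp).1]
      exact mem_filter.2 ⟨hy, x, hx, hxy⟩
    by_cases hL : ∃ p ∈ P.looseParts lam t u, ∃ x ∈ p.1, x ∈ y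
    · obtain ⟨p, hp, x, hx, hxy⟩ := hL
      refine mem_union_right _ (mem_biUnion.2 ⟨p, hp, ?_⟩)
      rw [part_snd (mem_filter.1 hp).1]
      exact mem_filter.2 ⟨hy, x, hx, hxy⟩
    refine mem_union_left _ (mem_union_left _ ?_)
    by_cases hm : 2 ≤ P.copE s y
    · exact mem_union_left _ (mem_inter.2 ⟨hy, mem_filter.2 ⟨hs hy, hm⟩⟩)
    obtain ⟨x, hxy, hx⟩ := exists_rich (hs hy)
    have hxm : x ∈ P.mid t u := by
      rcases mem_codeV.1 (show x ∈ P.codeV lam t u from hv x hxy) with h | ⟨p, hp, h⟩ | ⟨p, hp, h⟩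
      · exact h
      · exact absurd ⟨p, hp, x, h, hxy⟩ hS
      · exact absurd ⟨p, hp, x, h, hxy⟩ hL
    exact mem_union_right _ (mem_image.2 ⟨(x, y), mem_codeOf_G.2 ⟨hxm,
      mem_filter.2 ⟨hs hy, hxy, Nat.lt_of_not_ge hm, hx⟩, hy⟩, rfl⟩)

lemma part_cases {p : Piece n} (hp : p ∈ P.parts t u) :
    p ∈ P.seededParts t u ∨ p ∈ P.jointParts lam t u ∨ p ∈ P.looseParts lam t u := by
  by_cases h1 : P.Seeded t u p
  · exact .inl (mem_filter.2 ⟨hp, h1⟩)
  by_cases h2 : P.Slim lam t u p
  · exact .inr (.inl (mem_filter.2 ⟨hp, h1, h2⟩))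
  · exact .inr (.inr (mem_filter.2 ⟨hp, h1, h2⟩))

lemma joint_disjoint_codeV {p : Piece n} (hp : p ∈ P.jointParts lam t u) :
    Disjoint p.1 (P.codeV lam t u) := by
  obtain ⟨hpp, hns, hsl⟩ := mem_filter.1 hp
  refine disjoint_left.2 fun x hx hxV => ?_
  rcases mem_codeV.1 hxV with h | ⟨r, hr, h⟩ | ⟨r, hr, h⟩
  · exact (mem_sdiff.1 (part_subset hpp hx)).2 h
  · obtain ⟨hrp, hrs⟩ := mem_filter.1 hr
    exact hns (part_unique hpp hrp hx h ▸ hrs)
  · obtain ⟨hrp, -, hr2⟩ := mem_filter.1 hr
    exact hr2 (part_unique hpp hrp hx h ▸ hsl)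

lemma codeV_or_joint {x : Fin n} (hx : x ∈ ends (P.common t u)) :
    x ∈ P.codeV lam t u ∨ ∃ p ∈ P.jointParts lam t u, x ∈ p.1 := by
  rcases end_mid_or_outer hx with h | h
  · exact .inl (mem_codeV.2 (.inl h))
  have hp : P.part t u x ∈ P.parts t u := mem_parts.2 ⟨x, h, rfl⟩
  have hxp := P.mem_part_self t u h
  rcases part_cases (lam := lam) hp with h' | h' | h'
  · exact .inl (mem_codeV.2 (.inr (.inl ⟨_, h', hxp⟩)))
  · exact .inr ⟨_, h', hxp⟩
  · exact .inl (mem_codeV.2 (.inr (.inr ⟨_, h', hxp⟩)))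

lemma part_subset_ends {p : Piece n} (hp : p ∈ P.parts t u) : p.1 ⊆ ends (P.common t u) :=
  fun _ hx => (mem_sdiff.1 (part_subset hp hx)).1

lemma card_ends_common : (ends (P.common t u)).card
    = (P.codeV lam t u).card + ∑ p ∈ P.jointParts lam t u, p.1.card := by
  have e : ends (P.common t u)
      = P.codeV lam t u ∪ (P.jointParts lam t u).biUnion Prod.fst := by
    ext x
    rw [mem_union, mem_biUnion]
    refine ⟨codeV_or_joint, ?_⟩
    rintro (h | ⟨p, hp, h⟩)
    · rcases mem_codeV.1 h with h | ⟨p, hp, h⟩ | ⟨p, hp, h⟩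
      · exact mid_subset_ends h
      · exact part_subset_ends (mem_filter.1 hp).1 h
      · exact part_subset_ends (mem_filter.1 hp).1 h
    · exact part_subset_ends (mem_filter.1 hp).1 h
  have hdj : (↑(P.jointParts lam t u) : Set (Piece n)).PairwiseDisjoint Prod.fst :=
    parts_disjoint.subset (coe_subset.2 (filter_subset _ _))
  rw [e, card_union_of_disjoint, card_biUnion hdj]
  exact (disjoint_biUnion_right _ _ _).2 fun p hp => (joint_disjoint_codeV hp).symm

lemma card_common : (P.common t u).card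
    = (P.codeE lam t u).card + ∑ p ∈ P.jointParts lam t u, p.2.card := by
  have e : (P.common t u).filter (fun y => ¬ ∀ v ∈ y, v ∈ P.codeV lam t u)
      = (P.jointParts lam t u).biUnion Prod.snd := by
    ext y
    rw [mem_filter, mem_biUnion]
    constructor
    · rintro ⟨hy, hv⟩
      simp only [not_forall] at hv
      obtain ⟨x, hx, hxV⟩ := hv
      obtain ⟨p, hp, hxp⟩ := (codeV_or_joint (common_end hy hx)).resolve_left hxV
      refine ⟨p, hp, ?_⟩
      rw [part_snd (mem_filter.1 hp).1]
      exact mem_filter.2 ⟨hy, x, hxp, hx⟩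
    · rintro ⟨p, hp, hy⟩
      rw [part_snd (mem_filter.1 hp).1] at hy
      obtain ⟨hy, w, hw, hwy⟩ := mem_filter.1 hy
      exact ⟨hy, fun h => disjoint_left.1 (joint_disjoint_codeV hp) hw (h w hwy)⟩
  rw [← card_biUnion, ← e, codeE, card_filter_add_card_filter_not]
  intro p hp r hr hne
  exact disjoint_left.2 fun y hy hy' => hne
    (part_snd_unique (mem_filter.1 hp).1 (mem_filter.1 hr).1 hy hy')

variable (P) (lam) (t) (u)

/-- What the joint matching has to pay for. -/
noncomputable def restPay (q : ℝ) : ℝ :=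
  exp (-(∑ p ∈ P.jointParts lam t u, P.jointCost lam t u p + P.matchSum lam t u
      + (ends (P.common t u)).card)) / q ^ (P.common t u).card

/-- The price of a matched piece is its share in the matchings. -/
lemma exp_jointCost {q : ℝ} (hn : 2 ≤ n) (hq : 0 < q) (u' : Fin k → Equiv.Perm (Fin n))
    (h : Equiv.Perm (Fin n)) {p : Piece n}
    (hp : p ∈ P.jointParts (log (1 / q)) t (moveT h u')) (hfix : ∀ x ∈ att p, h x = x) :
    exp (-P.jointCost (log (1 / q)) t (moveT h u') p) / q ^ p.2.card
      = (n : ℝ) ^ p.1.card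
        * pairWgt (log (1 / q)) (P.edges t) (P.edges u') p (movePiece h⁻¹ p) := by
  set lam := log (1 / q) with hlam
  have hpp := (mem_filter.1 hp).1
  have hU : p ∈ units (P.edges t) := part_mem_units hpp inter_subset_left
  have hV : p ∈ units (P.edges (moveT h u')) := part_mem_units hpp inter_subset_right
  have eC : classWgt (P.edges (moveT h u')) (pieceClass p)
      = classWgt (P.edges u') (pieceClass p) := by
    rw [edges_move]; exact classWgt_fix h _ p hfix
  have eW : wgt (P.edges (moveT h u')) p.1 = wgt (P.edges u') (movePiece h⁻¹ p).1 := by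
    conv_lhs => rw [edges_move, show p.1 = ((movePiece h⁻¹ p).1).image h from (img_inv_move h p.1).symm]
    exact wgt_move h _ _
  have hc : 0 < classWgt (P.edges t) (pieceClass p) := (wgt_pos _ _).trans_le (wgt_le_classWgt hU)
  have hc' : 0 < classWgt (P.edges u') (pieceClass p) :=
    eC ▸ (wgt_pos _ _).trans_le (wgt_le_classWgt hV)
  have hd : ∀ x, 0 < devWgt (sell n) x := fun x => by
    have : 0 < sell n := by
      have := log_natCast_nonneg n
      have : 0 ≤ log (log (n : ℝ) + 3) := log_nonneg (by linarith)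
      rw [sell]; linarith
    unfold devWgt; positivity
  have hpot : exp (pot lam p) = (n : ℝ) ^ p.1.card * q ^ p.2.card := by
    rw [pot, exp_sub, exp_nat_mul, exp_nat_mul, exp_log (Nat.cast_pos.2 (by omega)), hlam,
      exp_log (by positivity), one_div, inv_pow, div_inv_eq_mul]
  have hh : ∀ c : ℝ, 0 < c → exp (log c / 2) = √c := fun c hc => by
    rw [← log_sqrt hc.le, exp_log (sqrt_pos.2 hc)]
  rw [jointCost, eC, eW, neg_add, neg_add, exp_add, exp_add]
  simp only [neg_sub, exp_sub, exp_log (hd _), exp_log (wgt_pos _ _), hh _ hc, hh _ hc', hpot,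
    exp_log (show (0 : ℝ) < (p.1.card.factorial : ℝ) by positivity), pairWgt]
  have := (sqrt_pos.2 hc).ne'
  have := (sqrt_pos.2 hc').ne'
  have := hq.ne'
  field_simp

/-- The positions with the same described vertices are paid by the matchings. -/
lemma sum_restPay_le {q : ℝ} (hn : 2 ≤ n) (hq : 0 < q) (u' : Fin k → Equiv.Perm (Fin n))
    (M W : Finset (Fin n)) (E : Finset (Sym2 (Fin n))) (hMW : M ⊆ W)
    (D : Finset (Equiv.Perm (Fin n))) (hD : ∀ h ∈ D, ∀ x ∈ W, h x = x)
    (hsame : ∀ h ∈ D, P.mid t (moveT h u') = M ∧ P.codeV (log (1 / q)) t (moveT h u') = W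
      ∧ P.codeE (log (1 / q)) t (moveT h u') = E) :
    ∑ h ∈ D, P.restPay (log (1 / q)) t (moveT h u') q
      ≤ ((n - W.card).factorial : ℝ) / q ^ E.card := by
  set lam := log (1 / q) with hlam
  set U := P.edges t with hU
  set V := P.edges u' with hV
  set J := fun h => P.jointParts lam t (moveT h u') with hJ
  set Y := ∑ κ ∈ ((units U).filter fun p => att p ⊆ M).image pieceClass,
      matchWgt lam U κ * matchWgt lam V κ with hY
  have key := sum_joint_le lam U V hMW D hD J (fun h hh p hp => by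
    obtain ⟨hm, hv, -⟩ := hsame h hh
    have hpp := (mem_filter.1 hp).1
    refine ⟨part_mem_units hpp inter_subset_left, ?_, hm ▸ att_subset_mid hpp,
      hv ▸ joint_disjoint_codeV hp⟩
    have := part_mem_units hpp (inter_subset_right : P.common t (moveT h u') ⊆ _)
    rw [edges_move, units_move] at this
    obtain ⟨r, hr, e⟩ := mem_image.1 this
    rwa [← e, movePiece_inv])
    (fun h _ => parts_disjoint.subset (coe_subset.2 (filter_subset _ _)))
  have heach : ∀ h ∈ D, P.restPay lam t (moveT h u') q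
      = exp (-Y) / q ^ E.card * (exp (-((W.card : ℝ) + ∑ p ∈ J h, (p.1.card : ℝ)))
        * ∏ p ∈ J h, (n : ℝ) ^ p.1.card * pairWgt lam U V p (movePiece h⁻¹ p)) := by
    intro h hh
    obtain ⟨hm, hv, he⟩ := hsame h hh
    have hfix : ∀ p : Piece n, att p ⊆ M → ∀ x ∈ att p, h x = x :=
      fun p hp x hx => hD h hh x (hMW (hp hx))
    have eY : P.matchSum lam t (moveT h u') = Y := by
      rw [matchSum, openClasses, hm]
      refine sum_congr rfl fun κ hκ => ?_
      obtain ⟨p, hp, rfl⟩ := mem_image.1 hκ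
      have e : classWgt (P.edges (moveT h u')) (pieceClass p) = classWgt V (pieceClass p) := by
        rw [edges_move]; exact classWgt_fix h _ p (hfix p (mem_filter.1 hp).2)
      simp only [matchWgt, e, hU, hV]
    have eP : ∏ p ∈ J h, (n : ℝ) ^ p.1.card * pairWgt lam U V p (movePiece h⁻¹ p)
        = exp (-∑ p ∈ J h, P.jointCost lam t (moveT h u') p) / q ^ ∑ p ∈ J h, p.2.card := by
      rw [← sum_neg_distrib, exp_sum, ← prod_pow_eq_pow_sum, ← prod_div_distrib]
      refine prod_congr rfl fun p hp => (P.exp_jointCost t hn hq u' h hp ?_).symm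
      exact hfix p (hm ▸ att_subset_mid (mem_filter.1 hp).1)
    rw [restPay, eY, card_common (lam := lam), card_ends_common (lam := lam), he, hv, eP, pow_add]
    push_cast
    rw [neg_add, neg_add, exp_add, exp_add]
    simp only [hJ]
    ring
  rw [sum_congr rfl heach, ← mul_sum]
  refine (mul_le_mul_of_nonneg_left key (by positivity)).trans (le_of_eq ?_)
  rw [← hY, exp_neg]
  field_simp

/-- The price pays for all relative positions inside a sparse graph. -/
theorem key_le {H : Finset (Sym2 (Fin n))} {q : ℝ} (hn : 2 ≤ n) (hq : 0 < q)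
    (hs : Sparse (Equiv.Perm (Fin n)) H q) :
    ∑ d : Equiv.Perm (Fin n),
        (if Fit (Equiv.Perm (Fin n)) H (P.edges t ∪ P.edges (moveT d u)) then
          exp (-P.cost0 (log (1 / q)) t (moveT d u))
            * q ^ (P.edges t ∪ P.edges (moveT d u)).card else 0)
      ≤ 2 * (n.factorial : ℝ) * q ^ ((P.edges t).card + (P.edges u).card) := by
  set lam := log (1 / q) with hlam
  set D := (univ : Finset (Equiv.Perm (Fin n))).filter fun d =>
    Fit (Equiv.Perm (Fin n)) H (P.edges t ∪ P.edges (moveT d u)) with hDdef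
  set φ1 := fun d : Equiv.Perm (Fin n) => P.codeOf lam t (moveT d u) t with hφ1
  set φ2 := fun d : Equiv.Perm (Fin n) => (P.codeOf lam t (moveT d u) (moveT d u)).move d⁻¹
    with hφ2
  have heq : ∀ a b : Piece n, b ∈ pieceClass a → pieceClass b = pieceClass a :=
    fun _ _ h => pieceClass_eq h
  have hv1 : ∀ d, P.CodeValid t (φ1 d) := fun d =>
    codeOf_valid inter_subset_left (fun x hx => (mem_inter.1 (mem_inter.1 hx).1).2)
      fun p _ ⟨y, hy, x, hx, hxy, h1, _⟩ => ⟨y, hy, x, hx, hxy, h1⟩
  have hv2 : ∀ d, P.CodeValid u (φ2 d) := fun d => by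
    have h := P.valid_move (g := d⁻¹) (codeOf_valid (lam := lam) (P := P) (t := t)
      (u := moveT d u) (s := moveT d u) inter_subset_right inter_subset_right
      fun p _ ⟨y, hy, x, hx, hxy, _, h2⟩ => ⟨y, hy, x, hx, hxy, h2⟩)
    rwa [moveT_inv] at h
  -- the union is paid by the common edges
  have hterm : ∀ d, exp (-P.cost0 lam t (moveT d u)) * q ^ (P.edges t ∪ P.edges (moveT d u)).card
      ≤ q ^ ((P.edges t).card + (P.edges u).card)
        * (P.codeW t (φ1 d) * P.codeW u (φ2 d) * P.restPay lam t (moveT d u) q) := by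
    intro d
    have e1 : (P.edges t).card + (P.edges u).card
        = (P.edges t ∪ P.edges (moveT d u)).card + (P.common t (moveT d u)).card := by
      rw [common, card_union_add_card_inter, edges_move, card_img]
    have e2 : P.codeW u (φ2 d) = P.codeW (moveT d u) (P.codeOf lam t (moveT d u) (moveT d u)) := by
      have h := P.codeW_move d⁻¹ (moveT d u) (P.codeOf lam t (moveT d u) (moveT d u))
      rwa [moveT_inv] at h
    have h1 := codeW_codeOf (P := P) (lam := lam) (t := t) (u := moveT d u) (s := t) heq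
    have h2 := codeW_codeOf (P := P) (lam := lam) (t := t) (u := moveT d u) (s := moveT d u) heq
    rw [e2, e1, cost0, restPay, pow_add]
    refine le_trans (le_of_eq ?_) (mul_le_mul_of_nonneg_left (mul_le_mul_of_nonneg_right
      (mul_le_mul h1 h2 (exp_pos _).le ((exp_pos _).le.trans h1)) (by positivity)) (by positivity))
    rw [mul_div_assoc', ← exp_add, ← exp_add]
    field_simp
    ring_nf
  rw [← sum_filter, ← hDdef]
  refine (sum_le_sum fun d _ => hterm d).trans ?_
  rw [← mul_sum, mul_comm]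
  refine mul_le_mul_of_nonneg_right ?_ (by positivity)
  -- the codes of the two sides
  have hw : ∀ s c, 0 ≤ P.codeW (k := k) s c := fun s c => by
    unfold codeW
    exact mul_nonneg (mul_nonneg (mul_nonneg (mul_nonneg (exp_pos _).le
      (prod_nonneg fun x _ => markW_nonneg _ _)) (by positivity)) (wgt_pos _ _).le)
      (prod_nonneg fun κ _ => looseW_nonneg _ _ _)
  refine (sum_le_fibres (fun d => (φ1 d, φ2 d)) ((D.image φ1) ×ˢ (D.image φ2))
    (fun c => P.codeW t c.1 * P.codeW u c.2 * (2 * (n.factorial : ℝ)))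
    (fun d hd => mem_product.2 ⟨mem_image_of_mem _ hd, mem_image_of_mem _ hd⟩) fun c _ => ?_).trans ?_
  swap
  · rw [← sum_mul, sum_product, ← sum_mul_sum]
    refine mul_le_of_le_one_left (by positivity) ?_
    refine mul_le_one₀ (P.sum_codeW hn t _ ?_) (sum_nonneg fun c _ => hw _ _)
      (P.sum_codeW hn u _ ?_)
    · intro c hc; obtain ⟨d, -, rfl⟩ := mem_image.1 hc; exact hv1 d
    · intro c hc; obtain ⟨d, -, rfl⟩ := mem_image.1 hc; exact hv2 d
  obtain ⟨c1, c2⟩ := c
  set D' := D.filter fun d => (φ1 d, φ2 d) = (c1, c2) with hD'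
  have hval : ∀ d ∈ D', φ1 d = c1 ∧ φ2 d = c2 := fun d hd => Prod.mk.inj (mem_filter.1 hd).2
  rw [sum_congr rfl fun d hd => by rw [(hval d hd).1, (hval d hd).2], ← mul_sum]
  refine mul_le_mul_of_nonneg_left ?_ (mul_nonneg (hw _ _) (hw _ _))
  rcases D'.eq_empty_or_nonempty with h0 | ⟨d₀, hd₀⟩
  · rw [h0, sum_empty]; positivity
  set V2 := c2.verts with hV2
  set E2 := c2.kept with hE2
  set W := c1.verts with hW
  set E := c1.kept with hE
  have hfacts : ∀ d ∈ D', P.mid t (moveT d u) = c1.mid ∧ P.codeV lam t (moveT d u) = W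
      ∧ P.codeE lam t (moveT d u) = E ∧ V2.image d = W ∧ img d E2 = E := by
    intro d hd
    obtain ⟨e1, e2⟩ := hval d hd
    have h1 : (φ1 d).kept = P.codeE lam t (moveT d u) := kept_eq inter_subset_left
    have h2 : (P.codeOf lam t (moveT d u) (moveT d u)).kept = P.codeE lam t (moveT d u) :=
      kept_eq inter_subset_right
    refine ⟨by rw [← e1]; rfl, by rw [hW, ← e1, hφ1, codeOf_verts], by rw [← h1, hE, e1], ?_, ?_⟩
    · rw [hV2, ← e2, SCode.verts_move, img_inv_move, hW, ← e1, hφ1, codeOf_verts, codeOf_verts]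
    · rw [hE2, ← e2, SCode.kept_move, ← img_mul, mul_inv_cancel, img_one, h2, hE, ← e1, h1]
  set ρ := fun d : Equiv.Perm (Fin n) => V2.image fun x => (x, d x) with hρ
  have hρeq : ∀ a b : Equiv.Perm (Fin n), ρ a = ρ b ↔ ∀ x ∈ V2, a x = b x := by
    intro a b
    refine ⟨fun h x hx => ?_, fun h => image_congr fun x hx => by simp [h x hx]⟩
    have hm : (x, a x) ∈ ρ a := mem_image_of_mem _ hx
    rw [h] at hm
    obtain ⟨z, -, e⟩ := mem_image.1 hm
    obtain ⟨rfl, e⟩ := Prod.mk.inj e
    exact e.symm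
  refine (sum_le_fibres ρ (D'.image ρ) (fun _ => ((n - W.card).factorial : ℝ) / q ^ E.card)
    (fun d hd => mem_image_of_mem _ hd) fun b hb => ?_).trans ?_
  · obtain ⟨d₁, hd₁, rfl⟩ := mem_image.1 hb
    set g := fun d : Equiv.Perm (Fin n) => d * d₁⁻¹ with hg
    have hu : ∀ d, moveT (g d) (moveT d₁ u) = moveT d u := fun d => by
      funext i; simp [moveT, hg, mul_assoc]
    refine le_trans (le_of_eq ?_) (P.sum_restPay_le t hn hq (moveT d₁ u) c1.mid W E
      (fun x hx => mem_union_left _ (mem_union_left _ hx))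
      ((D'.filter (ρ · = ρ d₁)).image g) (fun h hh x hx => ?_) fun h hh => ?_)
    · rw [sum_image fun a _ b _ e => mul_right_cancel e]
      exact sum_congr rfl fun d _ => by rw [hu]
    · obtain ⟨d, hd, rfl⟩ := mem_image.1 hh
      obtain ⟨hd, he⟩ := mem_filter.1 hd
      rw [← (hfacts d₁ hd₁).2.2.2.1] at hx
      obtain ⟨z, hz, rfl⟩ := mem_image.1 hx
      simp [hg, (hρeq d d₁).1 he z hz]
    · obtain ⟨d, hd, rfl⟩ := mem_image.1 hh
      rw [hu]
      exact ⟨(hfacts d (mem_filter.1 hd).1).1, (hfacts d (mem_filter.1 hd).1).2.1,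
        (hfacts d (mem_filter.1 hd).1).2.2.1⟩
  rw [sum_const, nsmul_eq_mul, mul_div_assoc', div_le_iff₀ (by positivity)]
  obtain ⟨-, -, hE0, hV0, hm0⟩ := hfacts d₀ hd₀
  have hWc : W.card = V2.card := by rw [← hV0, card_image_of_injective _ d₀.injective]
  -- the possible restrictions
  have hcount : (D'.image ρ).card * (n - W.card).factorial
      ≤ (univ.filter fun g : Equiv.Perm (Fin n) => img g E ⊆ E).card := by
    have hsub : ((D'.image ρ).biUnion fun b =>
        univ.filter fun g : Equiv.Perm (Fin n) => ρ g = b).image (fun g => g * d₀⁻¹)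
        ⊆ univ.filter fun g : Equiv.Perm (Fin n) => img g E ⊆ E := by
      intro g hg
      obtain ⟨a, ha, rfl⟩ := mem_image.1 hg
      obtain ⟨b, hb, hab⟩ := mem_biUnion.1 ha
      obtain ⟨d, hd, rfl⟩ := mem_image.1 hb
      refine mem_filter.2 ⟨mem_univ _, le_of_eq ?_⟩
      have hag := (hρeq a d).1 (mem_filter.1 hab).2
      have hEd : img a E2 = img d E2 := by
        refine image_congr fun y hy => ?_
        rw [smul_sym2, smul_sym2]
        exact Sym2.map_congr fun x hx => hag x ((mem_filter.1 hy).2 x hx)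
      conv_lhs => rw [← hm0, ← img_mul, inv_mul_cancel_right, hEd, (hfacts d hd).2.2.2.2]
    refine le_trans (le_of_eq ?_) (card_le_card hsub)
    rw [card_image_of_injective _ (mul_left_injective _), card_biUnion, ← smul_eq_mul, ← sum_const]
    · refine sum_congr rfl fun b hb => ?_
      obtain ⟨d, -, rfl⟩ := mem_image.1 hb
      rw [hWc, ← card_fix_coset V2 d]
      exact congrArg card (filter_congr fun g _ => (hρeq g d).symm)
    · intro b _ b' _ hne
      exact disjoint_left.2 fun g h h' => hne ((mem_filter.1 h).2.symm.trans (mem_filter.1 h').2)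
  have hX : X (Equiv.Perm (Fin n)) E E ≤ 2 * q ^ E.card := by
    obtain ⟨g, hg⟩ := (mem_filter.1 (mem_filter.1 hd₀).1).2
    refine hs.fix_le (subset_refl H) (div_pos (Nat.cast_pos.2 (card_pos.2 ⟨g, ?_⟩)) card_pos')
    refine mem_filter.2 ⟨mem_univ _, (image_subset_image fun y hy => ?_).trans hg⟩
    rw [← hE0] at hy
    exact mem_union_left _ (mem_inter.1 (mem_filter.1 hy).1).1
  rw [X, div_le_iff₀ card_pos', Fintype.card_perm, Fintype.card_fin] at hX
  calc ((D'.image ρ).card : ℝ) * ((n - W.card).factorial : ℝ)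
      ≤ ((univ.filter fun g : Equiv.Perm (Fin n) => img g E ⊆ E).card : ℝ) := by
        exact_mod_cast hcount
    _ ≤ 2 * q ^ E.card * n.factorial := hX
    _ = _ := by ring

end Pat

end Vale.Agent.P064
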