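import Vale.Agent.P064.Parts
import Vale.Agent.P064.Kraft

/-!
# The load of a stage

The quantities whose means bound the mean price of gluing.
-/

open Finset Real
open scoped Classical

namespace Vale.Agent.P064.Pat

variable {n : ℕ} (P : Pat n) {k : ℕ}

/-- The number of covered edges marked at `x`, weighted. -/
noncomputable def markF (R : Sym2 (Fin n) → Fin n → Prop) (t : Fin k → Equiv.Perm (Fin n))
    (x : Fin n) : ℝ :=
  √(((P.edges t).filter fun y => R y x).card : ℝ)
    * devWgt (sell n) (log (((P.edges t).filter fun y => R y x).card : ℝ))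

/-- The degrees at common vertices not met on both sides. -/
noncomputable def openDeg (t u : Fin k → Equiv.Perm (Fin n)) : ℝ :=
  ∑ v ∈ (ends (P.edges t) ∩ ends (P.edges u)) \ (P.metV t ∩ P.metV u),
    ((degIn (P.edges t) v : ℝ) + degIn (P.edges u) v)

/-- The load of gluing two tuples. -/
noncomputable def stageLoad (lam : ℝ) (R : Sym2 (Fin n) → Fin n → Prop)
    (t u : Fin k → Equiv.Perm (Fin n)) : ℝ :=
  (P.metV t).card + (P.metV u).card + (P.metE t).card + (P.metE u).card
    + (P.common t u).card + P.openDeg t u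
    + (ends (P.edges t)).card / log (n : ℝ) ^ 3 + (ends (P.edges u)).card / log (n : ℝ) ^ 3
    + ∑ x, P.markF R t x * P.markF R u x
    + ∑ κ ∈ (univ : Finset (Piece n)).image pieceClass,
        matchWgt lam (P.edges t) κ * matchWgt lam (P.edges u) κ

/-- The copies inside `H` whose marks are those of `H`. -/
noncomputable def goodCopies (H : Finset (Sym2 (Fin n))) (R : Sym2 (Fin n) → Fin n → Prop) :
    Finset (Equiv.Perm (Fin n)) :=
  univ.filter fun g => img g P.T ⊆ H ∧ ∀ z ∈ P.T, ∀ x ∈ z, R (g • z) (g x) ↔ x ∈ P.mark z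

end Vale.Agent.P064.Pat
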