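import Vale.Agent.P064.Glue

/-!
# Moving tuples and pieces

The notions of the gluing step commute with permutations of the vertices.
-/

open Finset Real
open scoped Classical

namespace Vale.Agent.P064

variable {n : ℕ}

/-- A moved piece. -/
noncomputable def movePiece (g : Equiv.Perm (Fin n)) (p : Piece n) : Piece n :=
  (p.1.image g, img g p.2)

lemma mem_smul_edge {g : Equiv.Perm (Fin n)} {y : Sym2 (Fin n)} {x : Fin n} :
    g x ∈ g • y ↔ x ∈ y := by
  rw [smul_sym2, Sym2.mem_map]
  exact ⟨fun ⟨a, ha, h⟩ => g.injective h ▸ ha, fun h => ⟨x, h, rfl⟩⟩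

lemma mem_img_edge {g : Equiv.Perm (Fin n)} {E : Finset (Sym2 (Fin n))} {y : Sym2 (Fin n)} :
    g • y ∈ img g E ↔ y ∈ E :=
  (MulAction.injective g).mem_finset_image

lemma ends_move (g : Equiv.Perm (Fin n)) (E : Finset (Sym2 (Fin n))) :
    ends (img g E) = (ends E).image g := by
  ext v
  obtain ⟨x, rfl⟩ := g.surjective v
  simp only [ends, mem_filter, mem_univ, true_and, g.injective.mem_finset_image, img, mem_image,
    exists_exists_and_eq_and, mem_smul_edge]

lemma inc_move (g : Equiv.Perm (Fin n)) (U : Finset (Sym2 (Fin n))) (K : Finset (Fin n)) :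
    inc (img g U) (K.image g) = img g (inc U K) := by
  rw [inc, inc, img, img, filter_image]
  congr 1
  refine filter_congr fun y _ => ?_
  simp only [mem_image, exists_exists_and_eq_and, mem_smul_edge]

lemma degIn_move (g : Equiv.Perm (Fin n)) (U : Finset (Sym2 (Fin n))) (v : Fin n) :
    degIn (img g U) (g v) = degIn U v := by
  rw [degIn, degIn, img, filter_image, card_image_of_injective _ (MulAction.injective g)]
  congr 1
  exact filter_congr fun y _ => mem_smul_edge

lemma wgt_move (g : Equiv.Perm (Fin n)) (U : Finset (Sym2 (Fin n))) (K : Finset (Fin n)) :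
    wgt (img g U) (K.image g) = wgt U K := by
  rw [wgt, wgt, sum_image fun a _ b _ h => g.injective h]
  simp only [degIn_move]

lemma linked_move (g : Equiv.Perm (Fin n)) {K Z : Finset (Fin n)} {E : Finset (Sym2 (Fin n))}
    (h : Linked K E Z) : Linked (K.image g) (img g E) (Z.image g) := by
  intro P hP hZ hne
  obtain ⟨Q, rfl⟩ : ∃ Q, P = Q.image g := ⟨P.image g.symm, by
    rw [image_image, show (g : Fin n → Fin n) ∘ g.symm = id from funext g.apply_symm_apply, image_id]⟩
  rw [image_subset_image_iff g.injective] at hP hZ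
  obtain ⟨a, ha, b, hb, hb', he⟩ := h Q hP hZ fun hQ => hne (by rw [hQ])
  refine ⟨g a, mem_image_of_mem _ ha, g b, mem_image_of_mem _ hb,
    fun hh => hb' (g.injective.mem_finset_image.1 hh), ?_⟩
  rw [← Sym2.map_mk, ← smul_sym2]
  exact mem_img_edge.2 he

lemma movePiece_mul (g h : Equiv.Perm (Fin n)) (p : Piece n) :
    movePiece g (movePiece h p) = movePiece (g * h) p := by
  simp only [movePiece, image_image, Equiv.Perm.coe_mul, img_mul]

lemma movePiece_one (p : Piece n) : movePiece (1 : Equiv.Perm (Fin n)) p = p := by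
  simp [movePiece, img_one]

lemma movePiece_inv (g : Equiv.Perm (Fin n)) (p : Piece n) :
    movePiece g⁻¹ (movePiece g p) = p := by
  rw [movePiece_mul, inv_mul_cancel, movePiece_one]

lemma movePiece_injective (g : Equiv.Perm (Fin n)) : Function.Injective (movePiece g) :=
  fun p q h => by rw [← movePiece_inv g p, h, movePiece_inv]

lemma isUnit_move (g : Equiv.Perm (Fin n)) {U : Finset (Sym2 (Fin n))} {p : Piece n}
    (h : IsUnit' U p) : IsUnit' (img g U) (movePiece g p) where
  nonempty := h.nonempty.image g
  sub := by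
    show img g p.2 ⊆ inc (img g U) (p.1.image g)
    rw [inc_move]; exact image_subset_image h.sub
  covered := by
    show ∀ v ∈ p.1.image g, v ∈ ends (img g p.2)
    rw [ends_move]
    exact fun v hv => image_subset_image (fun x hx => h.covered x hx) hv
  linked := by
    intro x hx
    obtain ⟨z, hz, rfl⟩ := mem_image.1 hx
    simpa [movePiece] using linked_move g (h.linked z hz)

lemma units_move (g : Equiv.Perm (Fin n)) (U : Finset (Sym2 (Fin n))) :
    units (img g U) = (units U).image (movePiece g) := by
  ext p
  simp only [units, mem_image, mem_filter, mem_univ, true_and]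
  refine ⟨fun h => ⟨movePiece g⁻¹ p, ?_, by rw [movePiece_mul, mul_inv_cancel, movePiece_one]⟩,
    fun ⟨r, hr, e⟩ => e ▸ isUnit_move g hr⟩
  have := isUnit_move g⁻¹ h
  rwa [← img_mul, inv_mul_cancel, img_one] at this

lemma att_move (g : Equiv.Perm (Fin n)) (p : Piece n) :
    att (movePiece g p) = (att p).image g := by
  rw [att, att, movePiece, ends_move, image_sdiff _ _ g.injective]

lemma sameClass_iff {p p' : Piece n} :
    SameClass p p' ↔ ∃ g : Equiv.Perm (Fin n), (∀ x ∈ att p, g x = x) ∧ movePiece g p = p' := by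
  simp [SameClass, movePiece, Prod.ext_iff]

lemma att_eq_of_sameClass {p p' : Piece n} (h : SameClass p p') : att p' = att p := by
  obtain ⟨g, hg, rfl⟩ := sameClass_iff.1 h
  rw [att_move]
  conv_rhs => rw [← image_id (s := att p)]
  exact image_congr fun x hx => hg x hx

lemma self_mem_pieceClass (p : Piece n) : p ∈ pieceClass p :=
  mem_filter.2 ⟨mem_univ _, sameClass_iff.2 ⟨1, fun _ _ => rfl, movePiece_one p⟩⟩

lemma mem_pieceClass {p r : Piece n} :
    r ∈ pieceClass p ↔ ∃ h : Equiv.Perm (Fin n), (∀ x ∈ att p, h x = x) ∧ movePiece h p = r := by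
  simp [pieceClass, sameClass_iff]

lemma move_mem_pieceClass (g : Equiv.Perm (Fin n)) {p r : Piece n} (hr : r ∈ pieceClass p) :
    movePiece g r ∈ pieceClass (movePiece g p) := by
  obtain ⟨h, hh, rfl⟩ := mem_pieceClass.1 hr
  refine mem_pieceClass.2 ⟨g * h * g⁻¹, fun x hx => ?_, ?_⟩
  · rw [att_move] at hx
    obtain ⟨z, hz, rfl⟩ := mem_image.1 hx
    rw [Equiv.Perm.mul_apply, Equiv.Perm.mul_apply, Equiv.Perm.inv_def, Equiv.symm_apply_apply,
      hh z hz]
  · rw [movePiece_mul, movePiece_mul]
    congr 1
    group

lemma pieceClass_move (g : Equiv.Perm (Fin n)) (p : Piece n) :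
    pieceClass (movePiece g p) = (pieceClass p).image (movePiece g) := by
  ext r
  refine ⟨fun hr => mem_image.2 ⟨movePiece g⁻¹ r, ?_, ?_⟩, fun hr => ?_⟩
  · have := move_mem_pieceClass g⁻¹ hr
    rwa [movePiece_inv] at this
  · rw [movePiece_mul, mul_inv_cancel, movePiece_one]
  · obtain ⟨r', hr', rfl⟩ := mem_image.1 hr
    exact move_mem_pieceClass g hr'

lemma classWgt_move (g : Equiv.Perm (Fin n)) (U : Finset (Sym2 (Fin n)))
    (κ : Finset (Piece n)) :
    classWgt (img g U) (κ.image (movePiece g)) = classWgt U κ := by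
  rw [classWgt, classWgt, units_move, filter_image,
    sum_image fun a _ b _ h => movePiece_injective g h]
  refine sum_congr (filter_congr fun p _ => (movePiece_injective g).mem_finset_image) fun p _ => ?_
  exact wgt_move g U p.1

/-- A class is fixed by the permutations fixing its attachments. -/
lemma classWgt_fix (h : Equiv.Perm (Fin n)) (U : Finset (Sym2 (Fin n))) (p : Piece n)
    (hp : ∀ x ∈ att p, h x = x) :
    classWgt (img h U) (pieceClass p) = classWgt U (pieceClass p) := by
  have he : (pieceClass p).image (movePiece h) = pieceClass p := by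
    refine eq_of_subset_of_card_le (fun r hr => ?_)
      (card_image_of_injective _ (movePiece_injective h)).ge
    obtain ⟨r', hr', rfl⟩ := mem_image.1 hr
    obtain ⟨g, hg, rfl⟩ := mem_pieceClass.1 hr'
    refine mem_pieceClass.2 ⟨h * g, fun x hx => ?_, (movePiece_mul h g p).symm⟩
    rw [Equiv.Perm.mul_apply, hg x hx, hp x hx]
  conv_lhs => rw [← he, classWgt_move]

namespace Pat

variable (P : Pat n) {k : ℕ} (g : Equiv.Perm (Fin n)) (t : Fin k → Equiv.Perm (Fin n))

/-- A moved tuple. -/
noncomputable def moveT : Fin k → Equiv.Perm (Fin n) := fun i => g * t i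

lemma edges_move : P.edges (moveT g t) = img g (P.edges t) := by
  rw [edges, edges, img, biUnion_image]
  exact biUnion_congr rfl fun i _ => img_mul g (t i) P.T

lemma copV_move (v : Fin n) : P.copV (moveT g t) (g v) = P.copV t v := by
  unfold copV
  congr 1
  refine filter_congr fun i _ => ?_
  rw [moveT, img_mul, ends_move, g.injective.mem_finset_image]

lemma copE_move (y : Sym2 (Fin n)) : P.copE (moveT g t) (g • y) = P.copE t y := by
  unfold copE
  congr 1
  refine filter_congr fun i _ => ?_
  rw [moveT, img_mul, mem_img_edge]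

lemma metV_move : P.metV (moveT g t) = (P.metV t).image g := by
  ext v
  obtain ⟨x, rfl⟩ := g.surjective v
  simp only [metV, mem_filter, mem_univ, true_and, g.injective.mem_finset_image, copV_move]

lemma metE_move : P.metE (moveT g t) = img g (P.metE t) := by
  rw [metE, metE, edges_move, img, img, filter_image]
  congr 1
  exact filter_congr fun y _ => by rw [copE_move]

lemma rich_move (y : Sym2 (Fin n)) (x : Fin n) :
    P.Rich (moveT g t) (g • y) (g x) ↔ P.Rich t y x := by
  unfold Rich
  simp only [moveT, mul_smul, Equiv.Perm.mul_apply, (MulAction.injective g).eq_iff,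
    g.injective.eq_iff]

lemma richAt_move (x : Fin n) : P.richAt (moveT g t) (g x) = img g (P.richAt t x) := by
  rw [richAt, richAt, edges_move, img, img, filter_image]
  congr 1
  exact filter_congr fun y _ => by rw [copE_move, rich_move, mem_smul_edge]

end Pat

end Vale.Agent.P064
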