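import Vale.Agent.P064.Translate
import Mathlib.Analysis.SpecialFunctions.Exponential

/-!
# What sparseness says about degrees and densities
-/

open Finset Real
open scoped Classical

namespace Vale.Agent.P064

variable {n : ℕ}

/-- The permutations fixing a vertex set pointwise. -/
lemma card_fix (P : Finset (Fin n)) :
    (univ.filter fun g : Equiv.Perm (Fin n) => ∀ x ∈ P, g x = x).card
      = (n - P.card).factorial := by
  have h : Fintype.card (Equiv.Perm {x : Fin n // x ∉ P})
      = Fintype.card {f : Equiv.Perm (Fin n) // ∀ a, ¬a ∉ P → f a = a} :=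
    Fintype.card_congr (Equiv.Perm.subtypeEquivSubtypePerm _)
  rw [Fintype.card_perm, Fintype.card_subtype_compl, Fintype.card_coe, Fintype.card_fin] at h
  rw [h, Fintype.card_subtype]
  congr 1
  ext g
  simp

/-- The permutations with prescribed values on a vertex set. -/
lemma card_fix_coset (P : Finset (Fin n)) (g₀ : Equiv.Perm (Fin n)) :
    (univ.filter fun g : Equiv.Perm (Fin n) => ∀ x ∈ P, g x = g₀ x).card
      = (n - P.card).factorial := by
  rw [← card_fix P]
  refine card_bij' (fun g _ => g₀⁻¹ * g) (fun g _ => g₀ * g) ?_ ?_ ?_ ?_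
  · intro g hg
    simp only [mem_filter, mem_univ, true_and, Equiv.Perm.mul_apply] at hg ⊢
    intro x hx
    simp [hg x hx]
  · intro g hg
    simp only [mem_filter, mem_univ, true_and, Equiv.Perm.mul_apply] at hg ⊢
    intro x hx
    rw [hg x hx]
  · simp
  · simp

lemma factorial_le_pow {m : ℕ} (hm : m ≤ n) :
    (n.factorial : ℝ) ≤ (n : ℝ) ^ m * (n - m).factorial := by
  have h : n.factorial ≤ n ^ m * (n - m).factorial := by
    rw [← Nat.factorial_mul_descFactorial hm, mul_comm]
    exact Nat.mul_le_mul_right _ (Nat.descFactorial_le_pow n m)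
  exact_mod_cast h

lemma pow_le_exp_factorial {m : ℕ} (hm : m ≤ n) :
    (n : ℝ) ^ m * (n - m).factorial ≤ exp m * n.factorial := by
  have h : ∀ i, i ≤ m → m.descFactorial i * n ^ i ≤ n.descFactorial i * m ^ i := by
    intro i
    induction i with
    | zero => simp
    | succ i ih =>
      intro hi
      have h2 : (m - i) * n ≤ (n - i) * m := by
        rw [Nat.sub_mul, Nat.sub_mul, mul_comm m n]
        exact Nat.sub_le_sub_left (Nat.mul_le_mul_left i hm) _
      calc m.descFactorial (i + 1) * n ^ (i + 1)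
          = ((m - i) * n) * (m.descFactorial i * n ^ i) := by
            rw [Nat.descFactorial_succ, pow_succ]; ring
        _ ≤ ((n - i) * m) * (n.descFactorial i * m ^ i) := Nat.mul_le_mul h2 (ih (by omega))
        _ = _ := by rw [Nat.descFactorial_succ, pow_succ]; ring
  have h1 := h m le_rfl
  rw [Nat.descFactorial_self] at h1
  have h1' : (m.factorial : ℝ) * (n : ℝ) ^ m ≤ (n.descFactorial m : ℝ) * (m : ℝ) ^ m := by
    exact_mod_cast h1
  have h3 : (m : ℝ) ^ m ≤ exp m * m.factorial := by
    have := Real.pow_div_factorial_le_exp _ (Nat.cast_nonneg (α := ℝ) m) m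
    rwa [div_le_iff₀ (by positivity)] at this
  have h4 : (m.factorial : ℝ) * (n : ℝ) ^ m
      ≤ (m.factorial : ℝ) * (exp m * n.descFactorial m) := by
    calc _ ≤ (n.descFactorial m : ℝ) * (exp m * m.factorial) :=
          h1'.trans (mul_le_mul_of_nonneg_left h3 (Nat.cast_nonneg _))
      _ = _ := by ring
  have h5 := le_of_mul_le_mul_left h4 (by positivity)
  have e : (n.factorial : ℝ) = (n - m).factorial * n.descFactorial m := by
    exact_mod_cast (Nat.factorial_mul_descFactorial hm).symm
  rw [e]
  calc (n : ℝ) ^ m * (n - m).factorial ≤ exp m * n.descFactorial m * (n - m).factorial :=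
        mul_le_mul_of_nonneg_right h5 (Nat.cast_nonneg _)
    _ = _ := by ring

variable {H : Finset (Sym2 (Fin n))} {q : ℝ}

/-- A vertex set spans few edges of a sparse graph. -/
theorem spanned_le (hq : 0 < q) (hs : Sparse (Equiv.Perm (Fin n)) H q) {T : Finset (Sym2 (Fin n))}
    (hT : T ⊆ H) {W : Finset (Fin n)} (hW : ∀ y ∈ T, ∀ w ∈ y, w ∈ W) :
    (T.card : ℝ) * log (1 / q) ≤ W.card * log (n : ℝ) + log 2 := by
  have hWn : W.card ≤ n := by simpa using card_le_univ W
  have h1 : ((n - W.card).factorial : ℝ) / n.factorial ≤ X (Equiv.Perm (Fin n)) T T := by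
    rw [X, Fintype.card_perm, Fintype.card_fin]
    refine div_le_div_of_nonneg_right (Nat.cast_le.2 ?_) (Nat.cast_nonneg _)
    rw [← card_fix W]
    refine card_le_card fun g hg => ?_
    simp only [mem_filter, mem_univ, true_and] at hg ⊢
    intro y hy
    obtain ⟨z, hz, rfl⟩ := mem_image.1 hy
    rw [smul_sym2, Sym2.map_congr (g := id) (fun x hx => hg x (hW z hz x hx)), Sym2.map_id]
    exact hz
  rw [div_le_iff₀ (by positivity)] at h1
  have h2 : 1 ≤ 2 * q ^ T.card * (n : ℝ) ^ W.card := by
    have h3 := h1.trans (mul_le_mul_of_nonneg_right (hs T hT) (Nat.cast_nonneg _))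
    have hf := factorial_le_pow hWn
    have h4 : ((n - W.card).factorial : ℝ) * 1
        ≤ (n - W.card).factorial * (2 * q ^ T.card * (n : ℝ) ^ W.card) := by
      calc _ = _ := mul_one _
        _ ≤ 2 * q ^ T.card * n.factorial := h3
        _ ≤ 2 * q ^ T.card * ((n : ℝ) ^ W.card * (n - W.card).factorial) :=
          mul_le_mul_of_nonneg_left hf (by positivity)
        _ = _ := by ring
    exact le_of_mul_le_mul_left h4 (by positivity)
  have hn : ((n : ℝ) ^ W.card) ≠ 0 := fun h => by rw [h, mul_zero] at h2; linarith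
  have h5 := log_nonneg h2
  rw [log_mul (by positivity) hn, log_mul (by norm_num) (by positivity), log_pow, log_pow] at h5
  rw [one_div, log_inv]
  linarith

/-- The bound on the number of common neighbours of a vertex set. -/
theorem common_le (hq : 0 < q) (hs : Sparse (Equiv.Perm (Fin n)) H q) (R W : Finset (Fin n))
    (hd : Disjoint R W) (h : ∀ u ∈ R, ∀ w ∈ W, s(u, w) ∈ H) :
    (W.card : ℝ) ≤ exp 2 * ((n : ℝ) * q ^ R.card) + R.card * log (n : ℝ) + 1 := by
  set r := R.card with hr
  set D := W.card with hD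
  rcases Nat.eq_zero_or_pos D with h0 | h0
  · rw [h0, Nat.cast_zero]
    have : 0 ≤ log (n : ℝ) := log_natCast_nonneg n
    positivity
  have hn : r + D ≤ n := by
    rw [hr, hD, ← card_union_of_disjoint hd]
    simpa using card_le_univ (R ∪ W)
  have hn0 : (0 : ℝ) < n := Nat.cast_pos.2 (by omega)
  set T : Finset (Sym2 (Fin n)) := (R ×ˢ W).image fun x => s(x.1, x.2) with hT
  have hTc : T.card = r * D := by
    rw [hT, card_image_of_injOn, card_product]
    rintro ⟨u, w⟩ huw ⟨u', w'⟩ huw' he
    simp only [mem_coe, mem_product] at huw huw'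
    rcases Sym2.eq_iff.1 he with ⟨h1, h2⟩ | ⟨h1, -⟩
    · simp only at h1 h2
      rw [h1, h2]
    · simp only at h1
      rw [h1] at huw
      exact absurd huw.1 (disjoint_right.1 hd huw'.2)
  have hTH : T ⊆ H := by
    intro y hy
    obtain ⟨x, hx, rfl⟩ := mem_image.1 hy
    exact h _ (mem_product.1 hx).1 _ (mem_product.1 hx).2
  have hstab : D.factorial * (n - (r + D)).factorial
      ≤ (univ.filter fun g : Equiv.Perm (Fin n) => img g T ⊆ T).card := by
    rw [hr, hD, ← card_union_of_disjoint hd, ← card_fix (R ∪ W), ← Fintype.card_coe W,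
      ← Fintype.card_perm, ← card_univ, ← card_product]
    refine card_le_card_of_injOn
      (fun x : Equiv.Perm {w // w ∈ W} × Equiv.Perm (Fin n) => Equiv.Perm.ofSubtype x.1 * x.2)
      ?_ ?_
    · rintro ⟨a, b⟩ hab
      simp only [mem_coe, mem_product, mem_univ, true_and, mem_filter] at hab ⊢
      intro y hy
      obtain ⟨z, hz, rfl⟩ := mem_image.1 hy
      obtain ⟨⟨u, w⟩, huw, rfl⟩ := mem_image.1 hz
      obtain ⟨hu, hw⟩ := mem_product.1 huw
      simp only [smul_sym2, Sym2.map_mk, Equiv.Perm.mul_apply]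
      rw [hab u (mem_union_left _ hu), hab w (mem_union_right _ hw),
        Equiv.Perm.ofSubtype_apply_of_not_mem a (disjoint_left.1 hd hu),
        Equiv.Perm.ofSubtype_apply_of_mem a hw]
      exact mem_image.2 ⟨(u, (a ⟨w, hw⟩ : Fin n)), mem_product.2 ⟨hu, (a ⟨w, hw⟩).2⟩, rfl⟩
    · rintro ⟨a, b⟩ hab ⟨a', b'⟩ hab' he
      simp only [mem_coe, mem_product, mem_univ, true_and, mem_filter] at hab hab'
      have hab2 : a = a' := by
        ext ⟨w, hw⟩
        have := congrArg (fun g : Equiv.Perm (Fin n) => g w) he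
        simp only [Equiv.Perm.mul_apply, hab w (mem_union_right _ hw),
          hab' w (mem_union_right _ hw), Equiv.Perm.ofSubtype_apply_of_mem _ hw] at this
        exact congrArg Fin.val this
      subst hab2
      exact Prod.ext rfl (mul_left_cancel he)
  have h1 := hs T hTH
  rw [X, div_le_iff₀ card_pos', Fintype.card_perm, Fintype.card_fin, hTc] at h1
  have h2 : (D.factorial : ℝ) * (n - (r + D)).factorial
      ≤ 2 * q ^ (r * D) * n.factorial := by
    refine le_trans ?_ h1
    exact_mod_cast hstab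
  set B : ℝ := (n : ℝ) * q ^ r with hB
  have hB0 : 0 < B := by positivity
  have h3 : (D.factorial : ℝ) ≤ 2 * (n : ℝ) ^ r * B ^ D := by
    refine le_of_mul_le_mul_right (h2.trans ?_)
      (show (0 : ℝ) < (n - (r + D)).factorial by positivity)
    refine le_trans (mul_le_mul_of_nonneg_left (factorial_le_pow hn) (by positivity)) (le_of_eq ?_)
    rw [hB, mul_pow, ← pow_mul, pow_add]
    ring
  have h4 : (D : ℝ) ^ D ≤ exp D * (2 * (n : ℝ) ^ r * B ^ D) := by
    have := Real.pow_div_factorial_le_exp _ (Nat.cast_nonneg (α := ℝ) D) D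
    rw [div_le_iff₀ (by positivity)] at this
    exact this.trans (mul_le_mul_of_nonneg_left h3 (exp_pos _).le)
  by_cases hbig : (D : ℝ) ≤ exp 2 * B
  · have : 0 ≤ (r : ℝ) * log (n : ℝ) := mul_nonneg (Nat.cast_nonneg _) (log_natCast_nonneg n)
    linarith
  have h5 : exp D * exp D * B ^ D ≤ (D : ℝ) ^ D := by
    rw [← exp_add, show (D : ℝ) + D = D * 2 by ring, exp_nat_mul, ← mul_pow]
    exact pow_le_pow_left₀ (by positivity) (le_of_not_ge hbig) _
  have h6 : exp (D : ℝ) ≤ 2 * (n : ℝ) ^ r := by
    refine le_of_mul_le_mul_left ?_ (show 0 < exp (D : ℝ) * B ^ D by positivity)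
    calc _ = exp (D : ℝ) * exp D * B ^ D := by ring
      _ ≤ _ := h5.trans h4
      _ = _ := by ring
  have h7 : (D : ℝ) ≤ log (2 * (n : ℝ) ^ r) := by
    rw [← log_exp (D : ℝ)]
    exact log_le_log (exp_pos _) h6
  rw [log_mul (by norm_num) (by positivity), log_pow] at h7
  have : 0 ≤ exp 2 * B := by positivity
  linarith [log_two_lt_d9]

end Vale.Agent.P064
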