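import Vale.Agent.P064.Move

/-!
# The pieces of a common part

The pieces are disjoint, connected, and attached only to the vertices met on both sides.
-/

open Finset Real
open scoped Classical

namespace Vale.Agent.P064.Pat

variable {n k : ℕ} (P : Pat n) (t u : Fin k → Equiv.Perm (Fin n))

lemma step_symm {a b : Fin n} (h : P.step t u a b) : P.step t u b a :=
  ⟨h.2.1, h.1, Sym2.eq_swap ▸ h.2.2⟩

lemma reach_symm {a b : Fin n} (h : Relation.ReflTransGen (P.step t u) a b) :
    Relation.ReflTransGen (P.step t u) b a := by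
  induction h with
  | refl => exact Relation.ReflTransGen.refl
  | tail _ hs ih => exact (Relation.ReflTransGen.single (P.step_symm t u hs)).trans ih

lemma mem_part_self {v : Fin n} (hv : v ∈ P.outer t u) : v ∈ (P.part t u v).1 :=
  mem_filter.2 ⟨hv, Relation.ReflTransGen.refl⟩

lemma part_eq {v w : Fin n} (hw : w ∈ (P.part t u v).1) : P.part t u w = P.part t u v := by
  have h := (mem_filter.1 hw).2
  have e : (P.outer t u).filter (Relation.ReflTransGen (P.step t u) w)
      = (P.outer t u).filter (Relation.ReflTransGen (P.step t u) v) :=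
    filter_congr fun z _ => ⟨fun hz => h.trans hz, fun hz => (P.reach_symm t u h).trans hz⟩
  simp only [part, e]

variable {P t u}

lemma mem_parts {p : Piece n} : p ∈ P.parts t u ↔ ∃ v ∈ P.outer t u, P.part t u v = p := by
  simp [parts]

lemma part_subset {p : Piece n} (hp : p ∈ P.parts t u) : p.1 ⊆ P.outer t u := by
  obtain ⟨v, -, rfl⟩ := mem_parts.1 hp
  exact filter_subset _ _

lemma part_snd {p : Piece n} (hp : p ∈ P.parts t u) : p.2 = inc (P.common t u) p.1 := by
  obtain ⟨v, -, rfl⟩ := mem_parts.1 hp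
  rfl

lemma part_unique {p p' : Piece n} (hp : p ∈ P.parts t u) (hp' : p' ∈ P.parts t u) {w : Fin n}
    (hw : w ∈ p.1) (hw' : w ∈ p'.1) : p = p' := by
  obtain ⟨v, -, rfl⟩ := mem_parts.1 hp
  obtain ⟨v', -, rfl⟩ := mem_parts.1 hp'
  rw [← P.part_eq t u hw, ← P.part_eq t u hw']

lemma parts_disjoint : ((P.parts t u : Finset (Piece n)) : Set (Piece n)).PairwiseDisjoint
    Prod.fst := fun _ hp _ hp' hne =>
  disjoint_left.2 fun _ hw hw' => hne (part_unique (mem_coe.1 hp) (mem_coe.1 hp') hw hw')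

lemma common_end {y : Sym2 (Fin n)} (hy : y ∈ P.common t u) {x : Fin n} (hx : x ∈ y) :
    x ∈ ends (P.common t u) := mem_filter.2 ⟨mem_univ _, y, hy, hx⟩

lemma end_mid_or_outer {x : Fin n} (hx : x ∈ ends (P.common t u)) :
    x ∈ P.mid t u ∨ x ∈ P.outer t u := by
  by_cases h : x ∈ P.mid t u
  · exact Or.inl h
  · exact Or.inr (mem_sdiff.2 ⟨hx, h⟩)

lemma mid_subset_ends : P.mid t u ⊆ ends (P.common t u) :=
  inter_subset_left.trans inter_subset_left

lemma end_of_part {p : Piece n} (hp : p ∈ P.parts t u) {y : Sym2 (Fin n)} (hy : y ∈ p.2)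
    {x : Fin n} (hx : x ∈ y) (ho : x ∈ P.outer t u) : x ∈ p.1 := by
  obtain ⟨v, hv, rfl⟩ := mem_parts.1 hp
  obtain ⟨hyc, w, hw, hwy⟩ := mem_filter.1 hy
  by_cases e : w = x
  · exact e ▸ hw
  · have hyeq : y = s(w, x) := (Sym2.mem_and_mem_iff e).1 ⟨hwy, hx⟩
    exact mem_filter.2 ⟨ho, (mem_filter.1 hw).2.tail ⟨(mem_filter.1 hw).1, ho, hyeq ▸ hyc⟩⟩

lemma att_subset_mid {p : Piece n} (hp : p ∈ P.parts t u) : att p ⊆ P.mid t u := by
  intro x hx
  obtain ⟨hx1, hx2⟩ := mem_sdiff.1 hx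
  obtain ⟨y, hy, hxy⟩ := (mem_filter.1 hx1).2
  have hyc : y ∈ P.common t u := by
    rw [part_snd hp] at hy
    exact (mem_filter.1 hy).1
  rcases end_mid_or_outer (common_end hyc hxy) with h | h
  · exact h
  · exact absurd (end_of_part hp hy hxy h) hx2

lemma part_snd_unique {p p' : Piece n} (hp : p ∈ P.parts t u) (hp' : p' ∈ P.parts t u)
    {y : Sym2 (Fin n)} (hy : y ∈ p.2) (hy' : y ∈ p'.2) : p = p' := by
  have h := hy
  rw [part_snd hp] at h
  obtain ⟨-, w, hw, hwy⟩ := mem_filter.1 h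
  exact part_unique hp hp' hw (end_of_part hp' hy' hwy (part_subset hp hw))

lemma part_nonempty {p : Piece n} (hp : p ∈ P.parts t u) : p.1.Nonempty := by
  obtain ⟨v, hv, rfl⟩ := mem_parts.1 hp
  exact ⟨v, P.mem_part_self t u hv⟩

lemma part_covered {p : Piece n} (hp : p ∈ P.parts t u) {v : Fin n} (hv : v ∈ p.1) :
    v ∈ ends p.2 := by
  obtain ⟨y, hy, hvy⟩ := (mem_filter.1 (mem_sdiff.1 (part_subset hp hv)).1).2
  refine mem_filter.2 ⟨mem_univ _, y, ?_, hvy⟩
  rw [part_snd hp]
  exact mem_filter.2 ⟨hy, v, hv, hvy⟩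

lemma part_linked {p : Piece n} (hp : p ∈ P.parts t u) {x : Fin n} (hx : x ∈ p.1) :
    Linked p.1 p.2 {x} := by
  intro Q hQ hxQ hne
  rw [singleton_subset_iff] at hxQ
  by_contra hc
  simp only [not_exists, not_and] at hc
  refine hne (Subset.antisymm hQ fun w hw => ?_)
  obtain ⟨v, -, rfl⟩ := mem_parts.1 hp
  have h : Relation.ReflTransGen (P.step t u) x w :=
    (P.reach_symm t u (mem_filter.1 hx).2).trans (mem_filter.1 hw).2
  clear hw
  induction h with
  | refl => exact hxQ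
  | @tail a b _ hs ih =>
    by_contra hb
    have ha := hQ ih
    refine hc a ih b (mem_filter.2 ⟨hs.2.1, (mem_filter.1 ha).2.tail hs⟩) hb ?_
    exact mem_filter.2 ⟨hs.2.2, a, ha, Sym2.mem_mk_left a b⟩

lemma part_mem_units {p : Piece n} (hp : p ∈ P.parts t u) {U : Finset (Sym2 (Fin n))}
    (hU : P.common t u ⊆ U) : p ∈ units U := by
  refine mem_filter.2 ⟨mem_univ _, part_nonempty hp, ?_, fun v hv => part_covered hp hv,
    fun x hx => part_linked hp hx⟩
  rw [part_snd hp]
  exact filter_subset_filter _ hU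

end Vale.Agent.P064.Pat
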