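import Mathlib.Algebra.BigOperators.Field
import Mathlib.Algebra.BigOperators.Group.Finset.Powerset
import Mathlib.Algebra.BigOperators.Ring.Finset
import Mathlib.Algebra.Order.BigOperators.Ring.Finset
import Mathlib.Data.Finset.Powerset
import Mathlib.Data.Nat.Choose.Sum
import Mathlib.Data.Nat.Log
import Mathlib.Analysis.SpecialFunctions.Pow.Real

/-!
# Spread families appear in random sets (fractional Kahn-Kalai)

The proof is the iterated minimum-fragment argument of Park and Pham.
-/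

open Finset

namespace Vale.Agent.P064

variable {Ω : Type*} [DecidableEq Ω]

/-- Expectation over a `p`-random subset of `s`. -/
def Ex (p : ℝ) (s : Finset Ω) (f : Finset Ω → ℝ) : ℝ :=
  ∑ W ∈ s.powerset, p ^ W.card * (1 - p) ^ (s.card - W.card) * f W

omit [DecidableEq Ω] in
lemma Ex_mono {p : ℝ} (hp : 0 ≤ p) (hp1 : p ≤ 1) {s : Finset Ω} {f g : Finset Ω → ℝ}
    (h : ∀ W ⊆ s, f W ≤ g W) : Ex p s f ≤ Ex p s g :=
  sum_le_sum fun W hW => mul_le_mul_of_nonneg_left (h W (mem_powerset.1 hW))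
    (mul_nonneg (pow_nonneg hp _) (pow_nonneg (by linarith) _))

omit [DecidableEq Ω] in
lemma Ex_const (p : ℝ) (s : Finset Ω) (c : ℝ) : Ex p s (fun _ => c) = c := by
  rw [Ex, ← sum_mul, sum_pow_mul_eq_add_pow]
  simp

lemma Ex_insert (p : ℝ) {s : Finset Ω} {a : Ω} (ha : a ∉ s) (f : Finset Ω → ℝ) :
    Ex p (insert a s) f = (1 - p) * Ex p s f + p * Ex p s (fun W => f (insert a W)) := by
  rw [Ex, sum_powerset_insert ha, Ex, Ex, mul_sum, mul_sum]
  congr 1
  · refine sum_congr rfl fun W hW => ?_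
    have := card_le_card (mem_powerset.1 hW)
    rw [card_insert_of_notMem ha, show s.card + 1 - W.card = (s.card - W.card) + 1 by omega,
      pow_succ]
    ring
  · refine sum_congr rfl fun W hW => ?_
    have haW : a ∉ W := fun h => ha (mem_powerset.1 hW h)
    rw [card_insert_of_notMem ha, card_insert_of_notMem haW,
      show s.card + 1 - (W.card + 1) = s.card - W.card by omega, pow_succ]
    ring

/-- The union of two independent random sets is a random set. -/
lemma Ex_union (p p' : ℝ) (s : Finset Ω) (f : Finset Ω → ℝ) :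
    Ex p s (fun W => Ex p' s (fun W' => f (W ∪ W'))) = Ex (p + p' - p * p') s f := by
  induction s using Finset.induction_on generalizing f with
  | empty => simp [Ex]
  | @insert a s ha ih =>
    simp only [Ex_insert p ha, Ex_insert p' ha, Ex_insert _ ha, insert_union, union_insert,
      insert_idem]
    have hlin : ∀ (c d : ℝ) (g h : Finset Ω → ℝ),
        Ex p s (fun W => c * g W + d * h W) = c * Ex p s g + d * Ex p s h := by
      intro c d g h
      simp only [Ex, mul_sum, ← sum_add_distrib]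
      exact sum_congr rfl fun W _ => by ring
    rw [hlin, hlin, ih f, ih (fun W => f (insert a W))]
    ring

/-- Indicator of containing one of the sets of a family. -/
noncomputable def hit {ι : Type*} (J : Finset ι) (A : ι → Finset Ω) (W : Finset Ω) : ℝ :=
  if ∃ i ∈ J, A i ⊆ W then 1 else 0

lemma hit_le_one {ι : Type*} (J : Finset ι) (A : ι → Finset Ω) (W : Finset Ω) :
    hit J A W ≤ 1 := by unfold hit; split_ifs <;> norm_num

lemma hit_nonneg {ι : Type*} (J : Finset ι) (A : ι → Finset Ω) (W : Finset Ω) :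
    0 ≤ hit J A W := by unfold hit; split_ifs <;> norm_num

lemma Ex_hit_mono {ι : Type*} (J : Finset ι) (A : ι → Finset Ω) {p p' : ℝ} (hp : 0 ≤ p)
    (h : p ≤ p') (hp' : p' ≤ 1) (s : Finset Ω) : Ex p s (hit J A) ≤ Ex p' s (hit J A) := by
  rcases eq_or_lt_of_le (h.trans hp') with h1 | h1
  · have : p' = p := by linarith
    rw [this]
  set x := (p' - p) / (1 - p) with hx
  have hx0 : 0 ≤ x := div_nonneg (by linarith) (by linarith)
  have hx1 : x ≤ 1 := by rw [hx, div_le_one (by linarith)]; linarith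
  have he : p + x - p * x = p' := by
    have : 1 - p ≠ 0 := by linarith
    rw [hx]; field_simp; ring
  rw [← he, ← Ex_union]
  refine Ex_mono hp (by linarith) fun W _ => ?_
  refine le_trans (le_of_eq (Ex_const x s (hit J A W)).symm) (Ex_mono hx0 hx1 fun W' _ => ?_)
  unfold hit
  split_ifs with h1 h2
  · rfl
  · obtain ⟨i, hi, hs⟩ := h1
    exact absurd ⟨i, hi, hs.trans subset_union_left⟩ h2
  · norm_num
  · rfl

/-- Minimum fragments. -/
lemma exists_fragment {ι : Type*} [DecidableEq ι] (J : Finset ι) (A : ι → Finset Ω) (W : Finset Ω) :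
    ∃ T : ι → Finset Ω, ∀ i ∈ J, T i ⊆ A i ∧ Disjoint (T i) W ∧
      (∃ j ∈ J, A j ⊆ W ∪ T i) ∧ ∀ j ∈ J, A j \ W ⊆ A i → (T i).card ≤ (A j \ W).card := by
  classical
  refine ⟨fun i => if hi : i ∈ J then
    A ((J.filter fun j => A j \ W ⊆ A i).exists_min_image (fun j => (A j \ W).card)
      ⟨i, mem_filter.2 ⟨hi, sdiff_subset⟩⟩).choose \ W else ∅, fun i hi => ?_⟩
  simp only [dif_pos hi]
  obtain ⟨hm, hmin⟩ := ((J.filter fun j => A j \ W ⊆ A i).exists_min_image
    (fun j => (A j \ W).card) ⟨i, mem_filter.2 ⟨hi, sdiff_subset⟩⟩).choose_spec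
  obtain ⟨hmJ, hmS⟩ := mem_filter.1 hm
  refine ⟨hmS, sdiff_disjoint, ⟨_, hmJ, ?_⟩, fun j hj hjS => hmin j (mem_filter.2 ⟨hj, hjS⟩)⟩
  intro x hx
  by_cases hxW : x ∈ W
  · exact mem_union_left _ hxW
  · exact mem_union_right _ (mem_sdiff.2 ⟨hx, hxW⟩)

/-- The error allowed up to size `k`. -/
noncomputable def beta (k : ℕ) : ℝ := ∑ j ∈ range k, (1 / 4 : ℝ) ^ (j + 1) / 4

lemma beta_le (k : ℕ) : beta k ≤ 1 / 12 := by
  have h : ∀ k, beta k = (1 - (1 / 4 : ℝ) ^ k) / 12 := by
    intro k
    induction k with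
    | zero => simp [beta]
    | succ k ih =>
      rw [beta, sum_range_succ, ← beta, ih, pow_succ]
      ring
  have : (0 : ℝ) ≤ (1 / 4 : ℝ) ^ k := by positivity
  rw [h]; linarith

lemma beta_nonneg (k : ℕ) : 0 ≤ beta k := sum_nonneg fun _ _ => by positivity

lemma beta_half {k : ℕ} (hk : 1 ≤ k) : beta (k / 2) + (1 / 4 : ℝ) ^ k / 4 ≤ beta k := by
  obtain ⟨j, rfl⟩ : ∃ j, k = j + 1 := ⟨k - 1, by omega⟩
  rw [beta, beta, sum_range_succ (f := fun i => (1 / 4 : ℝ) ^ (i + 1) / 4)]
  gcongr
  omega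

lemma tail_bound {k t : ℕ} (ht : k / 2 < t) :
    (1 / 256 : ℝ) ^ t ≤ (1 / 16 : ℝ) ^ (k + 1) := by
  rw [show (1 / 256 : ℝ) = (1 / 16) ^ 2 by norm_num, ← pow_mul]
  exact pow_le_pow_of_le_one (by norm_num) (by norm_num) (by omega)

/-- Main counting step: the expected number of large fragments. -/
lemma large_fragments {ι : Type*} [DecidableEq ι] {U : Finset Ω} {N R P : ℝ} (hN : 0 ≤ N)
    (hR : 0 ≤ R) (hP0 : 0 < P) (hPR : 256 * R ≤ P) (hP1 : P ≤ 1) {k : ℕ} (hk : 1 ≤ k)
    (J : Finset ι) (A : ι → Finset Ω) (hA : ∀ i ∈ J, A i ⊆ U ∧ (A i).card ≤ k)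
    (hsp : ∀ T : Finset Ω, T.Nonempty → ((J.filter fun i => T ⊆ A i).card : ℝ) ≤ 2 * R ^ T.card * N)
    (T : Finset Ω → ι → Finset Ω)
    (hT : ∀ W, ∀ i ∈ J, T W i ⊆ A i ∧ Disjoint (T W i) W ∧
      (∃ j ∈ J, A j ⊆ W ∪ T W i) ∧ ∀ j ∈ J, A j \ W ⊆ A i → (T W i).card ≤ (A j \ W).card) :
    Ex P U (fun W => ((J.filter fun i => k / 2 < (T W i).card).card : ℝ))
      ≤ (1 / 4 : ℝ) ^ k / 4 * N := by
  classical
  set w : Finset Ω → ℝ := fun W => P ^ W.card * (1 - P) ^ (U.card - W.card) with hw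
  have hw0 : ∀ W, 0 ≤ w W := fun W =>
    mul_nonneg (pow_nonneg hP0.le _) (pow_nonneg (by linarith) _)
  let s : Finset (Finset Ω × ι) := (U.powerset ×ˢ J).filter fun x => k / 2 < (T x.1 x.2).card
  let R' : Finset Ω → Finset Ω := fun Z =>
    if h : ∃ j ∈ J, A j ⊆ Z then A h.choose else ∅
  let t : Finset ((_ : Finset Ω) × (_ : Finset Ω) × ι) := U.powerset.sigma fun Z =>
    ((R' Z).powerset.filter fun T' => k / 2 < T'.card).sigma fun T' =>
      J.filter fun i => T' ⊆ A i
  let e : Finset Ω × ι → (_ : Finset Ω) × (_ : Finset Ω) × ι := fun x =>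
    ⟨x.1 ∪ T x.1 x.2, T x.1 x.2, x.2⟩
  have hinj : ∀ x ∈ s, ∀ y ∈ s, e x = e y → x = y := by
    rintro ⟨W, i⟩ hx ⟨W', i'⟩ hy hxy
    simp only [e, Sigma.mk.injEq, heq_eq_eq] at hxy
    obtain ⟨h1, h2, rfl⟩ := hxy
    simp only [s, mem_filter, mem_product] at hx hy
    have d1 := (hT W i hx.1.2).2.1
    have d2 := (hT W' i hy.1.2).2.1
    have : (W ∪ T W i) \ T W i = (W' ∪ T W' i) \ T W' i := by rw [h1, h2]
    rw [union_sdiff_cancel_right d1.symm, union_sdiff_cancel_right d2.symm] at this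
    rw [this]
  have hmem : ∀ x ∈ s, e x ∈ t := by
    rintro ⟨W, i⟩ hx
    simp only [s, mem_filter, mem_product, mem_powerset] at hx
    obtain ⟨hsub, -, hex, hmin⟩ := hT W i hx.1.2
    have hZ : W ∪ T W i ⊆ U := union_subset hx.1.1 (hsub.trans (hA i hx.1.2).1)
    have hR' : T W i ⊆ R' (W ∪ T W i) := by
      simp only [R', dif_pos hex]
      obtain ⟨hjJ, hjS⟩ := hex.choose_spec
      set j := hex.choose
      have h1 : A j \ W ⊆ T W i := fun x hx' => by
        obtain ⟨ha, hb⟩ := mem_sdiff.1 hx'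
        exact (mem_union.1 (hjS ha)).resolve_left hb
      have h2 := eq_of_subset_of_card_le h1 (hmin j hjJ (h1.trans hsub))
      rw [← h2]
      exact sdiff_subset
    simp only [e, t, mem_sigma, mem_filter, mem_powerset]
    exact ⟨hZ, ⟨hR', hx.2⟩, hx.1.2, hsub⟩
  have hweight : ∀ x ∈ s, w x.1 ≤ w (e x).1 / P ^ (e x).2.1.card := by
    rintro ⟨W, i⟩ hx
    simp only [s, mem_filter, mem_product, mem_powerset] at hx
    obtain ⟨hsub, hd, -, -⟩ := hT W i hx.1.2
    have hZ : W ∪ T W i ⊆ U := union_subset hx.1.1 (hsub.trans (hA i hx.1.2).1)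
    have hc : (W ∪ T W i).card = W.card + (T W i).card := card_union_of_disjoint hd.symm
    have := card_le_card hZ
    simp only [e, hw, hc, le_div_iff₀ (pow_pos hP0 _)]
    rw [show U.card - W.card = (U.card - (W.card + (T W i).card)) + (T W i).card by omega,
      pow_add, pow_add]
    have h1 : (1 - P) ^ (T W i).card ≤ 1 := pow_le_one₀ (by linarith) (by linarith)
    have : 0 ≤ P ^ W.card * (1 - P) ^ (U.card - (W.card + (T W i).card)) * P ^ (T W i).card :=
      mul_nonneg (mul_nonneg (pow_nonneg hP0.le _) (pow_nonneg (by linarith) _))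
        (pow_nonneg hP0.le _)
    nlinarith
  calc Ex P U (fun W => ((J.filter fun i => k / 2 < (T W i).card).card : ℝ))
      = ∑ x ∈ s, w x.1 := by
        rw [Ex, sum_filter, sum_product]
        refine sum_congr rfl fun W _ => ?_
        rw [card_filter, Nat.cast_sum, mul_sum]
        refine sum_congr rfl fun i _ => ?_
        split_ifs <;> simp [hw]
    _ ≤ ∑ x ∈ s, w (e x).1 / P ^ (e x).2.1.card := sum_le_sum hweight
    _ = ∑ y ∈ s.image e, w y.1 / P ^ y.2.1.card :=
        (sum_image (f := fun y => w y.1 / P ^ y.2.1.card) hinj).symm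
    _ ≤ ∑ y ∈ t, w y.1 / P ^ y.2.1.card :=
        sum_le_sum_of_subset_of_nonneg (image_subset_iff.2 hmem) fun y _ _ =>
          div_nonneg (hw0 _) (pow_nonneg hP0.le _)
    _ ≤ ∑ Z ∈ U.powerset, w Z * ((1 / 4 : ℝ) ^ k / 4 * N) := by
        simp only [t, sum_sigma]
        refine sum_le_sum fun Z _ => ?_
        have hcard : (R' Z).card ≤ k := by
          simp only [R']
          split_ifs with h
          · exact (hA _ h.choose_spec.1).2
          · simp
        calc ∑ T' ∈ (R' Z).powerset.filter (fun T' => k / 2 < T'.card),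
              ∑ _i ∈ J.filter (fun i => T' ⊆ A i), w Z / P ^ T'.card
            ≤ ∑ _T' ∈ (R' Z).powerset.filter (fun T' => k / 2 < T'.card),
              w Z * (2 * (1 / 16 : ℝ) ^ (k + 1) * N) := by
              refine sum_le_sum fun T' hT' => ?_
              obtain ⟨-, hlt⟩ := mem_filter.1 hT'
              have hne : T'.Nonempty := card_pos.1 (by omega)
              rw [sum_const, nsmul_eq_mul]
              have hRP : (R / P) ^ T'.card ≤ (1 / 16 : ℝ) ^ (k + 1) := by
                refine (pow_le_pow_left₀ (by positivity) ?_ _).trans (tail_bound hlt)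
                rw [div_le_iff₀ hP0]; linarith
              calc ((J.filter fun i => T' ⊆ A i).card : ℝ) * (w Z / P ^ T'.card)
                  ≤ (2 * R ^ T'.card * N) * (w Z / P ^ T'.card) :=
                    mul_le_mul_of_nonneg_right (hsp T' hne)
                      (div_nonneg (hw0 _) (pow_nonneg hP0.le _))
                _ = w Z * (2 * (R / P) ^ T'.card * N) := by rw [div_pow]; ring
                _ ≤ _ := mul_le_mul_of_nonneg_left
                    (mul_le_mul_of_nonneg_right (by linarith) hN) (hw0 _)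
          _ ≤ (2 ^ k : ℝ) * (w Z * (2 * (1 / 16 : ℝ) ^ (k + 1) * N)) := by
              rw [sum_const, nsmul_eq_mul]
              refine mul_le_mul_of_nonneg_right ?_ (mul_nonneg (hw0 _) (by positivity))
              calc (((R' Z).powerset.filter fun T' => k / 2 < T'.card).card : ℝ)
                  ≤ ((R' Z).powerset.card : ℝ) := by exact_mod_cast card_filter_le _ _
                _ ≤ 2 ^ k := by
                    rw [card_powerset]; push_cast
                    exact pow_le_pow_right₀ (by norm_num) hcard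
          _ ≤ _ := by
              rw [show (1 / 16 : ℝ) ^ (k + 1) = (1 / 4) ^ k * ((1 / 4) ^ k / 16) by
                rw [pow_succ, show (1 / 16 : ℝ) = 1 / 4 * (1 / 4) by norm_num, mul_pow]; ring]
              have h2 : (2 : ℝ) ^ k * (1 / 4) ^ k ≤ 1 := by
                rw [← mul_pow]; exact pow_le_one₀ (by norm_num) (by norm_num)
              have h3 : 0 ≤ w Z * ((1 / 4 : ℝ) ^ k / 4 * N) :=
                mul_nonneg (hw0 _) (by positivity)
              calc (2 : ℝ) ^ k * (w Z * (2 * ((1 / 4) ^ k * ((1 / 4) ^ k / 16)) * N))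
                  = ((2 : ℝ) ^ k * (1 / 4) ^ k) * (1 / 2) * (w Z * ((1 / 4 : ℝ) ^ k / 4 * N)) := by
                    ring
                _ ≤ 1 * (w Z * ((1 / 4 : ℝ) ^ k / 4 * N)) := by
                    refine mul_le_mul_of_nonneg_right ?_ h3
                    linarith
                _ = _ := one_mul _
    _ = _ := by rw [← sum_mul, sum_pow_mul_eq_add_pow]; simp

/-- A spread family is hit with large probability. -/
theorem hit_prob {ι : Type*} [DecidableEq ι] {U : Finset Ω} {N R P : ℝ} (hN : 0 < N)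
    (hR : 0 ≤ R) (hP0 : 0 < P) (hPR : 256 * R ≤ P) (hP1 : P ≤ 1) :
    ∀ (k : ℕ) (J : Finset ι) (A : ι → Finset Ω), (J.card : ℝ) ≤ N →
      (∀ i ∈ J, A i ⊆ U ∧ (A i).card ≤ k) →
      (∀ T : Finset Ω, T.Nonempty →
        ((J.filter fun i => T ⊆ A i).card : ℝ) ≤ 2 * R ^ T.card * N) →
      ∃ p : ℝ, 0 ≤ p ∧ p ≤ 1 ∧ p ≤ Nat.log 2 (2 * k) * P ∧
        (J.card : ℝ) / N - beta k ≤ Ex p U (hit J A) := by
  intro k
  induction k using Nat.strong_induction_on with
  | _ k ih =>
  intro J A hJ hA hsp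
  rcases Nat.eq_zero_or_pos k with hk | hk
  · subst hk
    refine ⟨0, le_rfl, zero_le_one, by simp, ?_⟩
    rcases J.eq_empty_or_nonempty with h | ⟨i, hi⟩
    · subst h
      refine le_trans ?_ (le_trans (le_of_eq (Ex_const 0 U 0).symm)
        (Ex_mono le_rfl zero_le_one fun W _ => hit_nonneg _ _ W))
      simp [beta]
    · have he : A i = ∅ := card_eq_zero.1 (Nat.le_zero.1 (hA i hi).2)
      have h1 : ∀ W, hit J A W = 1 := fun W => if_pos ⟨i, hi, by rw [he]; exact empty_subset _⟩
      rw [show hit J A = fun _ => (1 : ℝ) from funext h1, Ex_const]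
      have : (J.card : ℝ) / N ≤ 1 := (div_le_one hN).2 hJ
      linarith [beta_nonneg 0]
  set T : Finset Ω → ι → Finset Ω := fun W => (exists_fragment J A W).choose with hTdef
  have hT : ∀ W, ∀ i ∈ J, T W i ⊆ A i ∧ Disjoint (T W i) W ∧
      (∃ j ∈ J, A j ⊆ W ∪ T W i) ∧ ∀ j ∈ J, A j \ W ⊆ A i → (T W i).card ≤ (A j \ W).card :=
    fun W => (exists_fragment J A W).choose_spec
  set J' : Finset Ω → Finset ι := fun W => J.filter fun i => ¬ k / 2 < (T W i).card with hJ'
  have hstep : ∀ W : Finset Ω, ∃ p : ℝ, 0 ≤ p ∧ p ≤ 1 ∧ p ≤ Nat.log 2 (2 * (k / 2)) * P ∧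
      ((J' W).card : ℝ) / N - beta (k / 2) ≤ Ex p U (hit (J' W) (T W)) := by
    intro W
    refine ih (k / 2) (by omega) (J' W) (T W) ?_ ?_ ?_
    · exact le_trans (by exact_mod_cast card_filter_le _ _) hJ
    · intro i hi
      obtain ⟨hi1, hi2⟩ := mem_filter.1 hi
      exact ⟨(hT W i hi1).1.trans (hA i hi1).1, by omega⟩
    · intro S hS
      refine le_trans ?_ (hsp S hS)
      exact_mod_cast card_le_card fun i hi => by
        obtain ⟨hi1, hi2⟩ := mem_filter.1 hi
        obtain ⟨hi3, -⟩ := mem_filter.1 hi1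
        exact mem_filter.2 ⟨hi3, hi2.trans (hT W i hi3).1⟩
  set m := min (Nat.log 2 (2 * (k / 2)) * P) 1 with hm
  have hm0 : 0 ≤ m := le_min (by positivity) zero_le_one
  have hm1 : m ≤ 1 := min_le_right _ _
  have hlog : Nat.log 2 (2 * k) = Nat.log 2 (2 * (k / 2)) + 1 := by
    rcases Nat.lt_or_ge k 2 with hk2 | hk2
    · have : k = 1 := by omega
      subst this
      simpa using (Nat.log_eq_of_pow_le_of_lt_pow (b := 2) (m := 1) (n := 2) (by norm_num) (by norm_num))
    · rw [mul_comm 2 k, Nat.log_mul_base (by norm_num) (by omega), mul_comm 2 (k / 2),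
        Nat.log_mul_base (by norm_num) (by omega), Nat.log_div_base]
      have : 1 ≤ Nat.log 2 k := Nat.log_pos (by norm_num) hk2
      omega
  refine ⟨P + m - P * m, by nlinarith, by nlinarith, ?_, ?_⟩
  · have : m ≤ Nat.log 2 (2 * (k / 2)) * P := min_le_left _ _
    rw [hlog]; push_cast
    nlinarith
  rw [← Ex_union]
  have h1 : ∀ W : Finset Ω, (J.card : ℝ) / N
      + -(((J.filter fun i => k / 2 < (T W i).card).card : ℝ) / N + beta (k / 2))
      ≤ Ex m U (fun W' => hit J A (W ∪ W')) := by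
    intro W
    obtain ⟨p, hp0, hp1, hpm, hp⟩ := hstep W
    have h2 : (J.card : ℝ) = (J.filter fun i => k / 2 < (T W i).card).card + (J' W).card := by
      exact_mod_cast (card_filter_add_card_filter_not (s := J) _).symm
    have h3 := Ex_hit_mono (J' W) (T W) hp0 (le_min hpm hp1) hm1 U
    have h4 : Ex m U (hit (J' W) (T W)) ≤ Ex m U (fun W' => hit J A (W ∪ W')) := by
      refine Ex_mono hm0 hm1 fun W' _ => ?_
      unfold hit
      split_ifs with h5 h6
      · rfl
      · obtain ⟨i, hi, hs⟩ := h5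
        obtain ⟨j, hj, hjs⟩ := (hT W i (mem_filter.1 hi).1).2.2.1
        exact absurd ⟨j, hj, hjs.trans (union_subset_union le_rfl hs)⟩ h6
      · norm_num
      · rfl
    rw [h2, add_div]
    linarith
  refine le_trans ?_ (Ex_mono hP0.le hP1 fun W _ => h1 W)
  have hlin : Ex P U (fun W => (J.card : ℝ) / N
      + -(((J.filter fun i => k / 2 < (T W i).card).card : ℝ) / N + beta (k / 2)))
      = (J.card : ℝ) / N - beta (k / 2)
        - Ex P U (fun W => ((J.filter fun i => k / 2 < (T W i).card).card : ℝ)) / N := by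
    have hc := Ex_const P U ((J.card : ℝ) / N - beta (k / 2))
    rw [← hc]
    simp only [Ex, sum_div, ← sum_sub_distrib]
    exact sum_congr rfl fun W _ => by ring
  rw [hlin]
  have h5 := div_le_div_of_nonneg_right
    (large_fragments hN.le hR hP0 hPR hP1 hk J A hA hsp T hT) hN.le
  rw [mul_div_cancel_right₀ _ hN.ne'] at h5
  have := beta_half (show 1 ≤ k from hk)
  linarith

end Vale.Agent.P064
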