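import Vale.Agent.P064.Action
import Vale.Agent.P064.Spread
import Vale.Agent.P064.Defs
import Mathlib.Logic.Equiv.Fintype
import Mathlib.GroupTheory.Perm.Basic
import Mathlib.MeasureTheory.Integral.Bochner.SumMeasure
import Mathlib.Combinatorics.SimpleGraph.Finite

/-!
# From graphs to permutations acting on edge sets
-/

open Finset MeasureTheory
open scoped Classical

namespace Vale.Agent.P064

variable {n : ℕ}

noncomputable instance permSym2 : MulAction (Equiv.Perm (Fin n)) (Sym2 (Fin n)) where
  smul s e := Sym2.map s e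
  one_smul e := by show Sym2.map _ e = e; simp
  mul_smul s t e := by show Sym2.map _ e = Sym2.map _ (Sym2.map _ e); rw [Sym2.map_map]; rfl

lemma smul_sym2 (s : Equiv.Perm (Fin n)) (e : Sym2 (Fin n)) : s • e = Sym2.map s e := rfl

/-- All possible edges. -/
noncomputable def allEdges (n : ℕ) : Finset (Sym2 (Fin n)) :=
  univ.filter fun e => ¬ e.IsDiag

lemma mem_allEdges {e : Sym2 (Fin n)} : e ∈ allEdges n ↔ ¬ e.IsDiag := by simp [allEdges]

lemma edgeFinset_subset_allEdges (G : SimpleGraph (Fin n)) : G.edgeFinset ⊆ allEdges n :=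
  fun _ he => mem_allEdges.2 (G.not_isDiag_of_mem_edgeFinset he)

lemma card_allEdges : (allEdges n).card = n.choose 2 := by
  have h := Sym2.card_subtype_not_diag (α := Fin n)
  rw [Fintype.card_fin] at h
  rw [← h, Fintype.card_subtype]
  congr

lemma fromEdgeSet_edgeFinset {W : Finset (Sym2 (Fin n))} (hW : W ⊆ allEdges n) :
    (SimpleGraph.fromEdgeSet (W : Set (Sym2 (Fin n)))).edgeFinset = W := by
  ext e
  simp only [SimpleGraph.mem_edgeFinset, SimpleGraph.edgeSet_fromEdgeSet, Set.mem_sdiff,
    Finset.mem_coe, Sym2.mem_diagSet]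
  exact ⟨fun h => h.1, fun h => ⟨h, mem_allEdges.1 (hW h)⟩⟩

/-- Expectations over `G(n,p)` as finite sums. -/
lemma integral_binomialRandom (p : unitInterval) (f : Finset (Sym2 (Fin n)) → ℝ) :
    ∫ G, f G.edgeFinset ∂SimpleGraph.binomialRandom (Fin n) p = Ex p (allEdges n) f := by
  have : MeasurableSingletonClass (SimpleGraph (Fin n)) := ⟨fun G => by
    have h := SimpleGraph.measurable_edgeSet (measurableSet_singleton G.edgeSet)
    convert h using 1
    ext K; simp⟩
  rw [integral_fintype Integrable.of_finite, Ex]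
  refine sum_bij' (fun G _ => G.edgeFinset) (fun W _ => SimpleGraph.fromEdgeSet ↑W)
    (fun G _ => mem_powerset.2 (edgeFinset_subset_allEdges G)) (fun _ _ => mem_univ _)
    (fun G _ => by simp) (fun W hW => by
      ext e
      conv_rhs => rw [← fromEdgeSet_edgeFinset (mem_powerset.1 hW)]
      simp only [SimpleGraph.mem_edgeFinset]) ?_
  intro G _
  have hc : (allEdges n).card = (Nat.card (Fin n)).choose 2 := by simp [card_allEdges]
  simp only [measureReal_def, SimpleGraph.binomialRandom_singleton, smul_eq_mul]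
  rw [hc, ENNReal.toReal_mul, ENNReal.toReal_pow, ENNReal.toReal_pow,
    ← SimpleGraph.coe_edgeFinset, Set.ncard_coe_finset]
  simp

lemma Ex_subset (p : ℝ) {U T : Finset (Sym2 (Fin n))} (h : T ⊆ U) :
    Ex p U (fun W => if T ⊆ W then (1 : ℝ) else 0) = p ^ T.card := by
  induction U using Finset.induction_on generalizing T with
  | empty => simp [Ex, subset_empty.1 h]
  | @insert a s ha ih =>
    rw [Ex_insert p ha]
    by_cases haT : a ∈ T
    · have h1 : Ex p s (fun W => if T ⊆ W then (1 : ℝ) else 0) = Ex p s (fun _ => 0) :=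
        sum_congr rfl fun W hW => by
          simp only [if_neg fun hT : T ⊆ W => ha (mem_powerset.1 hW (hT haT))]
      have h2 : Ex p s (fun W => if T ⊆ insert a W then (1 : ℝ) else 0)
          = Ex p s (fun W => if T.erase a ⊆ W then (1 : ℝ) else 0) :=
        sum_congr rfl fun W _ => by simp only [subset_insert_iff]
      rw [h1, Ex_const, h2, ih (subset_insert_iff.1 h), ← card_erase_add_one haT, pow_succ]
      ring
    · have hTs : T ⊆ s := (subset_insert_iff_of_notMem haT).1 h
      simp only [subset_insert_iff_of_notMem haT]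
      rw [ih hTs]; ring

/-- The joint image of a vertex set and an edge set. -/
noncomputable def moves (x : Finset (Fin n) × Finset (Sym2 (Fin n))) (s : Equiv.Perm (Fin n)) :
    Finset (Fin n) × Finset (Sym2 (Fin n)) :=
  (x.1.image s, img s x.2)

/-- All joint images. -/
noncomputable def orbit2 (x : Finset (Fin n) × Finset (Sym2 (Fin n))) :
    Finset (Finset (Fin n) × Finset (Sym2 (Fin n))) :=
  univ.image (moves x)

/-- The number of permutations fixing both sets. -/
noncomputable def stab2 (x : Finset (Fin n) × Finset (Sym2 (Fin n))) : ℕ :=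
  (univ.filter fun s => moves x s = x).card

lemma moves_mul (x : Finset (Fin n) × Finset (Sym2 (Fin n))) (a b : Equiv.Perm (Fin n)) :
    moves x (a * b) = moves (moves x b) a := by
  simp [moves, image_image, img_mul, Equiv.Perm.coe_mul]

lemma moves_one (x : Finset (Fin n) × Finset (Sym2 (Fin n))) : moves x 1 = x := by
  simp [moves, img_one]

lemma stab2_pos (x : Finset (Fin n) × Finset (Sym2 (Fin n))) : 0 < stab2 x :=
  card_pos.2 ⟨1, by simp [moves_one]⟩

lemma card_filter_moves (x : Finset (Fin n) × Finset (Sym2 (Fin n)))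
    (P : Finset (Fin n) × Finset (Sym2 (Fin n)) → Prop) :
    (univ.filter fun s => P (moves x s)).card = stab2 x * ((orbit2 x).filter P).card := by
  rw [mul_comm, ← smul_eq_mul, ← sum_const, card_eq_sum_card_fiberwise (f := moves x)
    (t := (orbit2 x).filter P)]
  · refine sum_congr rfl fun y hy => ?_
    obtain ⟨hy, hPy⟩ := mem_filter.1 hy
    obtain ⟨a, -, rfl⟩ := mem_image.1 hy
    refine card_bij' (fun s _ => a⁻¹ * s) (fun t _ => a * t) ?_ ?_ ?_ ?_
    · intro s hs
      simp only [mem_filter, mem_univ, true_and] at hs ⊢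
      rw [moves_mul, hs.2, ← moves_mul, inv_mul_cancel, moves_one]
    · intro t ht
      simp only [mem_filter, mem_univ, true_and] at ht ⊢
      rw [moves_mul, ht]
      exact ⟨hPy, rfl⟩
    · intro s _; simp
    · intro t _; simp
  · intro s hs
    simp only [coe_filter, mem_univ, true_and, Set.mem_ofPred_eq] at hs ⊢
    exact ⟨mem_image_of_mem _ (mem_univ _), hs⟩

/-- Vertex and edge set of a subgraph. -/
noncomputable def sets {G : SimpleGraph (Fin n)} (B : G.Subgraph) :
    Finset (Fin n) × Finset (Sym2 (Fin n)) :=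
  (B.verts.toFinset, B.edgeSet.toFinset)

lemma mem_img_sets {G : SimpleGraph (Fin n)} (B : G.Subgraph) (s : Equiv.Perm (Fin n))
    (a b : Fin n) : s(a, b) ∈ img s (sets B).2 ↔ B.Adj (s⁻¹ a) (s⁻¹ b) := by
  rw [img, mem_image]
  constructor
  · rintro ⟨e, he, h⟩
    have : e = Sym2.map (s⁻¹ : Equiv.Perm (Fin n)) s(a, b) := by
      rw [← h, smul_sym2, Sym2.map_map]
      simp
    rw [this] at he
    simpa [sets] using he
  · intro h
    exact ⟨s(s⁻¹ a, s⁻¹ b), by simpa [sets] using h, by simp [smul_sym2]⟩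

/-- Copies of `F` in a host graph correspond to the images lying in the host. -/
lemma copyCount_eq {W : Type*} (F : SimpleGraph W) (F0 : (⊤ : SimpleGraph (Fin n)).Subgraph)
    (e : F ≃g F0.coe) (G : SimpleGraph (Fin n)) :
    G.copyCount F = ((orbit2 (sets F0)).filter fun y => y.2 ⊆ G.edgeFinset).card := by
  rw [SimpleGraph.copyCount]
  refine card_bij (fun B _ => sets B) ?_ ?_ ?_
  · intro B hB
    simp only [mem_filter, mem_univ, true_and] at hB
    obtain ⟨f⟩ := hB
    let ψ : F0.coe ≃g B.coe := e.symm.trans f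
    let q : {x // x ∈ F0.verts} ≃ {x // x ∈ B.verts} := ψ.toEquiv
    set s : Equiv.Perm (Fin n) := q.extendSubtype with hs
    have hv : ∀ x, s x ∈ B.verts ↔ x ∈ F0.verts := by
      intro x
      refine ⟨fun h => ?_, fun h => q.extendSubtype_mem x h⟩
      by_contra hx
      exact q.extendSubtype_not_mem x hx h
    have hadj : ∀ a b, B.Adj (s a) (s b) ↔ F0.Adj a b := by
      intro a b
      by_cases ha : a ∈ F0.verts
      · by_cases hb : b ∈ F0.verts
        · rw [hs, q.extendSubtype_apply_of_mem a ha, q.extendSubtype_apply_of_mem b hb]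
          exact ψ.map_rel_iff (a := ⟨a, ha⟩) (b := ⟨b, hb⟩)
        · exact ⟨fun h => absurd ((hv b).1 (B.edge_vert h.symm)) hb,
            fun h => absurd (F0.edge_vert h.symm) hb⟩
      · exact ⟨fun h => absurd ((hv a).1 (B.edge_vert h)) ha, fun h => absurd (F0.edge_vert h) ha⟩
    refine mem_filter.2 ⟨mem_image.2 ⟨s, mem_univ _, Prod.ext ?_ ?_⟩, ?_⟩
    · ext x
      simp only [moves, sets, mem_image, Set.mem_toFinset]
      constructor
      · rintro ⟨y, hy, rfl⟩
        exact (hv y).2 hy
      · intro hx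
        exact ⟨s⁻¹ x, (hv _).1 (by simpa using hx), by simp⟩
    · ext z
      induction z using Sym2.ind with
      | h a b =>
        rw [show (moves (sets F0) s).2 = img s (sets F0).2 from rfl, mem_img_sets]
        conv_rhs => rw [show (sets B).2 = B.edgeSet.toFinset from rfl, Set.mem_toFinset]
        rw [SimpleGraph.Subgraph.mem_edgeSet, ← hadj]
        simp
    · intro z hz
      simp only [sets, Set.mem_toFinset] at hz
      exact SimpleGraph.mem_edgeFinset.2 (B.edgeSet_subset hz)
  · intro B _ B' _ h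
    simp only [sets, Prod.mk.injEq, Set.toFinset_inj] at h
    refine SimpleGraph.Subgraph.ext h.1 ?_
    ext a b
    rw [← SimpleGraph.Subgraph.mem_edgeSet, h.2, SimpleGraph.Subgraph.mem_edgeSet]
  · intro y hy
    obtain ⟨hy, hG⟩ := mem_filter.1 hy
    obtain ⟨s, -, rfl⟩ := mem_image.1 hy
    let B : G.Subgraph :=
      { verts := s '' F0.verts
        Adj := fun a b => F0.Adj (s⁻¹ a) (s⁻¹ b)
        adj_sub := fun {a b} h => SimpleGraph.mem_edgeFinset.1 (hG ((mem_img_sets F0 s a b).2 h))
        edge_vert := fun {a b} h => ⟨s⁻¹ a, F0.edge_vert h, by simp⟩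
        symm := ⟨fun a b h => h.symm⟩ }
    let ψ : F0.coe ≃g B.coe :=
      { toEquiv := Equiv.Set.image s F0.verts s.injective
        map_rel_iff' := by
          intro a b
          simp [B, SimpleGraph.Subgraph.coe_adj] }
    refine ⟨B, by simp only [mem_filter, mem_univ, true_and]; exact ⟨e.trans ψ⟩, Prod.ext ?_ ?_⟩
    · ext x; simp [sets, moves, B]
    · ext z
      induction z using Sym2.ind with
      | h a b =>
        rw [show (moves (sets F0) s).2 = img s (sets F0).2 from rfl, mem_img_sets]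
        simp [sets, B]

variable {k : ℕ}

/-- `H` viewed inside the complete graph on `n` vertices. -/
def inclHom (hk : k ≤ n) (H : SimpleGraph (Fin k)) : H →g (⊤ : SimpleGraph (Fin n)) where
  toFun := Fin.castLE hk
  map_rel' h := fun e => h.ne (Fin.castLE_injective hk e)

lemma inclHom_injective (hk : k ≤ n) (H : SimpleGraph (Fin k)) :
    Function.Injective (inclHom hk H) := Fin.castLE_injective hk

/-- The edges of `H`. -/
noncomputable def edgesIn (hk : k ≤ n) (H : SimpleGraph (Fin k)) : Finset (Sym2 (Fin n)) :=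
  H.edgeFinset.image (Sym2.map (Fin.castLE hk))

lemma edgesIn_subset (hk : k ≤ n) (H : SimpleGraph (Fin k)) : edgesIn hk H ⊆ allEdges n := by
  intro e he
  obtain ⟨d, hd, rfl⟩ := mem_image.1 he
  rw [mem_allEdges, Sym2.isDiag_map (Fin.castLE_injective hk)]
  exact H.not_isDiag_of_mem_edgeFinset hd

lemma card_edgesIn (hk : k ≤ n) (H : SimpleGraph (Fin k)) :
    (edgesIn hk H).card = H.edgeFinset.card :=
  card_image_of_injective _ (Sym2.map.injective (Fin.castLE_injective hk))

/-- The image of a subgraph of `H`. -/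
def pushed (hk : k ≤ n) {H : SimpleGraph (Fin k)} (F : H.Subgraph) :
    (⊤ : SimpleGraph (Fin n)).Subgraph := F.map (inclHom hk H)

/-- The isomorphism onto the image. -/
noncomputable def pushedIso (hk : k ≤ n) {H : SimpleGraph (Fin k)} (F : H.Subgraph) :
    F.coe ≃g (pushed hk F).coe :=
  SimpleGraph.Copy.isoSubgraphMap ⟨inclHom hk H, inclHom_injective hk H⟩ F

lemma sets_pushed_subset (hk : k ≤ n) {H : SimpleGraph (Fin k)} (F : H.Subgraph) :
    (sets (pushed hk F)).2 ⊆ edgesIn hk H := by
  intro e he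
  rw [sets, Set.mem_toFinset, pushed, SimpleGraph.Subgraph.edgeSet_map] at he
  obtain ⟨d, hd, rfl⟩ := he
  exact mem_image.2 ⟨d, SimpleGraph.mem_edgeFinset.2 (F.edgeSet_subset hd), rfl⟩

lemma img_subset_allEdges {T : Finset (Sym2 (Fin n))} (h : T ⊆ allEdges n)
    (s : Equiv.Perm (Fin n)) : img s T ⊆ allEdges n := by
  intro e he
  obtain ⟨d, hd, rfl⟩ := mem_image.1 he
  rw [mem_allEdges, smul_sym2, Sym2.isDiag_map s.injective]
  exact mem_allEdges.1 (h hd)

/-- The expected number of copies. -/
lemma mean_copies (hk : k ≤ n) {H : SimpleGraph (Fin k)} (F : H.Subgraph) (p : unitInterval) :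
    ∫ G, (G.copyCount F.coe : ℝ) ∂SimpleGraph.binomialRandom (Fin n) p
      = (p : ℝ) ^ (sets (pushed hk F)).2.card * (orbit2 (sets (pushed hk F))).card := by
  set x := sets (pushed hk F)
  calc ∫ G, (G.copyCount F.coe : ℝ) ∂SimpleGraph.binomialRandom (Fin n) p
      = ∫ G, (fun W => ∑ y ∈ orbit2 x, if y.2 ⊆ W then (1 : ℝ) else 0) G.edgeFinset
          ∂SimpleGraph.binomialRandom (Fin n) p := by
        congr 1
        funext G
        rw [copyCount_eq _ _ (pushedIso hk F) G, card_filter, Nat.cast_sum]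
        simp only [Nat.cast_ite, Nat.cast_one, Nat.cast_zero]
        rfl
    _ = ∑ y ∈ orbit2 x, Ex p (allEdges n) (fun W => if y.2 ⊆ W then (1 : ℝ) else 0) := by
        rw [integral_binomialRandom p (fun W => ∑ y ∈ orbit2 x, if y.2 ⊆ W then (1 : ℝ) else 0)]
        simp only [Ex, mul_sum]
        exact sum_comm
    _ = ∑ _y ∈ orbit2 x, (p : ℝ) ^ x.2.card := by
        refine sum_congr rfl fun y hy => ?_
        obtain ⟨s, -, rfl⟩ := mem_image.1 hy
        refine (Ex_subset _ (T := (moves x s).2) (img_subset_allEdges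
          ((sets_pushed_subset hk F).trans (edgesIn_subset hk H)) s)).trans ?_
        simp [moves, card_img]
    _ = _ := by rw [sum_const, nsmul_eq_mul, mul_comm]

/-- The number of copies inside `H`. -/
lemma copies_le (hk : k ≤ n) {H : SimpleGraph (Fin k)} (F : H.Subgraph) :
    H.copyCount F.coe ≤
      ((orbit2 (sets (pushed hk F))).filter fun y => y.2 ⊆ edgesIn hk H).card := by
  let H' : SimpleGraph (Fin n) := SimpleGraph.fromEdgeSet ↑(edgesIn hk H)
  have hH' : ∀ e, e ∈ H'.edgeSet ↔ e ∈ edgesIn hk H := fun e => by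
    rw [SimpleGraph.edgeSet_fromEdgeSet, Set.mem_sdiff, Finset.mem_coe, Sym2.mem_diagSet]
    exact ⟨fun h => h.1, fun h => ⟨h, mem_allEdges.1 (edgesIn_subset hk H h)⟩⟩
  have hc : ((orbit2 (sets (pushed hk F))).filter fun y => y.2 ⊆ edgesIn hk H).card
      = H'.copyCount F.coe := by
    rw [copyCount_eq _ _ (pushedIso hk F) H']
    simp only [subset_iff, SimpleGraph.mem_edgeFinset, hH']
  rw [hc]
  let f : H.Copy H' := ⟨⟨Fin.castLE hk, fun {a b} h => by
    rw [← SimpleGraph.mem_edgeSet, hH']
    exact mem_image.2 ⟨s(a, b), SimpleGraph.mem_edgeFinset.2 h, rfl⟩⟩, Fin.castLE_injective hk⟩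
  rw [SimpleGraph.copyCount, SimpleGraph.copyCount]
  refine card_le_card_of_injOn (fun B => B.map f.toHom) ?_ ?_
  · intro B hB
    simp only [coe_filter, mem_univ, true_and, Set.mem_ofPred_eq] at hB ⊢
    exact ⟨hB.some.trans (f.isoSubgraphMap B)⟩
  · intro B _ B' _ h
    refine SimpleGraph.Subgraph.ext ?_ ?_
    · have := congrArg SimpleGraph.Subgraph.verts h
      simp only [SimpleGraph.Subgraph.map_verts] at this
      exact (Fin.castLE_injective hk).image_injective this
    · funext a b
      have := congrFun (congrFun (congrArg SimpleGraph.Subgraph.Adj h) (Fin.castLE hk a))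
        (Fin.castLE hk b)
      simpa [f, Relation.map_apply, (Fin.castLE_injective hk).eq_iff] using this

lemma card_orbit2_mul (x : Finset (Fin n) × Finset (Sym2 (Fin n))) :
    stab2 x * (orbit2 x).card = Fintype.card (Equiv.Perm (Fin n)) := by
  simpa using (card_filter_moves x (fun _ => True)).symm

/-- An admissible density makes the edge set of `H` sparse. -/
theorem sparse_of_mean (hk : k ≤ n) (H : SimpleGraph (Fin k)) (p : unitInterval)
    (hp : ∀ F : H.Subgraph,
      1 / 2 ≤ ∫ G, (G.copyCount F.coe : ℝ) ∂SimpleGraph.binomialRandom (Fin n) p) :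
    Sparse (Equiv.Perm (Fin n)) (edgesIn hk H) (p : ℝ) := by
  intro E0 hE0
  let F : H.Subgraph :=
    { verts := {a | ∃ b, s(Fin.castLE hk a, Fin.castLE hk b) ∈ E0}
      Adj := fun a b => s(Fin.castLE hk a, Fin.castLE hk b) ∈ E0
      adj_sub := fun {a b} h => by
        obtain ⟨d, hd, he⟩ := mem_image.1 (hE0 h)
        have : d = s(a, b) := Sym2.map.injective (Fin.castLE_injective hk) (by simpa using he)
        subst this
        exact SimpleGraph.mem_edgeFinset.1 hd
      edge_vert := fun {a b} h => ⟨b, h⟩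
      symm := ⟨fun a b h => by rwa [Sym2.eq_swap]⟩ }
  set x := sets (pushed hk F) with hx
  have hx2 : x.2 = E0 := by
    ext e
    rw [hx, sets, Set.mem_toFinset, pushed, SimpleGraph.Subgraph.edgeSet_map]
    constructor
    · rintro ⟨d, hd, rfl⟩
      induction d using Sym2.ind with
      | h a b => exact hd
    · intro he
      obtain ⟨d, hd, rfl⟩ := mem_image.1 (hE0 he)
      refine ⟨d, ?_, rfl⟩
      induction d using Sym2.ind with
      | h a b => exact he
  have hfix : ∀ s : Equiv.Perm (Fin n), img s E0 ⊆ E0 → moves x s = x := by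
    intro s hs
    refine Prod.ext ?_ (by rw [moves, hx2]; exact eq_of_img_subset hs)
    show x.1.image s = x.1
    refine eq_of_subset_of_card_le ?_ (le_of_eq (card_image_of_injective _ s.injective).symm)
    intro z hz
    obtain ⟨y, hy, rfl⟩ := mem_image.1 hz
    have hy' : y ∈ (pushed hk F).verts := Set.mem_toFinset.1 hy
    obtain ⟨a, ⟨b, hb⟩, hay⟩ := hy'
    have h1 : s • s(Fin.castLE hk a, Fin.castLE hk b) ∈ x.2 :=
      hx2 ▸ hs (mem_image_of_mem _ hb)
    rw [smul_sym2, Sym2.map_mk, hx, sets, Set.mem_toFinset] at h1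
    refine Set.mem_toFinset.2 ?_
    rw [← hay]
    exact SimpleGraph.Subgraph.mem_verts_of_mem_edge h1 (Sym2.mem_mk_left _ _)
  have hX : X (Equiv.Perm (Fin n)) E0 E0 * (orbit2 x).card ≤ 1 := by
    rw [X, div_mul_eq_mul_div, div_le_one card_pos', ← card_orbit2_mul x, Nat.cast_mul]
    gcongr
    exact_mod_cast card_le_card (t := univ.filter fun s => moves x s = x) fun s hs => by
      simp only [mem_filter, mem_univ, true_and] at hs ⊢
      exact hfix s hs
  have h2 := hp F
  rw [mean_copies hk, ← hx, hx2] at h2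
  have h0 := X_nonneg (Γ := Equiv.Perm (Fin n)) E0 E0
  have h3 : (0 : ℝ) ≤ (p : ℝ) ^ E0.card := pow_nonneg p.2.1 _
  nlinarith

lemma le_of_spread (x : Finset (Fin n) × Finset (Sym2 (Fin n))) (c : ℕ) (r : ℝ)
    (S : Finset (Sym2 (Fin n))) (hc : c ≤ ((orbit2 x).filter fun y => y.2 ⊆ S).card)
    (h : X (Equiv.Perm (Fin n)) x.2 S ≤ r) : (c : ℝ) ≤ r * (orbit2 x).card := by
  refine le_trans (Nat.cast_le.2 hc) ?_
  have e : (univ.filter fun s : Equiv.Perm (Fin n) => img s x.2 ⊆ S).card
      = stab2 x * ((orbit2 x).filter fun y => y.2 ⊆ S).card := by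
    convert card_filter_moves x (fun y => y.2 ⊆ S) using 3
    · rfl
    · ext y
      simp
  rw [X, div_le_iff₀ card_pos', ← card_orbit2_mul x, e, Nat.cast_mul, Nat.cast_mul] at h
  have hs : (0 : ℝ) < (stab2 x : ℝ) := Nat.cast_pos.2 (stab2_pos x)
  exact le_of_mul_le_mul_left (le_of_le_of_eq h (by ring)) hs

/-- A spreadness bound on `H` transfers to the copy counts. -/
theorem frac_of_bound (hk : k ≤ n) (H : SimpleGraph (Fin k)) (p : unitInterval)
    (hX : ∀ T : Finset (Sym2 (Fin n)),
      X (Equiv.Perm (Fin n)) T (edgesIn hk H) ≤ (p : ℝ) ^ T.card) (F : H.Subgraph) :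
    (H.copyCount F.coe : ℝ) ≤
      ∫ G, (G.copyCount F.coe : ℝ) ∂SimpleGraph.binomialRandom (Fin n) p := by
  rw [mean_copies hk]
  exact le_of_spread _ _ _ _ (copies_le hk F) (hX _)

end Vale.Agent.P064
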